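import Vale.Agent.P182.H668.Split2

/-!
# The alternative in the input of the endgame
-/

namespace Vale.Agent.P182.H668

open LinearMap Submodule Module Vale.Agent.P182 Vale.Agent.P182.H430 Vale.Agent.P182.H578

variable {k F P : Type*} [Field k] [Field F] [Algebra k F] {C : Curve k F P}
variable {E : Type*} [AddCommGroup E] [Module F E] [Module k E] [IsScalarTower k F E]
variable {W : Type*} [AddCommGroup W] [Module F W] [Module k W] [IsScalarTower k F W]

/-- either `φ^* φ ≠ 0`, or there are two independent skew forms `β` on the image of `φ` whose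
levels are controlled by the levels of `M` (not only of `N`: this is what survives the
collapse) -/
def AltV (κ : P → ℤ) (M : Bun C W) (qM : LinearMap.BilinForm F W) (φ : E →ₗ[F] W) : Prop :=
  (∃ u v, qM (φ u) (φ v) ≠ 0) ∨
    ∃ β : Fin 2 → LinearMap.BilinForm F E, (∀ i u v, β i u v = - β i v u) ∧
      (∀ i p a b u v, φ u ∈ (M.ch p).L a → φ v ∈ (M.ch p).L b →
        β i u v ∈ (C.pl p).M (C.per p) (a + b - κ p)) ∧ LinearIndependent k β

end Vale.Agent.P182.H668
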