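import Vale.Agent.P182.H668.FinalSeen
import Vale.Agent.P182.H563.Glue2
import Vale.Agent.P182.H361.AltM
import Vale.Agent.P182.H120.Col2

/-!
# The endgame: the input of the strictly semistable case is contradictory
-/

set_option linter.unusedSectionVars false

namespace Vale.Agent.P182.H668

open LinearMap Submodule Module Vale.Agent.P182 Vale.Agent.P182.H430 Vale.Agent.P182.H578

universe u

variable {k F P : Type*} [Field k] [Field F] [Algebra k F] {C : Curve k F P}

section alt

variable {E : Type*} [AddCommGroup E] [Module F E] [Module k E] [IsScalarTower k F E]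
variable {W : Type*} [AddCommGroup W] [Module F W] [Module k W] [IsScalarTower k F W]

/-- the alternative after a twist -/
theorem altM_tw {κ θ : P → ℤ} {N : Bun C E} {M : Bun C W} {b : LinearMap.BilinForm F E}
    {q : LinearMap.BilinForm F W} {φ : E →ₗ[F] W} (h : H361.AltM κ N M b q φ)
    (hf : {p | θ p ≠ 0}.Finite) : H361.AltM κ (N.twist θ hf) (M.twist θ hf) b q φ := by
  rcases h with h | ⟨g, h1, h2, h3, h4⟩
  · exact Or.inl h
  · refine Or.inr ⟨g, h1, fun i p a c hac e he => ?_, h3, h4⟩
    have h5 := h2 i p (a - θ p) (c - θ p) hac e he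
    show g i e ∈ (N.ch p).L (c - κ p - θ p)
    rwa [show c - κ p - θ p = c - θ p - κ p by ring]

end alt

variable {E : Type u} [AddCommGroup E] [Module F E] [Module k E] [IsScalarTower k F E]
  [FiniteDimensional F E]
variable {W : Type u} [AddCommGroup W] [Module F W] [Module k W] [IsScalarTower k F W]
  [FiniteDimensional F W]
variable {U : Type u} [AddCommGroup U] [Module F U] [Module k U] [IsScalarTower k F U]
  [FiniteDimensional F U]
variable {U' : Type*} [AddCommGroup U'] [Module F U'] [Module k U'] [IsScalarTower k F U']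
  [FiniteDimensional F U']

variable {κ : P → ℤ} {N : Bun C E} {B : LinearMap.BilinForm F E} {M : Bun C W}
  {qM : LinearMap.BilinForm F W} {S : Bun C U} {S' : Bun C U'} {qS : U →ₗ[F] U' →ₗ[F] F}
  {x : E →ₗ[F] U} {φ : E →ₗ[F] W} {A : Submodule F E}

/-- **the endgame**, given the collapse -/
theorem false_of_col (h : L3In κ N B M qM S S' qS x φ A) (h2 : (2 : F) ≠ 0)
    (alt : H361.AltM κ N M B qM φ) (c : Col C) (fM : c.Flat M) (fS : c.Flat S)
    (fS' : c.Flat S') (hsee : Seen (c.bun M) (c.bun S) (c.bun S')) : False := by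
  have h' := h.col c fM fS fS'
  refine false_of_seen h' hsee h2 ?_
  rcases alt with alt | ⟨g, g1, g2, g3, g4⟩
  · exact Or.inl alt
  · refine Or.inr ⟨g, g1, fun i => ?_, g3, g4⟩
    exact H716.higgs_iff.1 (c.higgs_of_seen h.hκ fM (g2 i))

theorem L3In.nontrivialW (h : L3In κ N B M qM S S' qS x φ A) : Nontrivial W := by
  obtain ⟨u, v, hu, -, huv⟩ := h.hφφ
  by_contra hW
  rw [not_nontrivial_iff_subsingleton] at hW
  exact huv (hu v (Subsingleton.elim _ _))

/-- **THE ENDGAME**: the input is contradictory -/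
theorem endgame (h : L3In κ N B M qM S S' qS x φ A) (h2 : (2 : F) ≠ 0)
    (alt : H361.AltM κ N M B qM φ) : False := by
  have := h.nontrivialW
  obtain ⟨c, fM, fS, fS', -, hsee⟩ := H120.exists_col h.hκ h.oM h.oS
  exact false_of_col h h2 alt c fM fS fS' hsee

/-- the same with the other form of the alternative -/
theorem endgame' (h : L3In κ N B M qM S S' qS x φ A) (h2 : (2 : F) ≠ 0)
    (alt : AltV κ M qM φ) : False := by
  have := h.nontrivialW
  obtain ⟨c, fM, fS, fS', -, hsee⟩ := H120.exists_col h.hκ h.oM h.oS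
  have h' := h.col c fM fS fS'
  have ha : AltV (C := c.curve) (c.kap κ) (c.bun M) qM φ := alt.col c fM h.hκ
  exact false_of_seenV h' hsee h2 ha

/-- **THE ENDGAME**, from the input of `H735` and versality -/
theorem endgame_inp [IsAlgClosed k] (hκ : Dualizing C κ) (h2 : (2 : F) ≠ 0)
    {θ : P → ℤ} {M₀ : Bun C W} {S₀ : Bun C U} {N₀ : Bun C E}
    (I : H735.Inp κ N₀ B M₀ qM S₀ x φ) (hθ : ∀ p, κ p = 2 * θ p) (hf : {p | θ p ≠ 0}.Finite)
    (vv : VV (N₀.twist θ hf) B) (alt : H361.AltM κ N₀ M₀ B qM φ) : False := by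
  obtain ⟨A, X, h⟩ := H563.exists_l3In hκ h2 I hθ hf
  exact endgame (L3In.of563 h vv h2) h2 (altM_tw alt hf)

end Vale.Agent.P182.H668
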