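import Vale.Agent.P182.H668.Numbers

/-!
# Interfaces for the exclusion of the strictly semistable case (361 NOTE 4, 735 NOTE 6, 668 NOTE 7)
-/

namespace Vale.Agent.P182.H668

open LinearMap Submodule Module Vale.Agent.P182 Vale.Agent.P182.H430 Vale.Agent.P182.H578

section

variable {k F P : Type*} [Field k] [Field F] [Algebra k F] {C : Curve k F P}
variable {E : Type*} [AddCommGroup E] [Module F E] [Module k E] [IsScalarTower k F E]
  [FiniteDimensional F E]
variable {E₂ : Type*} [AddCommGroup E₂] [Module F E₂] [Module k E₂] [IsScalarTower k F E₂]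
  [FiniteDimensional F E₂]

/-- a bundle with a perfect symmetric form with values in the dualizing sheaf -/
structure OrthV (κ : P → ℤ) (M : Bun C E) (q : LinearMap.BilinForm F E) : Prop where
  dual : ∀ p a x, x ∈ (M.ch p).L a ↔
    ∀ b y, y ∈ (M.ch p).L b → q x y ∈ (C.pl p).M (C.per p) (a + b - κ p)
  symm : ∀ x y, q x y = q y x
  nd : ∀ x, (∀ y, q x y = 0) → x = 0

/-- there are no homomorphisms -/
def NoHom (A : Bun C E) (B : Bun C E₂) : Prop := ∀ f ∈ HZ (A.hom B).lat, f = 0

/-- the dual with values in the dualizing sheaf -/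
noncomputable def dV {κ : P → ℤ} (hκ : Dualizing C κ) (S : Bun C E) : Bun C (Dual F E) :=
  S.dual.twist κ hκ.fin

omit [IsScalarTower k F E] in
/-- levels at which derivations act -/
theorem mem_dV [IsScalarTower k F E] {κ : P → ℤ} (hκ : Dualizing C κ) (S : Bun C E) (p : P) (a : ℤ)
    (ξ : Dual F E) : ξ ∈ ((dV hκ S).ch p).L a ↔
      ∀ b y, y ∈ (S.ch p).L b → ξ y ∈ (C.pl p).M (C.per p) (a + b - κ p) := by
  show ξ ∈ ((S.ch p).dual).L (a + -κ p) ↔ _
  rw [LChain.mem_dual]
  refine forall_congr' fun b => forall_congr' fun y => imp_congr_right fun _ => ?_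
  rw [show b + (a + -κ p) = a + b - κ p by ring]

/-- **Versality**: every class in `H¹(so N)` concentrated at one place is the Kodaira-Spencer class
of a derivation.  At the places of period one only the level `0` is used. -/
def VV (N : Bun C E) (B : LinearMap.BilinForm F E) : Prop :=
  ∀ p, ∀ a ∈ adj B (-1), ∃ (δ : Derivation ℤ F F) (D : E → E), IsConn δ D ∧ IsMetric B δ D ∧
    (∀ q, q ≠ p → ∀ b, (C.per q = 1 → b = 0) → ∀ y ∈ (N.ch q).L b, D y ∈ (N.ch q).L b) ∧
    (∀ b, (C.per p = 1 → b = 0) → ∀ y ∈ (N.ch p).L b, D y + a y ∈ (N.ch p).L b)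

end

end Vale.Agent.P182.H668
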