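import Vale.Agent.P182.H668.Adams3
import Vale.Agent.P182.H578.N1b

/-!
# Two orthogonal bricks with proportional classes
-/

namespace Vale.Agent.P182.H668

open LinearMap Submodule Module Vale.Agent.P182 Vale.Agent.P182.H430 Vale.Agent.P182.H578

universe u

variable {k F P : Type*} [Field k] [Field F] [Algebra k F] {C : Curve k F P}
variable {E : Type u} [AddCommGroup E] [Module F E] [Module k E] [IsScalarTower k F E]
  [FiniteDimensional F E]

/-- a bundle with a perfect symmetric form -/
structure Orth (N : Bun C E) (B : LinearMap.BilinForm F E) : Prop where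
  dual : SelfDual N B
  symm : ∀ x y, B x y = B y x
  nd : ∀ x, (∀ y, B x y = 0) → x = 0

section Adj

variable {B : LinearMap.BilinForm F E} (hnd : ∀ x, (∀ y, B x y = 0) → x = 0)

/-- the adjoint of an operator, linear in the operator -/
noncomputable def adjL : (E →ₗ[F] E) →ₗ[F] (E →ₗ[F] E) where
  toFun T := (exists_adj hnd T).choose
  map_add' S T := by
    apply ext_form hnd
    intro x y
    rw [(exists_adj hnd (S + T)).choose_spec, LinearMap.add_apply, map_add, LinearMap.add_apply,
      map_add, LinearMap.add_apply, (exists_adj hnd S).choose_spec,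
      (exists_adj hnd T).choose_spec]
  map_smul' c T := by
    apply ext_form hnd
    intro x y
    rw [(exists_adj hnd (c • T)).choose_spec, RingHom.id_apply, LinearMap.smul_apply, map_smul,
      LinearMap.smul_apply, map_smul, LinearMap.smul_apply, (exists_adj hnd T).choose_spec]

omit [Module k E] [IsScalarTower k F E] in
theorem adjL_spec (T : E →ₗ[F] E) (x y : E) : B (adjL hnd T x) y = B x (T y) :=
  (exists_adj hnd T).choose_spec x y

omit [Module k E] [IsScalarTower k F E] in
theorem adjL_adjL (hB : ∀ x y, B x y = B y x) (T : E →ₗ[F] E) : adjL hnd (adjL hnd T) = T := by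
  apply ext_form hnd
  intro x y
  rw [adjL_spec, hB, adjL_spec, hB]

omit [Module k E] [IsScalarTower k F E] in
theorem adjL_of_mem {ε : F} (hε : ε * ε = 1) {T : E →ₗ[F] E} (hT : T ∈ adj B ε) :
    adjL hnd T = ε • T := by
  apply ext_form hnd
  intro x y
  rw [adjL_spec, LinearMap.smul_apply, map_smul, LinearMap.smul_apply, hT x y, smul_eq_mul,
    ← mul_assoc, hε, one_mul]

/-- the projection to the `ε`-adjoint operators -/
noncomputable def prj (ε : F) : (E →ₗ[F] E) →ₗ[F] (E →ₗ[F] E) :=
  (2 : F)⁻¹ • (LinearMap.id + ε • adjL hnd)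

omit [Module k E] [IsScalarTower k F E] in
theorem prj_apply (ε : F) (T : E →ₗ[F] E) :
    prj hnd ε T = (2 : F)⁻¹ • (T + ε • adjL hnd T) := rfl

omit [Module k E] [IsScalarTower k F E] in
theorem prj_mem (hB : ∀ x y, B x y = B y x) {ε : F} (hε : ε * ε = 1) (T : E →ₗ[F] E) :
    prj hnd ε T ∈ adj B ε := by
  rw [prj_apply]
  apply Submodule.smul_mem
  intro x y
  have h1 : B (T x) y = B x (adjL hnd T y) := by
    rw [hB x, adjL_spec, hB]
  rw [LinearMap.add_apply, LinearMap.smul_apply, map_add, map_smul, LinearMap.add_apply,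
    LinearMap.smul_apply, adjL_spec, LinearMap.add_apply, LinearMap.smul_apply, map_add, map_smul,
    h1, smul_eq_mul, smul_eq_mul, mul_add, ← mul_assoc, hε, one_mul]
  ring

omit [Module k E] [IsScalarTower k F E] in
theorem prj_of_mem (h2 : (2 : F) ≠ 0) {ε : F} (hε : ε * ε = 1) {T : E →ₗ[F] E}
    (hT : T ∈ adj B ε) : prj hnd ε T = T := by
  rw [prj_apply, adjL_of_mem hnd hε hT, smul_smul, hε, one_smul, ← two_smul F T, smul_smul,
    inv_mul_cancel₀ h2, one_smul]

omit [Module k E] [IsScalarTower k F E] in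
theorem prj_add (h2 : (2 : F) ≠ 0) (ε : F) (T : E →ₗ[F] E) :
    prj hnd ε T + prj hnd (-ε) T = T := by
  rw [prj_apply, prj_apply, ← smul_add, neg_smul]
  have : T + ε • adjL hnd T + (T + -(ε • adjL hnd T)) = (2 : F) • T := by
    rw [two_smul]; abel
  rw [this, smul_smul, inv_mul_cancel₀ h2, one_smul]

include hnd in
omit [Module k E] [IsScalarTower k F E] in
theorem trace_adj_neg (h2 : (2 : F) ≠ 0) {ε : F} (hε : ε * ε = 1) {S T : E →ₗ[F] E}
    (hS : S ∈ adj B ε) (hT : T ∈ adj B (-ε)) : LinearMap.trace F E (S * T) = 0 := by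
  have h1 : ε = 1 ∨ ε = -1 := by
    have : (ε - 1) * (ε + 1) = 0 := by linear_combination hε
    rcases mul_eq_zero.1 this with h | h
    · exact Or.inl (sub_eq_zero.1 h)
    · exact Or.inr (eq_neg_of_add_eq_zero_left h)
  rcases h1 with rfl | rfl
  · exact trace_adj_mul h2 hnd hS hT
  · rw [neg_neg] at hT
    rw [LinearMap.trace_mul_comm]
    exact trace_adj_mul h2 hnd hT hS

end Adj

section Bundle

variable {N : Bun C E} {B : LinearMap.BilinForm F E}

omit [IsScalarTower k F E] [FiniteDimensional F E] in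
/-- units at all places -/
theorem unit_smul_mem {p : P} {L : LChain (C.pl p) (C.per p) E} {c : F} (hc : c ≠ 0)
    (h0 : (C.pl p).ord c = 0) {a : ℤ} {x : E} (hx : x ∈ L.L a) : c • x ∈ L.L a := by
  rw [L.smul_iff c hc, h0, mul_zero, sub_zero]
  exact hx

theorem ord_sign {p : P} {ε : F} (hε : ε * ε = 1) : (C.pl p).ord ε = 0 := by
  have hε0 : ε ≠ 0 := by
    rintro rfl
    simp at hε
  have h1 := (C.pl p).ord_mul ε ε hε0 hε0
  rw [hε, (C.pl p).ord_one] at h1
  omega

theorem ord_two (h2k : ((2 : k)⁻¹ * 2 : k) = 1) (p : P) : (C.pl p).ord (2 : F)⁻¹ = 0 := by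
  have h2 : (2 : k) ≠ 0 := by
    intro h
    rw [h] at h2k
    simp at h2k
  have h3 : (2 : F)⁻¹ = algebraMap k F (2 : k)⁻¹ := by
    rw [map_inv₀, map_ofNat]
  rw [h3]
  exact (C.pl p).ord_alg _ (inv_ne_zero h2)

theorem prj_level (hs : Orth N B) (h2 : (2 : F) ≠ 0) (h2k : ((2 : k)⁻¹ * 2 : k) = 1) {ε : F}
    (hε : ε * ε = 1) {p : P} {c : ℤ} {T : E →ₗ[F] E} (hT : T ∈ ((N.hom N).ch p).L c) :
    prj hs.nd ε T ∈ ((N.hom N).ch p).L c := by
  rw [prj_apply]
  refine unit_smul_mem (inv_ne_zero h2) (ord_two h2k p) (Submodule.add_mem _ hT ?_)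
  have hε0 : ε ≠ 0 := by
    rintro rfl
    simp at hε
  refine unit_smul_mem hε0 (ord_sign hε) ?_
  exact hs.dual.adj_mem (adjL_spec hs.nd T) hT

/-- SERRE DUALITY for the `ε`-adjoint operators -/
theorem Orth.dpair (hs : Orth N B) (h2 : (2 : F) ≠ 0) (h2k : ((2 : k)⁻¹ * 2 : k) = 1) {ε : F}
    (hε : ε * ε = 1) : DPair ((N.hom N).sub (adj B ε)) ((N.hom N).sub (adj B ε))
      (tres (trp F E E) (adj B ε) (adj B ε)) := by
  refine (DPair.hom N N).restrict (adj B ε) (adj B ε) (prj hs.nd ε) (prj_mem hs.nd hs.symm hε)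
    (fun y hy => prj_of_mem hs.nd h2 hε hy) ?_ ?_ (fun p a y hy => prj_level hs h2 h2k hε hy)
  · intro y hy
    rw [mem_perp] at hy
    apply eq_zero_of_trace h2 hε hs.symm hs.nd (prj_mem hs.nd hs.symm hε y)
    intro T hT
    have h3 := hy T hT
    rw [trp_apply] at h3
    have h4 : LinearMap.trace F E (y * T) = 0 := h3
    have h5 : LinearMap.trace F E (prj hs.nd (-ε) y * T) = 0 := by
      rw [LinearMap.trace_mul_comm]
      exact trace_adj_neg hs.nd h2 hε hT (prj_mem hs.nd hs.symm (by linear_combination hε) y)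
    have h6 := prj_add hs.nd h2 ε y
    rw [← h6, add_mul, map_add, h5, add_zero] at h4
    exact h4
  · intro x hx y
    rw [trp_apply, trp_apply]
    have h5 : LinearMap.trace F E (prj hs.nd (-ε) y * x) = 0 := by
      rw [LinearMap.trace_mul_comm]
      exact trace_adj_neg hs.nd h2 hε hx (prj_mem hs.nd hs.symm (by linear_combination hε) y)
    have h6 := prj_add hs.nd h2 ε y
    have h7 : LinearMap.trace F E (y * x) = LinearMap.trace F E (prj hs.nd ε y * x) := by
      conv_lhs => rw [← h6]
      rw [add_mul, map_add, h5, add_zero]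
    exact h7.symm

/-- `χ (End N) = χ (symmetric) + χ (skew)` -/
theorem Orth.chi_end (hs : Orth N B) (h2 : (2 : F) ≠ 0) (h2k : ((2 : k)⁻¹ * 2 : k) = 1) :
    chi (N.hom N).lat = cs (N.hom N) (adj B 1) + cs (N.hom N) (adj B (-1)) := by
  have hε : (-1 : F) * -1 = 1 := by ring
  let f : (E →ₗ[F] E) →ₗ[F] adj B (-1) :=
    (prj hs.nd (-1)).codRestrict (adj B (-1)) (prj_mem hs.nd hs.symm hε)
  have hf : ∀ T, (f T : E →ₗ[F] E) = prj hs.nd (-1) T := fun T => rfl
  have hsurj : ∀ T : adj B (-1), f T = T := fun T =>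
    Subtype.ext (prj_of_mem hs.nd h2 hε T.2)
  have h3 := (N.hom N).chi_add_of_surj ((N.hom N).sub (adj B (-1))) f
    (fun T => ⟨T, hsurj T⟩)
    (fun p T hT => prj_level hs h2 h2k hε hT)
    (fun p T hT => ⟨T, hT, hsurj T⟩)
  have h4 : LinearMap.ker f = adj B 1 := by
    ext T
    rw [LinearMap.mem_ker]
    constructor
    · intro h
      have h5 : prj hs.nd (-1) T = 0 := by rw [← hf, h]; rfl
      have h6 := prj_add hs.nd h2 1 T
      rw [h5, add_zero] at h6
      rw [← h6]
      exact prj_mem hs.nd hs.symm (by ring) T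
    · intro h
      apply Subtype.ext
      rw [hf]
      have h6 := prj_add hs.nd h2 1 T
      rw [prj_of_mem hs.nd h2 (by ring) h] at h6
      exact left_eq_add.1 h6.symm
  rw [h4] at h3
  exact h3

/-- symmetric and skew operators as forms -/
theorem Orth.cs_eq (hs : Orth N B) {ε : F} (hε : ε * ε = 1) :
    cs (N.hom N) (adj B ε) = N.chiF ε := by
  have hinj : Function.Injective B := by
    rw [injective_iff_map_eq_zero]
    intro x hx
    exact hs.nd x fun y => by rw [hx]; rfl
  have hd : Module.finrank F E = Module.finrank F (E →ₗ[F] F) :=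
    (Subspace.dual_finrank_eq (K := F) (V := E)).symm
  let e : E ≃ₗ[F] (E →ₗ[F] F) := LinearEquiv.ofInjectiveOfFinrankEq B hinj hd
  have he : ∀ x y, e x y = B x y := fun x y => rfl
  let e' : E ≃ₗ[F] Du F E := e.trans Du.equiv.symm
  have he' : ∀ x y, e' x y = B x y := fun x y => rfl
  let g : adj B ε ≃ₗ[F] formsE F E ε :=
    { toFun := fun T => ⟨e'.toLinearMap ∘ₗ T.1, fun x y => by
        show B (T.1 y) x = ε * B (T.1 x) y
        rw [hs.symm (T.1 y) x, T.2 x y, ← mul_assoc, hε, one_mul]⟩
      map_add' := fun S T => by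
        apply Subtype.ext
        ext x y
        show B ((S.1 + T.1) x) y = B (S.1 x) y + B (T.1 x) y
        rw [LinearMap.add_apply, map_add, LinearMap.add_apply]
      map_smul' := fun c T => by
        apply Subtype.ext
        ext x y
        show B ((c • T.1) x) y = c * B (T.1 x) y
        rw [LinearMap.smul_apply, map_smul, LinearMap.smul_apply, smul_eq_mul]
      invFun := fun A => ⟨e'.symm.toLinearMap ∘ₗ A.1, fun x y => by
        have h1 : ∀ z w, B (e'.symm (A.1 z)) w = A.1 z w := fun z w => by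
          rw [← he', LinearEquiv.apply_symm_apply]
        show B (e'.symm (A.1 x)) y = ε * B x (e'.symm (A.1 y))
        rw [hs.symm x, h1, h1, A.2 x y, ← mul_assoc, hε, one_mul]⟩
      left_inv := fun T => by
        apply Subtype.ext
        apply LinearMap.ext
        intro x
        show e'.symm (e' (T.1 x)) = T.1 x
        rw [LinearEquiv.symm_apply_apply]
      right_inv := fun A => by
        apply Subtype.ext
        apply LinearMap.ext
        intro x
        show e' (e'.symm (A.1 x)) = A.1 x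
        rw [LinearEquiv.apply_symm_apply] }
  refine (((N.hom N).sub (adj B ε)).chi_eq_of_equiv (N.bl.sub (formsE F E ε)) g ?_).1
  intro p T
  show T.1 ∈ (N.hom N).lat p ↔ (g T).1 ∈ N.bl.lat p
  rw [Bun.mem_hom_lat, Bun.mem_bl_lat]
  have h2 : ∀ x y, (g T).1 x y = B (T.1 x) y := fun x y => rfl
  constructor
  · intro h a x hx b y hy
    rw [h2]
    exact (hs.dual p a (T.1 x)).1 (h a x hx) b y hy
  · intro h b x hx
    rw [hs.dual p b (T.1 x)]
    intro a y hy
    exact h b x hx a y hy

/-- the dual of an orthogonal bundle -/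
theorem Orth.chi_du (hs : Orth N B) {n : P → ℤ} (hn : {p | n p ≠ 0}.Finite) :
    chi (N.du.twist n hn).lat = chi (N.twist n hn).lat := by
  have hinj : Function.Injective B := by
    rw [injective_iff_map_eq_zero]
    intro x hx
    exact hs.nd x fun y => by rw [hx]; rfl
  have hd : Module.finrank F E = Module.finrank F (E →ₗ[F] F) :=
    (Subspace.dual_finrank_eq (K := F) (V := E)).symm
  let e : E ≃ₗ[F] (E →ₗ[F] F) := LinearEquiv.ofInjectiveOfFinrankEq B hinj hd
  let e' : E ≃ₗ[F] Du F E := e.trans Du.equiv.symm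
  have he' : ∀ x y, e' x y = B x y := fun x y => rfl
  refine ((N.twist n hn).chi_eq_of_equiv (N.du.twist n hn) e' ?_).1.symm
  intro p x
  rw [Bun.mem_twist_lat, Bun.mem_twist_lat, Bun.mem_du_ch, hs.dual p (-n p) x]
  constructor
  · intro h a y hy
    rw [he', add_comm]
    exact h a y hy
  · intro h a y hy
    have := h a y hy
    rwa [he', add_comm] at this

omit [IsScalarTower k F E] in
theorem Orth.pair (hs : Orth N B) : DPair N N B := by
  have hinj : Function.Injective B.flip := by
    rw [injective_iff_map_eq_zero]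
    intro x hx
    refine hs.nd x fun y => ?_
    rw [hs.symm]
    have := LinearMap.congr_fun hx y
    exact this
  have hd : Module.finrank F E = Module.finrank F (E →ₗ[F] F) :=
    (Subspace.dual_finrank_eq (K := F) (V := E)).symm
  refine ⟨⟨hinj, (LinearMap.injective_iff_surjective_of_finrank_eq_finrank hd).1 hinj⟩, ?_⟩
  intro p c y
  rw [hs.dual p c y]
  constructor
  · intro h a x hx
    rw [hs.symm, add_comm]
    exact h a x hx
  · intro h b x hx
    rw [hs.symm, add_comm]
    exact h b x hx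

/-- the Euler characteristic of an orthogonal bundle -/
theorem Orth.chi_eq (hs : Orth N B) {κ : P → ℤ} (hκ : Dualizing C κ) :
    2 * chi N.lat = 2 * finrank F E -
      ∑ p ∈ hκ.fin.toFinset, ((finrank F E : ℤ) - mult (N.ch p) 0) := by
  have h1 := (hs.pair.serre hκ).2.2.2
  have h2 := chi_tw hκ N
  rw [h1] at h2
  linarith

/-- `χ (symmetric) - χ (skew)` -/
theorem Orth.ell (hs : Orth N B) (h2 : (2 : F) ≠ 0) {κ : P → ℤ} (hκ : Dualizing C κ) :
    cs (N.hom N) (adj B 1) - cs (N.hom N) (adj B (-1)) =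
      finrank F E - ∑ p ∈ hκ.fin.toFinset, ((finrank F E : ℤ) - mult (N.ch p) 0) +
        ∑ p ∈ (hf_fin C).toFinset, jmp (N.ch p) (hf C p) := by
  rw [hs.cs_eq (by ring), hs.cs_eq (by ring), adams' h2, hs.chi_du (hf_fin C), chi_twist]
  have h1 : chi N.du.lat = chi N.lat := by
    have h3 := hs.chi_du (n := 0) (by simp)
    have e1 : (N.du.twist 0 (by simp)).lat = N.du.lat := by
      funext p
      ext φ
      rw [Bun.mem_twist_lat]
      simp [Bun.lat]
    have e2 : (N.twist 0 (by simp)).lat = N.lat := by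
      funext p
      ext φ
      rw [Bun.mem_twist_lat]
      simp [Bun.lat]
    rw [e1, e2] at h3
    exact h3
  have h4 := hs.chi_eq hκ
  rw [h1]
  linarith

end Bundle

end Vale.Agent.P182.H668
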