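import Vale.Agent.P182.H668.HomSeq

/-!
# Serre duality between the two sides
-/

namespace Vale.Agent.P182.H668

open LinearMap Submodule Module Vale.Agent.P182 Vale.Agent.P182.H430 Vale.Agent.P182.H578

variable {k F P : Type*} [Field k] [Field F] [Algebra k F] {C : Curve k F P}
variable {E : Type*} [AddCommGroup E] [Module F E] [Module k E] [IsScalarTower k F E]
  [FiniteDimensional F E]
variable {E' : Type*} [AddCommGroup E'] [Module F E'] [Module k E'] [IsScalarTower k F E']
  [FiniteDimensional F E']
variable {U : Type*} [AddCommGroup U] [Module F U] [Module k U] [IsScalarTower k F U]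
  [FiniteDimensional F U]
variable {U' : Type*} [AddCommGroup U'] [Module F U'] [Module k U'] [IsScalarTower k F U']
  [FiniteDimensional F U']

/-- a perfect pairing with values in the dualizing sheaf -/
structure DPairV (κ : P → ℤ) (S : Bun C U) (S' : Bun C U') (q : U →ₗ[F] U' →ₗ[F] F) : Prop where
  bij : Function.Bijective q.flip
  mem : ∀ p c y, y ∈ (S'.ch p).L c ↔
    ∀ a x, x ∈ (S.ch p).L a → q x y ∈ (C.pl p).M (C.per p) (a + c - κ p)

omit [Module k E] [IsScalarTower k F E] in
theorem flip_bij {B : LinearMap.BilinForm F E} (hB : ∀ x y, B x y = B y x)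
    (nd : ∀ x, (∀ y, B x y = 0) → x = 0) : Function.Bijective B.flip := by
  have hinj : Function.Injective B.flip := by
    rw [injective_iff_map_eq_zero]
    intro x hx
    refine nd x fun y => ?_
    rw [hB]
    have := LinearMap.congr_fun hx y
    exact this
  have hd : Module.finrank F E = Module.finrank F (E →ₗ[F] F) :=
    (Subspace.dual_finrank_eq (K := F) (V := E)).symm
  exact ⟨hinj, (LinearMap.injective_iff_surjective_of_finrank_eq_finrank hd).1 hinj⟩

omit [IsScalarTower k F U] in
theorem OrthV.pair {κ : P → ℤ} {M : Bun C U} {q : LinearMap.BilinForm F U} (h : OrthV κ M q) :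
    DPairV κ M M q := by
  refine ⟨?_, ?_⟩
  · exact flip_bij h.symm h.nd
  · intro p c y
    rw [h.dual p c y]
    constructor
    · intro h1 a x hx
      rw [h.symm, add_comm a c]
      exact h1 a x hx
    · intro h1 b x hx
      rw [h.symm, add_comm c b]
      exact h1 b x hx

omit [IsScalarTower k F U'] in
theorem DPairV.symm {κ : P → ℤ} {S : Bun C U} {S' : Bun C U'} {q : U →ₗ[F] U' →ₗ[F] F}
    (h : DPairV κ S S' q) : DPairV κ S' S q.flip := by
  let e : U' ≃ₗ[F] Dual F U := LinearEquiv.ofBijective q.flip h.bij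
  have he : ∀ y s, e y s = q s y := fun _ _ => rfl
  have hinj : Function.Injective q := by
    rw [injective_iff_map_eq_zero]
    intro x hx
    rw [← Module.forall_dual_apply_eq_zero_iff F]
    intro ξ
    obtain ⟨y, rfl⟩ := e.surjective ξ
    rw [he, hx, LinearMap.zero_apply]
  have hd : finrank F U = finrank F (Dual F U') := by
    rw [Subspace.dual_finrank_eq, e.finrank_eq, Subspace.dual_finrank_eq]
  refine ⟨?_, ?_⟩
  · rw [LinearMap.flip_flip]
    exact ⟨hinj, (LinearMap.injective_iff_surjective_of_finrank_eq_finrank hd).1 hinj⟩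
  · intro p c y
    constructor
    · intro hy a x hx
      have := (h.mem p a x).1 hx c y hy
      rwa [add_comm c a] at this
    · intro hy
      rw [LChain.mem_iff_dual (S.ch p)]
      intro b ξ hξ
      rw [LChain.mem_dual] at hξ
      obtain ⟨x, rfl⟩ := e.surjective ξ
      have hx : x ∈ (S'.ch p).L (b + κ p) := by
        rw [h.mem]
        intro a s hs
        have := hξ a s hs
        rwa [show a + (b + κ p) - κ p = a + b by ring]
      have := hy _ x hx
      rwa [show b + κ p + c - κ p = c + b by ring] at this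

theorem dV_pair {κ : P → ℤ} (hκ : Dualizing C κ) (S : Bun C U) :
    DPairV κ S (dV hκ S) (LinearMap.id : Dual F U →ₗ[F] Dual F U).flip := by
  refine ⟨?_, ?_⟩
  · rw [LinearMap.flip_flip]
    exact Function.bijective_id
  · intro p c ξ
    rw [mem_dV]
    constructor
    · intro h a x hx
      rw [add_comm a c]
      exact h a x hx
    · intro h a x hx
      rw [add_comm c a]
      exact h a x hx

/-- the adjoint of a map with respect to two pairings -/
noncomputable def tr2 {T : E →ₗ[F] E' →ₗ[F] F} {q : U →ₗ[F] U' →ₗ[F] F}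
    (hq : Function.Bijective q.flip) : (U →ₗ[F] E) →ₗ[F] (E' →ₗ[F] U') where
  toFun f := (LinearEquiv.ofBijective q.flip hq).symm.toLinearMap ∘ₗ f.dualMap ∘ₗ T.flip
  map_add' f g := by
    apply LinearMap.ext
    intro α
    show (LinearEquiv.ofBijective q.flip hq).symm (T.flip α ∘ₗ (f + g)) =
      (LinearEquiv.ofBijective q.flip hq).symm (T.flip α ∘ₗ f) +
        (LinearEquiv.ofBijective q.flip hq).symm (T.flip α ∘ₗ g)
    rw [LinearMap.comp_add, map_add]
  map_smul' c f := by
    apply LinearMap.ext
    intro α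
    show (LinearEquiv.ofBijective q.flip hq).symm (T.flip α ∘ₗ (c • f)) =
      c • (LinearEquiv.ofBijective q.flip hq).symm (T.flip α ∘ₗ f)
    rw [LinearMap.comp_smul, map_smul]

omit [Module k E] [IsScalarTower k F E] [FiniteDimensional F E] [Module k E'] [IsScalarTower k F E']
  [FiniteDimensional F E'] [Module k U] [IsScalarTower k F U] [FiniteDimensional F U]
  [Module k U'] [IsScalarTower k F U'] [FiniteDimensional F U'] in
theorem tr2_spec {T : E →ₗ[F] E' →ₗ[F] F} {q : U →ₗ[F] U' →ₗ[F] F}
    (hq : Function.Bijective q.flip) (f : U →ₗ[F] E) (α : E') (s : U) :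
    q s (tr2 (T := T) hq f α) = T (f s) α := by
  have h : q.flip (tr2 (T := T) hq f α) = T.flip α ∘ₗ f :=
    LinearEquiv.apply_symm_apply (LinearEquiv.ofBijective q.flip hq) (T.flip α ∘ₗ f)
  exact LinearMap.congr_fun h s

/-- **Serre duality.**  `Ext (A, S) = Hom (A', S')^*`. -/
theorem serreV {κ : P → ℤ} (hκ : Dualizing C κ) {A : Bun C E} {A' : Bun C E'}
    {T : E →ₗ[F] E' →ₗ[F] F} (h : DPair A A' T) {S : Bun C U} {S' : Bun C U'}
    {q : U →ₗ[F] U' →ₗ[F] F} (hv : DPairV κ S S' q) :
    h1 (A.hom S).lat = h0 (A'.hom S').lat ∧ h0 (A.hom S).lat = h1 (A'.hom S').lat ∧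
      chi (A'.hom S').lat = -chi (A.hom S).lat := by
  have hT : Function.Bijective T := by
    have := h.symm.bij
    rwa [LinearMap.flip_flip] at this
  have hinj : Function.Injective (tr2 (T := T) hv.bij) := by
    rw [injective_iff_map_eq_zero]
    intro f hf
    apply LinearMap.ext
    intro s
    apply hT.1
    rw [LinearMap.zero_apply, map_zero]
    apply LinearMap.ext
    intro α
    have h1 := tr2_spec (T := T) hv.bij f α s
    rw [hf, LinearMap.zero_apply, map_zero] at h1
    rw [← h1]
    rfl
  have d1 : finrank F E' = finrank F E := by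
    rw [h.equiv.finrank_eq, Subspace.dual_finrank_eq]
  have d2 : finrank F U' = finrank F U := by
    rw [(LinearEquiv.ofBijective q.flip hv.bij).finrank_eq, Subspace.dual_finrank_eq]
  have hd : finrank F (U →ₗ[F] E) = finrank F (E' →ₗ[F] U') := by
    rw [Module.finrank_linearMap, Module.finrank_linearMap, d1, d2, mul_comm]
  let e : (U →ₗ[F] E) ≃ₗ[F] (E' →ₗ[F] U') := LinearEquiv.ofInjectiveOfFinrankEq _ hinj hd
  have he : ∀ f α s, q s (e f α) = T (f s) α := fun f α s => tr2_spec (T := T) hv.bij f α s
  have hmem : ∀ p (f : U →ₗ[F] E), f ∈ (S.hom A).tw κ p ↔ e f ∈ (A'.hom S').lat p := by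
    intro p f
    rw [Bun.mem_hom_lat]
    constructor
    · intro hf a α hα
      rw [hv.mem]
      intro b s hs
      rw [he]
      have h1 : f s ∈ (A.ch p).L (b + -κ p) := hf b s hs
      have h2 := (h.mem p a α).1 hα _ _ h1
      rwa [show b + -κ p + a = b + a - κ p by ring] at h2
    · intro hf b s hs
      show f s ∈ (A.ch p).L (b + -κ p)
      rw [h.symm.mem]
      intro a α hα
      have h1 := (hv.mem p a _).1 (hf a α hα) b s hs
      rw [he] at h1
      show T (f s) α ∈ _
      rwa [show a + (b + -κ p) = b + a - κ p by ring]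
  have h2 := coh_equiv (e.restrictScalars k) hmem
  have h3 := (DPair.hom A S).serre hκ
  refine ⟨?_, ?_, ?_⟩
  · rw [← h2.2.1, h3.2.1]
  · rw [← h2.2.2.1, h3.2.2.1]
  · rw [← h2.2.2.2, h3.2.2.2]

end Vale.Agent.P182.H668
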