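import Vale.Agent.P182.H668.Red

/-!
# Splitting of an orthogonal bundle along an orthogonal subbundle
-/

namespace Vale.Agent.P182.H668

open LinearMap Submodule Module Vale.Agent.P182 Vale.Agent.P182.H430 Vale.Agent.P182.H578

variable {k F P : Type*} [Field k] [Field F] [Algebra k F] {C : Curve k F P}
variable {E : Type*} [AddCommGroup E] [Module F E] [Module k E] [IsScalarTower k F E]
  [FiniteDimensional F E]
variable {E' : Type*} [AddCommGroup E'] [Module F E'] [Module k E'] [IsScalarTower k F E']
  [FiniteDimensional F E']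
variable {W : Type*} [AddCommGroup W] [Module F W] [Module k W] [IsScalarTower k F W]
  [FiniteDimensional F W]

/-! ### orthogonal complements -/

section lin

variable {B : LinearMap.BilinForm F E}

/-- the restriction of a form -/
def rF (B : LinearMap.BilinForm F E) (R : Submodule F E) : LinearMap.BilinForm F R :=
  B.domRestrict₁₂ R R

omit [Module k E] [IsScalarTower k F E] [FiniteDimensional F E] in
theorem rF_apply (R : Submodule F E) (x y : R) : rF B R x y = B x y := rfl

omit [Module k E] [IsScalarTower k F E] in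
theorem perp_perp' (hB : ∀ x y, B x y = B y x) (nd : ∀ x, (∀ y, B x y = 0) → x = 0)
    (G : Submodule F E) : perp B (perp B G) = G := by
  have h1 : ∀ H : Submodule F E, perp B H = LinearMap.BilinForm.orthogonal B H := by
    intro H
    ext v
    rw [mem_perp, LinearMap.BilinForm.mem_orthogonal_iff]
  rw [h1, h1]
  refine LinearMap.BilinForm.orthogonal_orthogonal ⟨?_, ?_⟩ ?_ G
  · intro u hu
    exact nd u hu
  · intro u hu
    exact nd u fun v => by rw [hB]; exact hu v
  · intro u v h
    rw [hB]; exact h

omit [Module k E] [IsScalarTower k F E] [FiniteDimensional F E] in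
theorem perp_mono {G H : Submodule F E} (h : G ≤ H) : perp B H ≤ perp B G := by
  intro v hv
  rw [mem_perp] at hv ⊢
  exact fun w hw => hv w (h hw)

omit [Module k E] [IsScalarTower k F E] in
/-- the orthogonal projection onto a nondegenerate subspace -/
theorem exists_proj_perp (hB : ∀ x y, B x y = B y x) (R : Submodule F E)
    (hR : ∀ x ∈ R, (∀ y ∈ R, B x y = 0) → x = 0) :
    ∃ e : E →ₗ[F] R, (∀ x : R, e x = x) ∧ ∀ (x : E) (r : R), B (e x) r = B x r := by
  have h1 : Function.Bijective (rF B R).flip :=
    flip_bij (B := rF B R) (fun x y => hB x y) (fun x hx => by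
      apply Subtype.ext
      exact hR x x.2 (fun y hy => hx ⟨y, hy⟩))
  let i : R ≃ₗ[F] Dual F R := LinearEquiv.ofBijective (rF B R).flip h1
  have hi : ∀ x y, i x y = B y x := fun _ _ => rfl
  let r : E →ₗ[F] Dual F R := (B.flip.domRestrict₁₂ ⊤ R).comp (LinearMap.id.codRestrict ⊤ (fun _ => trivial))
  have hr : ∀ x (y : R), r x y = B y x := fun _ _ => rfl
  refine ⟨i.symm.toLinearMap ∘ₗ r, ?_, ?_⟩
  · intro x
    show i.symm (r x) = x
    rw [LinearEquiv.symm_apply_eq]
    apply LinearMap.ext
    intro y
    rw [hi, hr]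
  · intro x y
    have h2 := hi (i.symm (r x)) y
    rw [LinearEquiv.apply_symm_apply, hr] at h2
    show B (i.symm (r x)) y = _
    rw [hB, ← h2, hB]

end lin

variable {N : Bun C E} {B : LinearMap.BilinForm F E}

omit [FiniteDimensional F E] in
/-- the orthogonal projection onto an orthogonal subbundle preserves the levels -/
theorem proj_level (hN : Orth N B) {R : Submodule F E} (hR : Orth (N.sub R) (rF B R))
    {e : E →ₗ[F] R} (he : ∀ (x : E) (r : R), B (e x) r = B x r) {p : P} {a : ℤ} {x : E}
    (hx : x ∈ (N.ch p).L a) : (e x : E) ∈ (N.ch p).L a := by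
  show e x ∈ ((N.sub R).ch p).L a
  rw [hR.dual]
  intro b y hy
  rw [rF_apply, he]
  exact (hN.dual p a x).1 hx b y hy

omit [Module k E] [IsScalarTower k F E] [FiniteDimensional F E] in
/-- a nondegenerate subspace meets its orthogonal trivially -/
theorem mem_perp_of_proj (hB : ∀ x y, B x y = B y x) {R : Submodule F E}
    {e : E →ₗ[F] R} (he : ∀ (x : E) (r : R), B (e x) r = B x r) (x : E) :
    x - e x ∈ perp B R := by
  rw [mem_perp]
  intro r hr
  rw [hB, map_sub, LinearMap.sub_apply, he x ⟨r, hr⟩, sub_self]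

/-- the orthogonal of an orthogonal subbundle is orthogonal -/
theorem orth_perp (hN : Orth N B) {R : Submodule F E} (hR : Orth (N.sub R) (rF B R)) :
    Orth (N.sub (perp B R)) (rF B (perp B R)) := by
  obtain ⟨e, he1, he⟩ := exists_proj_perp hN.symm R (fun x hx h => by
    have := hR.nd ⟨x, hx⟩ (fun y => h y y.2)
    exact congrArg Subtype.val this)
  have hp := mem_perp_of_proj hN.symm he
  refine ⟨?_, fun x y => hN.symm x y, ?_⟩
  · intro p a x
    rw [show x ∈ ((N.sub (perp B R)).ch p).L a ↔ (x : E) ∈ (N.ch p).L a from Iff.rfl, hN.dual]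
    constructor
    · intro h b y hy
      exact h b y hy
    · intro h b y hy
      have h1 : B (x : E) y = B x (y - e y) := by
        rw [map_sub, hN.symm x (e y), mem_perp.1 x.2 _ (e y).2, sub_zero]
      rw [h1]
      exact h b ⟨y - e y, hp y⟩ (Submodule.sub_mem _ hy (proj_level hN hR he hy))
  · intro x hx
    apply Subtype.ext
    refine hN.nd x fun y => ?_
    have h1 : B (x : E) y = B x (y - e y) := by
      rw [map_sub, hN.symm x (e y), mem_perp.1 x.2 _ (e y).2, sub_zero]
    rw [h1]
    exact hx ⟨y - e y, hp y⟩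

/-- homomorphisms from a summand -/
theorem hz_comp_proj (hN : Orth N B) {R : Submodule F E} (hR : Orth (N.sub R) (rF B R))
    {e : E →ₗ[F] R} (he : ∀ (x : E) (r : R), B (e x) r = B x r) {M : Bun C W} {f : R →ₗ[F] W}
    (hf : f ∈ HZ ((N.sub R).hom M).lat) : f ∘ₗ e ∈ HZ (N.hom M).lat := by
  rw [mem_hz_hom] at hf ⊢
  intro p b x hx
  exact hf p b (e x) (proj_level hN hR he hx)

omit [FiniteDimensional F E] in
/-- a subbundle seen as a reduction -/
theorem subQ_sub (N : Bun C E) {R : Submodule F E}
    (hR : ∀ x ∈ R, (∀ y ∈ R, B y x = 0) → x = 0) :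
    SubQ N B R (N.sub R) (rF B R) LinearMap.id where
  surj := Function.surjective_id
  ker g := by
    constructor
    · intro h
      have h' : g = 0 := h
      rw [h']
      exact Submodule.zero_mem _
    · intro h
      apply Subtype.ext
      exact hR g g.2 (fun y hy => mem_perp.1 h y hy)
  lat p a y := ⟨fun h => ⟨y, h, rfl⟩, by rintro ⟨g, hg, rfl⟩; exact hg⟩
  form _ _ := rfl

/-- a map onto a smaller bundle -/
theorem chi_le_surj {A : Bun C E} {A' : Bun C E'} (π : E →ₗ[F] E') (hπ : Function.Surjective π)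
    (hl : ∀ p a x, x ∈ (A.ch p).L a → π x ∈ (A'.ch p).L a) (S : Bun C W) :
    chi (A'.hom S).lat ≤
      chi (A.hom S).lat - chi ((A.sub (LinearMap.ker π)).hom S).lat := by
  have h1 := chi_hom_left A S (LinearMap.ker π)
  let i := π.quotKerEquivOfSurjective hπ
  have h2 := (hom_congr (A := comapBun i A') (A' := A') i (fun p a x => Iff.rfl) S).1
  have h3 : chi ((comapBun i A').hom S).lat ≤ chi ((A.quo (LinearMap.ker π)).hom S).lat := by
    refine chi_anti S ?_
    rintro p a _ ⟨x, hx, rfl⟩
    show i ((LinearMap.ker π).mkQ x) ∈ (A'.ch p).L a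
    exact hl p a x hx
  linarith

end Vale.Agent.P182.H668
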