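import Vale.Agent.P182.H668.Lorentz
import Vale.Agent.P182.H62.Adams2

/-!
# The Adams identity for arbitrary periods

`χ(S²E*) - χ(Λ²E*) = χ(E*) + χ(E* h) - rk E`, where `h p = per p / 2`.
-/

namespace Vale.Agent.P182.H668

open Module Vale.Agent.P182 Vale.Agent.P182.H430 Vale.Agent.P182.H430.Bun

universe u

variable {k F P : Type*} [Field k] [Field F] [Algebra k F] {C : Curve k F P}

theorem half_div {m : ℕ} (hm : 0 < m) (w : ℤ) :
    (-(2 * w)) / (m : ℤ) = (-w) / m + (((m / 2 : ℕ) : ℤ) - w) / m := by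
  have hm' : (0 : ℤ) < m := by exact_mod_cast hm
  have h1 := Int.emod_add_mul_ediv (-w) m
  have h2 := Int.emod_nonneg (-w) hm'.ne'
  have h3 := Int.emod_lt_of_pos (-w) hm'
  set q := (-w) / (m : ℤ) with hq
  set ρ := (-w) % (m : ℤ) with hρ
  have hh : (((m / 2 : ℕ) : ℤ)) = (m : ℤ) / 2 := by push_cast; rfl
  rw [hh]
  have hh1 : 2 * ((m : ℤ) / 2) ≤ m := by omega
  have hh2 : (m : ℤ) ≤ 2 * ((m : ℤ) / 2) + 1 := by omega
  set h := (m : ℤ) / 2 with hhdef
  rcases lt_or_ge (2 * ρ) (m : ℤ) with hlt | hge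
  · have e1 : (-(2 * w)) / (m : ℤ) = 2 * q :=
      ((Int.ediv_emod_unique (r := 2 * ρ) (q := 2 * q) hm').2
        ⟨by linear_combination 2 * h1, by linarith, hlt⟩).1
    have e2 : (h - w) / (m : ℤ) = q :=
      ((Int.ediv_emod_unique (r := ρ + h) (q := q) hm').2
        ⟨by linear_combination h1, by omega, by omega⟩).1
    rw [e1, e2]
    ring
  · have e1 : (-(2 * w)) / (m : ℤ) = 2 * q + 1 :=
      ((Int.ediv_emod_unique (r := 2 * ρ - m) (q := 2 * q + 1) hm').2
        ⟨by linear_combination 2 * h1, by linarith, by linarith⟩).1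
    have e2 : (h - w) / (m : ℤ) = q + 1 :=
      ((Int.ediv_emod_unique (r := ρ + h - m) (q := q + 1) hm').2
        ⟨by linear_combination h1, by omega, by omega⟩).1
    rw [e1, e2]
    ring

/-- half of the period -/
def hf (C : Curve k F P) : P → ℤ := fun p => ((C.per p / 2 : ℕ) : ℤ)

theorem hf_fin (C : Curve k F P) : {p | hf C p ≠ 0}.Finite := by
  refine C.per_ae.subset ?_
  intro p hp h
  apply hp
  show ((C.per p / 2 : ℕ) : ℤ) = 0
  rw [h]
  rfl

theorem hf_div (C : Curve k F P) (p : P) : hf C p / (C.per p : ℤ) = 0 := by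
  have := C.per_pos p
  apply Int.ediv_eq_zero_of_lt
  · exact Int.natCast_nonneg _
  · have h1 : C.per p / 2 < C.per p := by omega
    show ((C.per p / 2 : ℕ) : ℤ) < _
    exact_mod_cast h1

theorem deg_identity {w : P → ℤ} (hw : {p | w p ≠ 0}.Finite) :
    1 + C.deg (fun p => -(2 * w p)) =
      (1 + C.deg (fun p => - w p)) + (1 + C.deg (fun p => hf C p - w p)) - 1 := by
  classical
  let S : Finset P := hw.toFinset ∪ (hf_fin C).toFinset
  have hS : ∀ p, p ∉ S → w p = 0 ∧ hf C p = 0 := by
    intro p hp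
    simp only [S, Finset.mem_union, Set.Finite.mem_toFinset, Set.mem_ofPred_eq, not_or,
      not_not] at hp
    exact hp
  have e1 := C.deg_eq_sum (n := fun p => -(2 * w p)) S (fun p hp => by
    simp [(hS p hp).1])
  have e2 := C.deg_eq_sum (n := fun p => - w p) S (fun p hp => by
    simp [(hS p hp).1])
  have e3 := C.deg_eq_sum (n := fun p => hf C p - w p) S (fun p hp => by
    simp [(hS p hp).1, (hS p hp).2])
  rw [e1, e2, e3]
  have e6 : ∑ p ∈ S, (-(2 * w p)) / (C.per p : ℤ) = ∑ p ∈ S, (-w p) / (C.per p : ℤ) +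
      ∑ p ∈ S, (hf C p - w p) / (C.per p : ℤ) := by
    rw [← Finset.sum_add_distrib]
    exact Finset.sum_congr rfl fun p _ => half_div (C.per_pos p) (w p)
  rw [e6]
  ring

theorem adams'_aux (h2 : (2 : F) ≠ 0) (m : ℕ) :
    ∀ (E : Type u) [AddCommGroup E] [Module F E] [Module k E] [IsScalarTower k F E]
      [FiniteDimensional F E], finrank F E = m → ∀ B : Bun C E,
      B.chiF 1 - B.chiF (-1) = chi (B.du.twist 0 (by simp)).lat +
        chi (B.du.twist (hf C) (hf_fin C)).lat - m := by
  induction m with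
  | zero =>
    intro E _ _ _ _ _ h B
    have hs : Subsingleton E := finrank_zero_iff.1 h
    have h1 : Subsingleton (Du F E) := by
      constructor
      intro φ ψ
      ext x
      rw [Subsingleton.elim x 0, Du.map_zero, Du.map_zero]
    have h3 : Subsingleton (E →ₗ[F] Du F E) := by
      constructor
      intro φ ψ
      ext x
      rw [Subsingleton.elim (φ x) (ψ x)]
    unfold chiF
    rw [chi_subsingleton, chi_subsingleton, chi_subsingleton, chi_subsingleton]
    simp
  | succ m ih =>
    intro E _ _ _ _ _ h B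
    have hnt : Nontrivial E := by
      apply nontrivial_of_finrank_pos (R := F)
      omega
    obtain ⟨x, hx⟩ := exists_ne (0 : E)
    let S : Submodule F E := Submodule.span F {x}
    have hS1 : finrank F S = 1 := finrank_span_singleton hx
    have hQ : finrank F (E ⧸ S) = m := by
      have := S.finrank_quotient_add_finrank
      omega
    have h3 := ih (E ⧸ S) hQ (B.quo S)
    let x' : S := ⟨x, Submodule.mem_span_singleton_self x⟩
    have hx'0 : x' ≠ 0 := fun h => hx (congrArg Subtype.val h)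
    have hx' : ∀ y : S, ∃ c : F, c • x' = y := by
      rintro ⟨y, hy⟩
      obtain ⟨c, hc⟩ := Submodule.mem_span_singleton.1 hy
      exact ⟨c, Subtype.ext hc⟩
    obtain ⟨w, hw0, hw, -, -⟩ := (B.sub S).rank_one x' hx'0 hx'
    have e1 := (B.sub S).rank_one_forms x' hx'0 hx' hw0 hw
    have e2 := (B.sub S).rank_one_skew h2 x' hx'
    have h00 : {p : P | (0 : P → ℤ) p ≠ 0}.Finite := by simp
    have e3 := (B.sub S).rank_one_du x' hx'0 hx' hw0 hw h00
    have e4 := (B.sub S).rank_one_du x' hx'0 hx' hw0 hw (hf_fin C)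
    have e5 := deg_identity (C := C) hw0
    have e6 : (fun p => (0 : P → ℤ) p - w p) = fun p => - w p := by
      funext p
      simp
    rw [e6] at e3
    have s1 := B.chiF_step S 1 (by ring)
    have s2 := B.chiF_step S (-1) (by ring)
    have s3 := B.chi_du_twist S h00
    have s4 := B.chi_du_twist S (hf_fin C)
    rw [s1, s2, s3, s4, e1, e2, e3, e4]
    push_cast
    linarith

/-- **Adams identity** for arbitrary periods -/
theorem adams' {E : Type*} [AddCommGroup E] [Module F E] [Module k E] [IsScalarTower k F E]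
    [FiniteDimensional F E] (h2 : (2 : F) ≠ 0) (B : Bun C E) :
    B.chiF 1 - B.chiF (-1) = chi B.du.lat + chi (B.du.twist (hf C) (hf_fin C)).lat -
      finrank F E := by
  have h := adams'_aux (C := C) h2 _ E rfl B
  have h1 : (B.du.twist 0 (by simp)).lat = B.du.lat := by
    funext p
    ext φ
    rw [mem_twist_lat]
    simp [lat]
  rw [h1] at h
  exact h

section Twist

variable {E : Type*} [AddCommGroup E] [Module F E] [Module k E] [IsScalarTower k F E]

/-- the local term of a twist -/
noncomputable def jmp {Q : Place k F} {m : ℕ} (L : LChain Q m E) (n : ℤ) : ℤ :=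
  ∑ a ∈ Finset.range m, (mult L a : ℤ) * (((a : ℤ) + n) / m)

theorem jmp_eq [FiniteDimensional F E] {Q : Place k F} {m : ℕ} (L : LChain Q m E)
    {ι : Type*} [Fintype ι] {b : Basis ι F E} {w : ι → ℤ} (h : L.SplitBy b w) (n : ℤ) :
    jmp L n = ∑ i, ((w i + n) / m - w i / (m : ℤ)) := by
  have hm : (0 : ℤ) < m := by exact_mod_cast L.pos
  unfold jmp
  simp only [mult_eq' h, Finset.sum_mul]
  rw [Finset.sum_comm]
  refine Finset.sum_congr rfl fun i _ => ?_
  have h1 := Int.emod_add_mul_ediv (w i) m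
  have h2 := Int.emod_nonneg (w i) hm.ne'
  have h3 := Int.emod_lt_of_pos (w i) hm
  obtain ⟨a0, ha0⟩ := Int.eq_ofNat_of_zero_le h2
  have ha1 : a0 < m := by
    have : ((a0 : ℕ) : ℤ) < m := by rw [← ha0]; exact h3
    exact_mod_cast this
  rw [ha0] at h1
  rw [Finset.sum_eq_single a0]
  · rw [if_pos ⟨w i / m, by linarith⟩, one_mul]
    have h4 : w i + n = ((a0 : ℤ) + n) + m * (w i / m) := by linarith
    rw [h4, Int.add_mul_ediv_left _ _ hm.ne']
    have h5 : ((a0 : ℤ) + n + (m : ℤ) * (w i / m) - n) = w i := by linarith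
    ring
  · intro b hb hb0
    rw [Finset.mem_range] at hb
    rw [if_neg, zero_mul]
    intro hd
    apply hb0
    have hd2 : (m : ℤ) ∣ w i - a0 := ⟨w i / m, by linarith⟩
    have h4 := dvd_sub hd hd2
    rw [sub_sub_sub_cancel_left] at h4
    have h5 : ((a0 : ℤ) - b) = 0 := by
      apply Int.eq_zero_of_abs_lt_dvd h4
      rw [abs_lt]
      constructor
      · have : (b : ℤ) < m := by exact_mod_cast hb
        have : (0 : ℤ) ≤ a0 := Int.natCast_nonneg _
        linarith
      · have : (a0 : ℤ) < m := by exact_mod_cast ha1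
        have : (0 : ℤ) ≤ b := Int.natCast_nonneg _
        linarith
    have h6 : (a0 : ℤ) = b := by linarith
    exact_mod_cast h6.symm
  · intro h
    exact absurd (Finset.mem_range.2 ha1) h

/-- THE EULER CHARACTERISTIC OF A TWIST -/
theorem chi_twist {n : P → ℤ} (hn : {p | n p ≠ 0}.Finite) (A : Bun C E) :
    chi (A.twist n hn).lat = chi A.lat + ∑ p ∈ hn.toFinset, jmp (A.ch p) (n p) := by
  classical
  have hfd := A.finiteDimensional
  set S := hn.toFinset with hS
  have hS0 : ∀ p, p ∉ S → n p = 0 := by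
    intro p hp
    by_contra h0
    exact hp (hn.mem_toFinset.2 h0)
  rw [← A.tw_eq n hn]
  let n' : P → ℤ := fun p => max (n p) 0
  have c1 := chi_change (k := k) (Λ := A.lat) (Λ' := A.tw n')
    (fun p => (A.ch p).anti _ _ (by simp [n'])) S
    (fun p hp => by
      show (A.ch p).L (-n' p) ≤ (A.ch p).L 0
      refine (A.ch p).anti _ _ ?_
      simp [n', hS0 p hp])
    (fun p => finRel_chain (A.ch p) (by simp [n'])) A.adm
  have hadm : Adm (A.tw n) := by
    rw [A.tw_eq n hn]
    exact (A.twist n hn).adm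
  have hfin : FinCoh (A.tw n) := by
    rw [A.tw_eq n hn]
    exact (A.twist n hn).finCoh
  have c2 := chi_change (k := k) (Λ := A.tw n) (Λ' := A.tw n')
    (fun p => (A.ch p).anti _ _ (by simp [n'])) S
    (fun p hp => by
      show (A.ch p).L (-n' p) ≤ (A.ch p).L (-n p)
      refine (A.ch p).anti _ _ ?_
      simp [n', hS0 p hp])
    (fun p => finRel_chain (A.ch p) (by simp [n'])) hadm
  have e1 := c1.2 A.finCoh
  have e2 := c2.2 hfin
  have e3 : ∑ p ∈ S, (rdim (A.lat p) (A.tw n' p) : ℤ) - ∑ p ∈ S, (rdim (A.tw n p) (A.tw n' p) : ℤ)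
      = ∑ p ∈ S, jmp (A.ch p) (n p) := by
    rw [← Finset.sum_sub_distrib]
    refine Finset.sum_congr rfl fun p _ => ?_
    obtain ⟨b, w, h⟩ := (A.ch p).exists_split
    rw [jmp_eq (A.ch p) h]
    show (rdim ((A.ch p).L 0) ((A.ch p).L (-n' p)) : ℤ) -
      rdim ((A.ch p).L (-n p)) ((A.ch p).L (-n' p)) = _
    rw [(rdim_chain h (a := 0) (a' := -n' p) (by simp [n'])).2,
      (rdim_chain h (a := -n p) (a' := -n' p) (by simp [n'])).2, ← Finset.sum_sub_distrib]
    refine Finset.sum_congr rfl fun i _ => ?_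
    rw [sub_neg_eq_add (w i) (n p), sub_zero]
    ring
  linarith

end Twist

end Vale.Agent.P182.H668
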