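import Vale.Agent.P182.H668.Numbers

/-!
# Two orthogonal bricks with proportional classes (end)
-/

namespace Vale.Agent.P182.H668

open LinearMap Submodule Module Vale.Agent.P182 Vale.Agent.P182.H430 Vale.Agent.P182.H578

universe u

variable {k F P : Type*} [Field k] [Field F] [Algebra k F] {C : Curve k F P}
variable {E : Type u} [AddCommGroup E] [Module F E] [Module k E] [IsScalarTower k F E]
  [FiniteDimensional F E] {N : Bun C E} {B : LinearMap.BilinForm F E}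

/-- `End N = k` -/
def Brick (N : Bun C E) : Prop :=
  ∀ T ∈ HZ (N.hom N).lat, ∃ c : k, T = c • (LinearMap.id : E →ₗ[F] E)

omit [FiniteDimensional F E] in
theorem id_ne (hE : 0 < finrank F E) : (LinearMap.id : E →ₗ[F] E) ≠ 0 := by
  have hnt : Nontrivial E := nontrivial_of_finrank_pos hE
  obtain ⟨x, hx⟩ := exists_ne (0 : E)
  intro h
  exact hx (LinearMap.congr_fun h x)

theorem id_mem (N : Bun C E) : (LinearMap.id : E →ₗ[F] E) ∈ HZ (N.hom N).lat :=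
  mem_HZ.2 fun p => (Bun.mem_hom_lat N N p _).2 fun _ _ hx => hx

theorem Brick.h0_eq (hb : Brick N) (hE : 0 < finrank F E) : h0 (N.hom N).lat = 1 := by
  unfold h0
  rw [finrank_eq_one_iff_of_nonzero' (⟨LinearMap.id, id_mem N⟩ : HZ (N.hom N).lat)
    (fun h => id_ne hE (congrArg Subtype.val h))]
  intro T
  obtain ⟨c, hc⟩ := hb T.1 T.2
  exact ⟨c, Subtype.ext hc.symm⟩

omit [FiniteDimensional F E] in
theorem id_adj (B : LinearMap.BilinForm F E) : (LinearMap.id : E →ₗ[F] E) ∈ adj B 1 := by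
  intro x y
  simp

theorem Brick.h0_sym (hb : Brick N) (hE : 0 < finrank F E) :
    h0 ((N.hom N).sub (adj B 1)).lat = 1 := by
  unfold h0
  have hid : (⟨LinearMap.id, id_adj B⟩ : adj B 1) ∈ HZ ((N.hom N).sub (adj B 1)).lat :=
    mem_HZ.2 fun p => mem_HZ.1 (id_mem N) p
  rw [finrank_eq_one_iff_of_nonzero' (⟨_, hid⟩ : HZ ((N.hom N).sub (adj B 1)).lat)
    (fun h => id_ne hE (congrArg (fun z => (z.1.1 : E →ₗ[F] E)) h))]
  intro T
  obtain ⟨c, hc⟩ := hb T.1.1 (mem_HZ.2 fun p => mem_HZ.1 T.2 p)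
  exact ⟨c, Subtype.ext (Subtype.ext hc.symm)⟩

theorem Brick.h0_skew (hb : Brick N) (hs : Orth N B) (h2 : (2 : F) ≠ 0) :
    h0 ((N.hom N).sub (adj B (-1))).lat = 0 := by
  unfold h0
  have hbot : HZ ((N.hom N).sub (adj B (-1))).lat = ⊥ := by
    rw [eq_bot_iff]
    intro T hT
    rw [Submodule.mem_bot]
    obtain ⟨c, hc⟩ := hb T.1 (mem_HZ.2 fun p => mem_HZ.1 hT p)
    apply Subtype.ext
    show T.1 = 0
    apply ext_form hs.nd
    intro x y
    have h3 := T.2 x y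
    have h4 : ∀ z, T.1 z = algebraMap k F c • z := fun z => by
      rw [hc, LinearMap.smul_apply, LinearMap.id_apply, algebraMap_smul]
    rw [h4, h4, map_smul, map_smul, LinearMap.smul_apply, smul_eq_mul] at h3
    have h5 : (2 : F) * (algebraMap k F c * B x y) = 0 := by linear_combination h3
    rw [h4, map_smul, LinearMap.smul_apply, smul_eq_mul, LinearMap.zero_apply, map_zero,
      LinearMap.zero_apply]
    exact (mul_eq_zero.1 h5).resolve_left h2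
  rw [hbot]
  exact finrank_bot k _

/-- Higgs fields on a brick of norm zero -/
theorem Brick.higgs (hb : Brick N) (hE : 0 < finrank F E) {κ : P → ℤ} (hκ : Dualizing C κ)
    (hchi : chi (N.hom N).lat = 0) {Φ : E →ₗ[F] E} (hΦ : Higgs κ N Φ) (h0' : Φ ≠ 0) :
    ∀ Ψ : E →ₗ[F] E, Higgs κ N Ψ → ∃ c : k, c • Φ = Ψ := by
  have h1 : h0 ((N.hom N).tw κ) = 1 := by
    rw [((DPair.hom N N).serre hκ).2.1]
    have h3 := hb.h0_eq hE
    unfold chi at hchi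
    omega
  unfold h0 at h1
  rw [finrank_eq_one_iff_of_nonzero' (⟨Φ, hΦ⟩ : HZ ((N.hom N).tw κ))
    (fun h => h0' (congrArg Subtype.val h))] at h1
  intro Ψ hΨ
  obtain ⟨c, hc⟩ := h1 ⟨Ψ, hΨ⟩
  exact ⟨c, congrArg Subtype.val hc⟩

theorem Brick.h0_tw_one (hb : Brick N) (hE : 0 < finrank F E) {κ : P → ℤ} (hκ : Dualizing C κ)
    (hchi : chi (N.hom N).lat = 0) {ε : F} {Φ : E →ₗ[F] E} (hΦ : Higgs κ N Φ) (h0' : Φ ≠ 0)
    (hε : Φ ∈ adj B ε) : h0 (((N.hom N).sub (adj B ε)).tw κ) = 1 := by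
  have h1 := hb.higgs hE hκ hchi hΦ h0'
  unfold h0
  have hid : (⟨Φ, hε⟩ : adj B ε) ∈ HZ (((N.hom N).sub (adj B ε)).tw κ) :=
    mem_HZ.2 fun p => mem_HZ.1 hΦ p
  rw [finrank_eq_one_iff_of_nonzero' (⟨_, hid⟩ : HZ (((N.hom N).sub (adj B ε)).tw κ))
    (fun h => h0' (congrArg (fun z => (z.1.1 : E →ₗ[F] E)) h))]
  intro T
  obtain ⟨c, hc⟩ := h1 T.1.1 (mem_HZ.2 fun p => mem_HZ.1 T.2 p)
  exact ⟨c, Subtype.ext (Subtype.ext hc)⟩

theorem Brick.h0_tw_zero (hb : Brick N) (hs : Orth N B) (h2 : (2 : F) ≠ 0) (hE : 0 < finrank F E)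
    {κ : P → ℤ} (hκ : Dualizing C κ) (hchi : chi (N.hom N).lat = 0) {ε : F}
    {Φ : E →ₗ[F] E} (hΦ : Higgs κ N Φ) (h0' : Φ ≠ 0) (hε : Φ ∈ adj B ε) :
    h0 (((N.hom N).sub (adj B (-ε))).tw κ) = 0 := by
  have h1 := hb.higgs hE hκ hchi hΦ h0'
  unfold h0
  have hbot : HZ (((N.hom N).sub (adj B (-ε))).tw κ) = ⊥ := by
    rw [eq_bot_iff]
    intro T hT
    rw [Submodule.mem_bot]
    obtain ⟨c, hc⟩ := h1 T.1 (mem_HZ.2 fun p => mem_HZ.1 hT p)
    apply Subtype.ext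
    show T.1 = 0
    apply ext_form hs.nd
    intro x y
    have h3 : B (T.1 x) y = -ε * B x (T.1 y) := T.2 x y
    have h4 : B (T.1 x) y = ε * B x (T.1 y) := by
      rw [← hc]
      have h5 : ∀ z, (c • Φ) z = algebraMap k F c • Φ z := fun z => by
        rw [LinearMap.smul_apply, algebraMap_smul]
      rw [h5, h5, map_smul, map_smul, LinearMap.smul_apply, smul_eq_mul, smul_eq_mul, hε x y]
      ring
    have h6 : (2 : F) * B (T.1 x) y = 0 := by linear_combination h3 + h4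
    rw [(mul_eq_zero.1 h6).resolve_left h2, LinearMap.zero_apply, map_zero, LinearMap.zero_apply]
  rw [hbot]
  exact finrank_bot k _

/-- the number `χ (symmetric) - χ (skew)` of an orthogonal brick of norm zero with a symmetric
Higgs field is zero -/
theorem Brick.ell_sym (hb : Brick N) (hs : Orth N B) (h2 : (2 : F) ≠ 0)
    (h2k : ((2 : k)⁻¹ * 2 : k) = 1) (hE : 0 < finrank F E) {κ : P → ℤ} (hκ : Dualizing C κ)
    (hchi : chi (N.hom N).lat = 0) {Φ : E →ₗ[F] E} (hΦ : Higgs κ N Φ) (h0' : Φ ≠ 0)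
    (hε : Φ ∈ adj B 1) : cs (N.hom N) (adj B 1) - cs (N.hom N) (adj B (-1)) = 0 := by
  have e1 := ((hs.dpair h2 h2k (ε := 1) (by ring)).serre hκ).2.1
  have e2 := ((hs.dpair h2 h2k (ε := -1) (by ring)).serre hκ).2.1
  rw [hb.h0_tw_one hE hκ hchi hΦ h0' hε] at e1
  rw [hb.h0_tw_zero hs h2 hE hκ hchi hΦ h0' hε] at e2
  unfold cs chi
  rw [hb.h0_sym hE, hb.h0_skew hs h2, ← e1, ← e2]
  ring

/-- ... and with a skew Higgs field it is two -/
theorem Brick.ell_skew (hb : Brick N) (hs : Orth N B) (h2 : (2 : F) ≠ 0)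
    (h2k : ((2 : k)⁻¹ * 2 : k) = 1) (hE : 0 < finrank F E) {κ : P → ℤ} (hκ : Dualizing C κ)
    (hchi : chi (N.hom N).lat = 0) {Φ : E →ₗ[F] E} (hΦ : Higgs κ N Φ) (h0' : Φ ≠ 0)
    (hε : Φ ∈ adj B (-1)) : cs (N.hom N) (adj B 1) - cs (N.hom N) (adj B (-1)) = 2 := by
  have e1 := ((hs.dpair h2 h2k (ε := -1) (by ring)).serre hκ).2.1
  have e2 := ((hs.dpair h2 h2k (ε := 1) (by ring)).serre hκ).2.1
  rw [hb.h0_tw_one hE hκ hchi hΦ h0' hε] at e1
  have e3 := hb.h0_tw_zero hs h2 hE hκ hchi (ε := -1) hΦ h0' hε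
  rw [neg_neg] at e3
  rw [e3] at e2
  unfold cs chi
  rw [hb.h0_sym hE, hb.h0_skew hs h2, ← e1, ← e2]
  ring

variable {E₂ : Type u} [AddCommGroup E₂] [Module F E₂] [Module k E₂] [IsScalarTower k F E₂]
  [FiniteDimensional F E₂] {N₂ : Bun C E₂} {B₂ : LinearMap.BilinForm F E₂}

/-- proportional classes -/
theorem ell_proportional (hs : Orth N B) (hs₂ : Orth N₂ B₂) (h2 : (2 : F) ≠ 0) {κ : P → ℤ}
    (hκ : Dualizing C κ)
    (hm : ∀ p a, finrank F E₂ * mult (N.ch p) a = finrank F E * mult (N₂.ch p) a) :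
    finrank F E₂ * (cs (N.hom N) (adj B 1) - cs (N.hom N) (adj B (-1))) =
      finrank F E * (cs (N₂.hom N₂) (adj B₂ 1) - cs (N₂.hom N₂) (adj B₂ (-1))) := by
  have hm' : ∀ p a, (finrank F E₂ : ℤ) * mult (N.ch p) a = finrank F E * mult (N₂.ch p) a := by
    intro p a
    exact_mod_cast hm p a
  rw [hs.ell h2 hκ, hs₂.ell h2 hκ]
  have h3 : ∀ p, (finrank F E₂ : ℤ) * jmp (N.ch p) (hf C p) =
      finrank F E * jmp (N₂.ch p) (hf C p) := by
    intro p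
    unfold jmp
    rw [Finset.mul_sum, Finset.mul_sum]
    refine Finset.sum_congr rfl fun a _ => ?_
    rw [← mul_assoc, ← mul_assoc, hm']
  have h4 : (finrank F E₂ : ℤ) * ∑ p ∈ (hf_fin C).toFinset, jmp (N.ch p) (hf C p) =
      finrank F E * ∑ p ∈ (hf_fin C).toFinset, jmp (N₂.ch p) (hf C p) := by
    rw [Finset.mul_sum, Finset.mul_sum]
    exact Finset.sum_congr rfl fun p _ => h3 p
  have h5 : (finrank F E₂ : ℤ) * ∑ p ∈ hκ.fin.toFinset, ((finrank F E : ℤ) - mult (N.ch p) 0) =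
      finrank F E * ∑ p ∈ hκ.fin.toFinset, ((finrank F E₂ : ℤ) - mult (N₂.ch p) 0) := by
    rw [Finset.mul_sum, Finset.mul_sum]
    refine Finset.sum_congr rfl fun p _ => ?_
    rw [mul_sub, mul_sub, hm']
    ring
  linear_combination h4 - h5

/-- **TWO ORTHOGONAL BRICKS.**  There are no two orthogonal bundles `N`, `N₂` with
`End N = k = End N₂`, `χ (N, N₂) + χ (N₂, N) ≥ 0`, `χ (N, N) ≤ 0`, `χ (N₂, N₂) ≤ 0`, with a
nonzero symmetric Higgs field on `N` and a nonzero skew one on `N₂`. -/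
theorem two_bricks (hs : Orth N B) (hs₂ : Orth N₂ B₂) (h2 : (2 : F) ≠ 0)
    (h2k : ((2 : k)⁻¹ * 2 : k) = 1) {κ : P → ℤ} (hκ : Dualizing C κ)
    (hE : 0 < finrank F E) (hE₂ : 0 < finrank F E₂) (hb : Brick N) (hb₂ : Brick N₂)
    (h1 : chi (N.hom N).lat ≤ 0) (h1' : chi (N₂.hom N₂).lat ≤ 0)
    (h3 : 0 ≤ chi (N.hom N₂).lat + chi (N₂.hom N).lat)
    {Φ : E →ₗ[F] E} (hΦ : Higgs κ N Φ) (hΦ0 : Φ ≠ 0) (hΦs : Φ ∈ adj B 1)
    {ξ : E₂ →ₗ[F] E₂} (hξ : Higgs κ N₂ ξ) (hξ0 : ξ ≠ 0) (hξs : ξ ∈ adj B₂ (-1)) : False := by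
  obtain ⟨c1, c2, c3⟩ := lorentz hκ N N₂ hE hE₂ h1 h1' h3
  have e1 := hb.ell_sym hs h2 h2k hE hκ c1 hΦ hΦ0 hΦs
  have e2 := hb₂.ell_skew hs₂ h2 h2k hE₂ hκ c2 hξ hξ0 hξs
  have e3 := ell_proportional hs hs₂ h2 hκ c3
  rw [e1, e2] at e3
  have : (finrank F E : ℤ) = 0 := by linarith
  have : finrank F E = 0 := by exact_mod_cast this
  omega

end Vale.Agent.P182.H668
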