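import Vale.Agent.P182.H668.Seen

/-!
# Collapsing the levels which are not seen (definitions)
-/

namespace Vale.Agent.P182.H668

open LinearMap Submodule Module Vale.Agent.P182 Vale.Agent.P182.H430 Vale.Agent.P182.H578

variable {k F P : Type*} [Field k] [Field F] [Algebra k F]

/-- the data of a collapse: at every place a symmetric periodic set of levels, enumerated by
`φ p` -/
structure Col (C : Curve k F P) where
  m : P → ℕ
  pos : ∀ p, 0 < m p
  φ : P → ℤ → ℤ
  mono : ∀ p, StrictMono (φ p)
  per : ∀ p i, φ p (i + m p) = φ p i + C.per p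
  refl : ∀ p i, φ p (1 - i) = 1 - φ p i

/-- the chain of `M` is constant on the blocks `[φ i, φ (i+1) - 1]` -/
def Col.Flat {C : Curve k F P} (c : Col C) {W : Type*} [AddCommGroup W] [Module F W] [Module k W]
    (M : Bun C W) : Prop :=
  ∀ p i a, c.φ p i ≤ a → a < c.φ p (i + 1) → (M.ch p).L (c.φ p i) ≤ (M.ch p).L a

end Vale.Agent.P182.H668
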