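import Vale.Agent.P182.H668.Split3
import Vale.Agent.P182.H668.AltV

/-!
# The reduction by the largest invisible subobject and its splitting: basic lemmas
-/

set_option linter.unusedSectionVars false

namespace Vale.Agent.P182.H668

open LinearMap Submodule Module Vale.Agent.P182 Vale.Agent.P182.H430 Vale.Agent.P182.H578

variable {k F P : Type*} [Field k] [Field F] [Algebra k F] {C : Curve k F P}
variable {E : Type*} [AddCommGroup E] [Module F E] [Module k E] [IsScalarTower k F E]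
  [FiniteDimensional F E]
variable {E₂ : Type*} [AddCommGroup E₂] [Module F E₂] [Module k E₂] [IsScalarTower k F E₂]
  [FiniteDimensional F E₂]
variable {W : Type*} [AddCommGroup W] [Module F W] [Module k W] [IsScalarTower k F W]
  [FiniteDimensional F W]
variable {U : Type*} [AddCommGroup U] [Module F U] [Module k U] [IsScalarTower k F U]
  [FiniteDimensional F U]
variable {U' : Type*} [AddCommGroup U'] [Module F U'] [Module k U'] [IsScalarTower k F U']
  [FiniteDimensional F U']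

/-- `A₀` is the largest invisible subobject, `(N₂, B₂)` the reduction of `A₀^⊥`, and `R` the image
of `A^⊥` in it; `N₂` and `R` are orthogonal bundles, so `N₂ = R ⊥ R^⊥`, and `R^⊥` is the image
of `A ∩ A₀^⊥` -/
structure Cut (κ : P → ℤ) (N : Bun C E) (B : LinearMap.BilinForm F E) (M : Bun C W)
    (qM : LinearMap.BilinForm F W) (S : Bun C U) (S' : Bun C U') (qS : U →ₗ[F] U' →ₗ[F] F)
    (x : E →ₗ[F] U) (φ : E →ₗ[F] W) (A A₀ : Submodule F E) (N₂ : Bun C E₂)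
    (B₂ : LinearMap.BilinForm F E₂) (π : perp B A₀ →ₗ[F] E₂) (R : Submodule F E₂) : Prop where
  l3 : L3In κ N B M qM S S' qS x φ A
  inv : Inv N M S S' A₀
  max : ∀ G, Inv N M S S' G → G ≤ A₀
  red : SubQ N B (perp B A₀) N₂ B₂ π
  o2 : Orth N₂ B₂
  le : perp B A ≤ perp B A₀
  hR : R = LinearMap.range (π ∘ₗ Submodule.inclusion le)
  oR : Orth (N₂.sub R) (rF B₂ R)

section

variable {κ : P → ℤ} {N : Bun C E} {B : LinearMap.BilinForm F E} {M : Bun C W}
  {qM : LinearMap.BilinForm F W} {S : Bun C U} {S' : Bun C U'} {qS : U →ₗ[F] U' →ₗ[F] F}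
  {x : E →ₗ[F] U} {φ : E →ₗ[F] W} {A A₀ : Submodule F E}
  {N₂ : Bun C E₂} {B₂ : LinearMap.BilinForm F E₂} {π : perp B A₀ →ₗ[F] E₂} {R : Submodule F E₂}

theorem exists_cut (h : L3In κ N B M qM S S' qS x φ A) (hsee : Seen M S S') :
    ∃ (A₀ : Submodule F E) (R : Submodule F (perp B A₀ ⧸ rad B (perp B A₀))),
      Cut κ N B M qM S S' qS x φ A A₀ ((N.sub (perp B A₀)).quo (rad B (perp B A₀)))
        (redF B h.oN.symm (perp B A₀)) (rad B (perp B A₀)).mkQ R := by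
  obtain ⟨A₀, hA, hmax⟩ := exists_inv N M S S'
  have h2 := exists_subQ N h.oN.symm (perp B A₀)
  have hle : perp B A ≤ perp B A₀ := perp_mono (h.le_A hA)
  exact ⟨A₀, _, h, hA, hmax, h2, h.orth_two hsee hA h2, hle, rfl,
    h.orth_R hA hmax hsee h2 hle rfl⟩

variable (h : Cut κ N B M qM S S' qS x φ A A₀ N₂ B₂ π R)

include h

theorem Cut.symm2 (u v : E₂) : B₂ u v = B₂ v u := h.o2.symm u v

theorem Cut.leA : A₀ ≤ A := h.l3.le_A h.inv

theorem Cut.pp : perp B (perp B A₀) = A₀ := perp_perp' h.l3.oN.symm h.l3.oN.nd A₀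

theorem Cut.ppA : perp B (perp B A) = A := perp_perp' h.l3.oN.symm h.l3.oN.nd A

theorem Cut.ker (g : perp B A₀) : π g = 0 ↔ (g : E) ∈ A₀ := by
  rw [h.red.ker, h.pp]

theorem Cut.inf_le : A ⊓ perp B A ≤ A₀ := h.max _ h.l3.inv_rad

theorem Cut.φA {u : E} (hu : u ∈ A) : φ u = 0 :=
  LinearMap.congr_fun (h.l3.noA (φ ∘ₗ A.subtype) (comp_hz h.l3.hφ (subtype_hz N A))) (⟨u, hu⟩ : A)

theorem Cut.xperp {u : E} (hu : u ∈ perp B A) : x u = 0 :=
  LinearMap.congr_fun (h.l3.noS (x ∘ₗ (perp B A).subtype)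
    (comp_hz h.l3.hx (subtype_hz N (perp B A)))) (⟨u, hu⟩ : perp B A)

theorem Cut.xA₀ {u : E} (hu : u ∈ A₀) : x u = 0 :=
  LinearMap.congr_fun (h.inv.2.1 (x ∘ₗ A₀.subtype)
    (comp_hz h.l3.hx (subtype_hz N A₀))) (⟨u, hu⟩ : A₀)

theorem Cut.mem_R {y : E₂} :
    y ∈ R ↔ ∃ n : E, ∃ hn : n ∈ perp B A, π ⟨n, h.le hn⟩ = y := by
  constructor
  · intro hy
    rw [h.hR] at hy
    obtain ⟨n, rfl⟩ := hy
    exact ⟨n, n.2, rfl⟩
  · rintro ⟨n, hn, rfl⟩
    have h1 : π ⟨n, h.le hn⟩ ∈ LinearMap.range (π ∘ₗ Submodule.inclusion h.le) := ⟨⟨n, hn⟩, rfl⟩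
    exact h.hR.ge h1

theorem Cut.mem_P (g : perp B A₀) : π g ∈ perp B₂ R ↔ (g : E) ∈ A := by
  constructor
  · intro hg
    rw [← h.ppA, mem_perp]
    intro n hn
    have := mem_perp.1 hg _ (h.mem_R.2 ⟨n, hn, rfl⟩)
    rw [h.red.form] at this
    exact this
  · intro hg
    rw [mem_perp]
    intro y hy
    obtain ⟨n, hn, rfl⟩ := h.mem_R.1 hy
    rw [h.red.form, h.l3.oN.symm]
    exact mem_perp.1 hn _ hg

/-- the orthogonal projection onto `R` -/
theorem Cut.exists_proj : ∃ e : E₂ →ₗ[F] R, (∀ y : R, e y = y) ∧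
    (∀ (y : E₂) (r : R), B₂ (e y) r = B₂ y r) ∧ (∀ y, y - e y ∈ perp B₂ R) ∧
      ∀ p a y, y ∈ (N₂.ch p).L a → (e y : E₂) ∈ (N₂.ch p).L a := by
  obtain ⟨e, he1, he⟩ := exists_proj_perp h.o2.symm R (fun y hy h0 => by
    have := h.oR.nd ⟨y, hy⟩ (fun z => h0 z z.2)
    exact congrArg Subtype.val this)
  exact ⟨e, he1, he, mem_perp_of_proj h.o2.symm he, fun p a y hy => proj_level h.o2 h.oR he hy⟩

theorem Cut.oP : Orth (N₂.sub (perp B₂ R)) (rF B₂ (perp B₂ R)) := orth_perp h.o2 h.oR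

end

end Vale.Agent.P182.H668
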