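import Vale.Agent.P182.H668.Xi
import Vale.Agent.P182.H120.Endgame45
import Vale.Agent.P182.H481.VVext
import Vale.Agent.P182.H716.X5

/-!
# The endgame when all levels are seen
-/

set_option linter.unusedSectionVars false

namespace Vale.Agent.P182.H668

open LinearMap Submodule Module Vale.Agent.P182 Vale.Agent.P182.H430 Vale.Agent.P182.H578

universe u

variable {k F P : Type*} [Field k] [Field F] [Algebra k F] {C : Curve k F P}
variable {E : Type u} [AddCommGroup E] [Module F E] [Module k E] [IsScalarTower k F E]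
  [FiniteDimensional F E]
variable {E₂ : Type u} [AddCommGroup E₂] [Module F E₂] [Module k E₂] [IsScalarTower k F E₂]
  [FiniteDimensional F E₂]
variable {W : Type u} [AddCommGroup W] [Module F W] [Module k W] [IsScalarTower k F W]
  [FiniteDimensional F W]
variable {U : Type u} [AddCommGroup U] [Module F U] [Module k U] [IsScalarTower k F U]
  [FiniteDimensional F U]
variable {U' : Type*} [AddCommGroup U'] [Module F U'] [Module k U'] [IsScalarTower k F U']
  [FiniteDimensional F U']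

variable {κ : P → ℤ} {N : Bun C E} {B : LinearMap.BilinForm F E} {M : Bun C W}
  {qM : LinearMap.BilinForm F W} {S : Bun C U} {S' : Bun C U'} {qS : U →ₗ[F] U' →ₗ[F] F}
  {x : E →ₗ[F] U} {φ : E →ₗ[F] W} {A A₀ : Submodule F E}
  {N₂ : Bun C E₂} {B₂ : LinearMap.BilinForm F E₂} {π : perp B A₀ →ₗ[F] E₂} {R : Submodule F E₂}

/-- versality of the reduction -/
theorem Cut.vv2 (h : Cut κ N B M qM S S' qS x φ A A₀ N₂ B₂ π R) : VV N₂ B₂ :=
  H481.VV_subQ h.l3.oN.symm h.l3.oN.nd h.l3.vv (Inv.noHom_quo h.inv h.max) h.red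

/-- there are no extensions between the two summands -/
theorem Cut.ext_zero (h : Cut κ N B M qM S S' qS x φ A A₀ N₂ B₂ π R) :
    h1 ((N₂.sub R).hom (N₂.sub (perp B₂ R))).lat = 0 ∧
      h1 ((N₂.sub (perp B₂ R)).hom (N₂.sub R)).lat = 0 := by
  obtain ⟨e, he1, he, hep, hel⟩ := h.exists_proj
  refine H481.VV_ext h.o2.symm h.o2.nd h.vv2 R (R.subtype ∘ₗ e) (fun y => (e y).2)
    (fun y hy => congrArg Subtype.val (he1 ⟨y, hy⟩)) (fun y hy => ?_) hel
  have h1 : e y = 0 := by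
    refine h.oR.nd _ fun r => ?_
    rw [rF_apply, he, h.o2.symm]
    exact mem_perp.1 hy r r.2
  rw [LinearMap.comp_apply, h1, map_zero]

/-- **the endgame** when all levels are seen, without the alternative -/
theorem Cut.false_aux (hcut : Cut κ N B M qM S S' qS x φ A A₀ N₂ B₂ π R) (hsee : Seen M S S')
    (h2 : (2 : F) ≠ 0) (hX5 : (∃ Φ, Higgs κ (N₂.sub R) Φ ∧ Φ ≠ 0 ∧ Φ ∈ adj (rF B₂ R) 1) ∨
      2 ≤ h1 ((N₂.sub R).hom (N₂.sub R)).lat) : False := by
  have h := hcut.l3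
  obtain ⟨φ₂, hφ₂, eφ⟩ := hcut.exists_φ₂
  obtain ⟨x₂, hx₂, ex⟩ := hcut.exists_x₂
  obtain ⟨c, hc, hc0⟩ := h.ex
  have hcs : ∀ s, c s s = 0 := by
    intro s
    have h3 := hc.skew s s
    have h4 : (2 : F) * c s s = 0 := by linear_combination h3
    exact (mul_eq_zero.1 h4).resolve_left h2
  have h2k : ((2 : k)⁻¹ * 2 : k) = 1 := by
    refine inv_mul_cancel₀ fun h0 => h2 ?_
    have := congrArg (algebraMap k F) h0
    rwa [map_ofNat, map_zero] at this
  obtain ⟨Ξ, hΞ, hΞn⟩ := hcut.exists_Xi' hc hc0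
    (xP := x₂ ∘ₗ (perp B₂ R).subtype) (fun g hg => ex g)
  refine H120.endgame45 h.hκ h2 h2k hcut.oR hcut.oP h.oM.nd h.oM.symm
    (comp_hz hφ₂ (subtype_hz _ R)) ?_ (hcut.hppR fun n hn => eφ n)
    (fun G hG => hcut.maxR hsee hG) (comp_hz hx₂ (subtype_hz _ _)) ?_ hcut.homPM hcut.homRS
    h.hSM hcut.ext_zero.1 hcut.ext_zero.2 c hcs hc.level hΞ hΞn hX5
  · intro ψ hψ
    obtain ⟨c, hc⟩ := hcut.homRM hψ
    refine ⟨c, LinearMap.ext ?_⟩
    rintro ⟨y, hy⟩
    obtain ⟨n, hn, rfl⟩ := hcut.mem_R.1 hy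
    rw [hc ⟨n, hcut.le hn⟩ hy]
    exact congrArg (fun w => c • w) (eφ ⟨n, hcut.le hn⟩).symm
  · intro ψ hψ
    obtain ⟨c, hc⟩ := hcut.homPS hψ
    refine ⟨c, LinearMap.ext ?_⟩
    rintro ⟨y, hy⟩
    obtain ⟨g, rfl⟩ := hcut.red.surj y
    rw [hc g hy]
    exact congrArg (fun w => c • w) (ex g).symm

/-- **the endgame** when all levels are seen -/
theorem false_of_seen (h : L3In κ N B M qM S S' qS x φ A) (hsee : Seen M S S')
    (h2 : (2 : F) ≠ 0)
    (alt : (∀ φs : W →ₗ[F] E, (∀ w e, B (φs w) e = qM w (φ e)) → φs ∘ₗ φ ≠ 0) ∨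
      ∃ g : Fin 2 → (E →ₗ[F] E), (∀ i, g i ∈ adj B (-1)) ∧
        (∀ i p b x, x ∈ (N.ch p).L b → g i x ∈ (N.ch p).L (b - κ p)) ∧
        (∀ i e, φ e = 0 → g i e = 0) ∧ LinearIndependent k g) : False := by
  obtain ⟨A₀, R, hcut⟩ := exists_cut h hsee
  exact hcut.false_aux hsee h2
    (H716.hX5' h hcut.inv hcut.red hcut.o2 hcut.le hcut.hR hcut.oR alt)

/-- **the endgame** when all levels are seen -/
theorem false_of_seenV (h : L3In κ N B M qM S S' qS x φ A) (hsee : Seen M S S')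
    (h2 : (2 : F) ≠ 0) (alt : AltV κ M qM φ) : False := by
  obtain ⟨A₀, R, hcut⟩ := exists_cut h hsee
  exact hcut.false_aux hsee h2 (hcut.X5 alt)

end Vale.Agent.P182.H668
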