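import Vale.Agent.P182.H668.Global

/-!
# Lemma Z and positivity: the final statement
-/

namespace Vale.Agent.P182.H668

open LinearMap Submodule Module Vale.Agent.P182 Vale.Agent.P182.H430

section Fitting

variable {F E : Type*} [Field F] [AddCommGroup E] [Module F E] [FiniteDimensional F E]

theorem eventually_fitting (X : E →ₗ[F] E) :
    ∀ᶠ n in Filter.atTop, LinearMap.range (X ^ (n + 1)) = LinearMap.range (X ^ n) ∧
      ∀ x ∈ LinearMap.range (X ^ n), X x = 0 → x = 0 := by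
  have h1 := LinearMap.eventually_iInf_range_pow_eq X
  have h2 := LinearMap.eventually_isCompl_ker_pow_range_pow X
  rw [Filter.eventually_atTop] at h1
  obtain ⟨N, hN⟩ := h1
  filter_upwards [h2, Filter.eventually_ge_atTop N, Filter.eventually_ge_atTop 1] with n hn hnN hn1
  refine ⟨(hN (n + 1) (by omega)).symm.trans (hN n hnN), fun x hx hx0 => ?_⟩
  have hk : x ∈ LinearMap.ker (X ^ n) := by
    rw [LinearMap.mem_ker]
    obtain ⟨m, rfl⟩ : ∃ m, n = m + 1 := ⟨n - 1, by omega⟩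
    rw [pow_succ, Module.End.mul_apply, hx0, map_zero]
  exact Submodule.disjoint_def.1 hn.disjoint x hk hx

/-- the automorphism induced on the bijective part -/
theorem exists_restrict {X : E →ₗ[F] E} {n : ℕ}
    (h1 : LinearMap.range (X ^ (n + 1)) = LinearMap.range (X ^ n))
    (h2 : ∀ x ∈ LinearMap.range (X ^ n), X x = 0 → x = 0) :
    ∃ e : (LinearMap.range (X ^ n)) ≃ₗ[F] (LinearMap.range (X ^ n)), ∀ x, (e x : E) = X x := by
  have h3 : ∀ x ∈ LinearMap.range (X ^ n), X x ∈ LinearMap.range (X ^ n) := by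
    rintro _ ⟨z, rfl⟩
    rw [← h1]
    exact ⟨z, by rw [pow_succ', Module.End.mul_apply]⟩
  let g : (LinearMap.range (X ^ n)) →ₗ[F] (LinearMap.range (X ^ n)) := X.restrict h3
  have hg : Function.Injective g := by
    rw [injective_iff_map_eq_zero]
    intro x hx
    exact Subtype.ext (h2 x x.2 (congrArg Subtype.val hx))
  exact ⟨LinearEquiv.ofInjectiveEndo g hg, fun x => rfl⟩

end Fitting

variable {k F P : Type*} [Field k] [Field F] [Algebra k F] {C : Curve k F P}
variable {E : Type*} [AddCommGroup E] [Module F E] [Module k E] [IsScalarTower k F E]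
variable {E₂ : Type*} [AddCommGroup E₂] [Module F E₂] [Module k E₂] [IsScalarTower k F E₂]

theorem Higgs.sub [FiniteDimensional F E] {κ : P → ℤ} {A : Bun C E} {X : E →ₗ[F] E}
    (h : Higgs κ A X) (S : Submodule F E) (XS : S →ₗ[F] S) (hXS : ∀ x, (XS x : E) = X x) :
    Higgs κ (A.sub S) XS := by
  refine mem_HZ.2 fun q => ?_
  intro b x hx
  show (XS x : E) ∈ (A.ch q).L (b + -κ q)
  rw [hXS, ← sub_eq_add_neg]
  exact h.mem q hx

/-- LEMMA Z and POSITIVITY.  Two bundles `A`, `B` with `Ext¹ (A, B) = 0 = Ext¹ (B, A)` which carry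
Higgs fields `X`, `Y` that are not nilpotent: the bijective parts of `X` and `Y` form a null
pair. -/
theorem null_class [Infinite k] [FiniteDimensional F E] [FiniteDimensional F E₂] {κ : P → ℤ}
    (hκ : Dualizing C κ) {A : Bun C E} {B : Bun C E₂} {X : E →ₗ[F] E} {Y : E₂ →ₗ[F] E₂}
    (hX : Higgs κ A X) (hY : Higgs κ B Y) (hXn : ∀ n, X ^ n ≠ 0) (hYn : ∀ n, Y ^ n ≠ 0)
    (hAB : h1 (A.hom B).lat = 0) (hBA : h1 (B.hom A).lat = 0) :
    ∃ (n : ℕ) (XS : (LinearMap.range (X ^ n)) ≃ₗ[F] (LinearMap.range (X ^ n)))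
      (YT : (LinearMap.range (Y ^ n)) ≃ₗ[F] (LinearMap.range (Y ^ n))) (e : P → ℕ),
      (∀ x, (XS x : E) = X x) ∧ (∀ y, (YT y : E₂) = Y y) ∧
      0 < finrank F (LinearMap.range (X ^ n)) ∧ 0 < finrank F (LinearMap.range (Y ^ n)) ∧
      NullPair hκ (A.sub (LinearMap.range (X ^ n))) (B.sub (LinearMap.range (Y ^ n))) XS YT e := by
  obtain ⟨n, ⟨hX1, hX2⟩, hY1, hY2⟩ := ((eventually_fitting X).and (eventually_fitting Y)).exists
  obtain ⟨XS, hXS⟩ := exists_restrict hX1 hX2
  obtain ⟨YT, hYT⟩ := exists_restrict hY1 hY2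
  have hpX : 0 < finrank F (LinearMap.range (X ^ n)) := by
    rw [Nat.pos_iff_ne_zero, Ne, Submodule.finrank_eq_zero, LinearMap.range_eq_bot]
    exact hXn n
  have hpY : 0 < finrank F (LinearMap.range (Y ^ n)) := by
    rw [Nat.pos_iff_ne_zero, Ne, Submodule.finrank_eq_zero, LinearMap.range_eq_bot]
    exact hYn n
  have hXH := hX.sub (LinearMap.range (X ^ n)) XS.toLinearMap hXS
  have hYH := hY.sub (LinearMap.range (Y ^ n)) YT.toLinearMap hYT
  obtain ⟨c, hc, hcl⟩ := lemmaZ_local (n := n) hκ hX hY hAB hBA rfl rfl XS.toLinearMap hXS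
    YT.toLinearMap hYT YT.injective
  have hchi : chi ((A.sub (LinearMap.range (X ^ n))).hom (B.sub (LinearMap.range (Y ^ n)))).lat +
      chi ((B.sub (LinearMap.range (Y ^ n))).hom (A.sub (LinearMap.range (X ^ n)))).lat = 0 := by
    have h1 := ((DPair.hom (B.sub (LinearMap.range (Y ^ n)))
      (A.sub (LinearMap.range (X ^ n)))).serre hκ).2.2.2
    have h2 := (Bun.chi_eq_of_equiv ((A.sub (LinearMap.range (X ^ n))).hom
      (B.sub (LinearMap.range (Y ^ n)))) (((A.sub (LinearMap.range (X ^ n))).hom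
      (B.sub (LinearMap.range (Y ^ n)))).twist κ hκ.fin) (LinearEquiv.ofBijective _ hc)
      (fun p f => by
        rw [← Bun.tw_eq]
        exact hcl p f)).1
    rw [← Bun.tw_eq, h1] at h2
    linarith
  obtain ⟨e, he⟩ := nullPair_of_chi hκ XS YT hXH hYH hpX hpY hchi
  exact ⟨n, XS, YT, e, hXS, hYT, hpX, hpY, he⟩

end Vale.Agent.P182.H668
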