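import Vale.Agent.P182.H668.Mult

/-!
# The null class of two orthogonal Higgs bundles
-/

namespace Vale.Agent.P182.H668

open LinearMap Submodule Module Vale.Agent.P182 Vale.Agent.P182.H430

variable {k F P : Type*} [Field k] [Field F] [Algebra k F] {C : Curve k F P}
variable {E : Type*} [AddCommGroup E] [Module F E] [Module k E] [IsScalarTower k F E]
variable {E₂ : Type*} [AddCommGroup E₂] [Module F E₂] [Module k E₂] [IsScalarTower k F E₂]

/-- local change of the Euler characteristic under the canonical twist -/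
theorem local_tw {Q : Place k F} {m : ℕ} [FiniteDimensional F E] (L : LChain Q m E) {κ : ℤ}
    (hκ : κ % m = m - 1) :
    (rdim (L.L 0) (L.L (-(max κ 0))) : ℤ) - rdim (L.L (-κ)) (L.L (-(max κ 0))) =
      finrank F E * (κ / m) + (finrank F E - mult L 0) := by
  obtain ⟨b, w, h⟩ := L.exists_split
  rw [(rdim_chain h (a := 0) (a' := -(max κ 0)) (by simp)).2,
    (rdim_chain h (a := -κ) (a' := -(max κ 0)) (by simp)).2, mult_eq h,
    ← Finset.sum_sub_distrib]
  have h1 : ∀ i, ((w i - -(max κ 0)) / m - (w i - 0) / m) -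
      ((w i - -(max κ 0)) / m - (w i - -κ) / m) =
      κ / m + (1 - ((w i - 0) / m - (w i - (0 + 1)) / (m : ℤ))) := by
    intro i
    have := kappa_div L.pos hκ (w i)
    rw [sub_neg_eq_add (w i) κ, this, sub_zero, zero_add]
    ring
  simp only [h1]
  rw [Finset.sum_add_distrib, Finset.sum_sub_distrib]
  simp

/-- the Euler characteristic of the canonical twist -/
theorem chi_tw {κ : P → ℤ} (hκ : Dualizing C κ) (A : Bun C E) :
    chi (A.tw κ) = chi A.lat - 2 * finrank F E +
      ∑ p ∈ hκ.fin.toFinset, ((finrank F E : ℤ) - mult (A.ch p) 0) := by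
  classical
  have hfd := A.finiteDimensional
  set S := hκ.fin.toFinset with hS
  have hS0 : ∀ p, p ∉ S → κ p = 0 := by
    intro p hp
    by_contra h0
    exact hp (hκ.fin.mem_toFinset.2 h0)
  let n' : P → ℤ := fun p => max (κ p) 0
  have hn' : {p | n' p ≠ 0}.Finite := by
    refine hκ.fin.subset ?_
    intro p hp h0
    exact hp (by simp [n', h0])
  have c1 := chi_change (k := k) (Λ := A.lat) (Λ' := A.tw n')
    (fun p => (A.ch p).anti _ _ (by simp [n'])) S
    (fun p hp => by
      show (A.ch p).L (-n' p) ≤ (A.ch p).L 0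
      refine (A.ch p).anti _ _ ?_
      simp [n', hS0 p hp])
    (fun p => finRel_chain (A.ch p) (by simp [n'])) A.adm
  have hadm : Adm (A.tw κ) := by
    rw [A.tw_eq κ hκ.fin]
    exact (A.twist κ hκ.fin).adm
  have hfin : FinCoh (A.tw κ) := by
    rw [A.tw_eq κ hκ.fin]
    exact (A.twist κ hκ.fin).finCoh
  have c2 := chi_change (k := k) (Λ := A.tw κ) (Λ' := A.tw n')
    (fun p => (A.ch p).anti _ _ (by simp [n'])) S
    (fun p hp => by
      show (A.ch p).L (-n' p) ≤ (A.ch p).L (-κ p)
      refine (A.ch p).anti _ _ ?_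
      simp [n', hS0 p hp])
    (fun p => finRel_chain (A.ch p) (by simp [n'])) hadm
  have e1 := c1.2 A.finCoh
  have e2 := c2.2 hfin
  have e3 : ∑ p ∈ S, (rdim (A.lat p) (A.tw n' p) : ℤ) - ∑ p ∈ S, (rdim (A.tw κ p) (A.tw n' p) : ℤ)
      = ∑ p ∈ S, (finrank F E * (κ p / C.per p) + ((finrank F E : ℤ) - mult (A.ch p) 0)) := by
    rw [← Finset.sum_sub_distrib]
    exact Finset.sum_congr rfl fun p _ => local_tw (A.ch p) (hκ.cong p)
  rw [Finset.sum_add_distrib, ← Finset.mul_sum, ← C.deg_eq_sum S hS0, hκ.deg] at e3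
  linarith

/-- a Higgs field which is an isomorphism at the levels `v` -/
theorem sum_corank {κ : P → ℤ} (hκ : Dualizing C κ) (A : Bun C E) (X : E ≃ₗ[F] E)
    (hX : ∀ p, HiggsC (κ p) (A.ch p) X) (v : P → ℤ) (hv : {p | v p ≠ 0}.Finite)
    (h : ∀ p x, X x ∈ (A.ch p).L (v p - κ p) → x ∈ (A.ch p).L (v p)) :
    ∑ p ∈ hκ.fin.toFinset, ((finrank F E : ℤ) - mult (A.ch p) (v p)) = 2 * finrank F E := by
  have hv' : {p | (fun p => -v p) p ≠ 0}.Finite := by
    refine hv.subset fun p hp h0 => hp ?_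
    show -v p = 0
    rw [h0, neg_zero]
  let A₁ := A.twist (fun p => -v p) hv'
  have h1 := (Bun.chi_eq_of_equiv A₁ (A₁.twist κ hκ.fin) X (fun p x => ?_)).1
  · have h2 := chi_tw hκ A₁
    rw [A₁.tw_eq κ hκ.fin, ← h1] at h2
    have h3 : ∀ p, mult (A₁.ch p) 0 = mult (A.ch p) (v p) := by
      intro p
      show mult ((A.ch p).shift (- -v p)) 0 = _
      rw [mult_shift, neg_neg, zero_add]
    simp only [h3] at h2
    linarith
  · show x ∈ ((A.ch p).shift (- -v p)).L 0 ↔ X x ∈ (((A.ch p).shift (- -v p)).shift (-κ p)).L 0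
    rw [LChain.mem_shift, LChain.mem_shift, LChain.mem_shift]
    have e1 : (0 : ℤ) + - -v p = v p := by ring
    have e2 : (0 : ℤ) + -κ p + - -v p = v p - κ p := by ring
    rw [e1, e2]
    exact ⟨fun hx => hX p _ _ hx, fun hx => h p x hx⟩

/-- Two bundles with invertible Higgs fields whose classes are multiples of one null class:
`e p` positions at `p` with constant multiplicities, `∑ (1 - 1 / e p) = 2`. -/
structure NullPair [FiniteDimensional F E] [FiniteDimensional F E₂] {κ : P → ℤ} (hκ : Dualizing C κ) (A : Bun C E) (B : Bun C E₂) (X : E ≃ₗ[F] E)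
    (Y : E₂ ≃ₗ[F] E₂) (e : P → ℕ) : Prop where
  /-- `χ (A, B) + χ (B, A) = 0` -/
  chi_add : chi (A.hom B).lat + chi (B.hom A).lat = 0
  pos : ∀ p, 0 < e p
  one : ∀ p, κ p = 0 → e p = 1
  sum : ∑ p ∈ hκ.fin.toFinset, (1 - 1 / (e p : ℚ)) = 2
  mult : ∀ p a, (mult (A.ch p) a = 0 ∧ mult (B.ch p) a = 0) ∨
    (mult (A.ch p) a * e p = finrank F E ∧ mult (B.ch p) a * e p = finrank F E₂ ∧
      (∀ x, X x ∈ (A.ch p).L (a - κ p) → x ∈ (A.ch p).L a) ∧
      (∀ y, Y y ∈ (B.ch p).L (a - κ p) → y ∈ (B.ch p).L a))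
  card : ∀ p, e p = ((Finset.range (C.per p)).filter fun a : ℕ =>
    H668.mult (A.ch p) a ≠ 0).card

/-- POSITIVITY.  The equality case. -/
theorem nullPair_of_chi [FiniteDimensional F E] [FiniteDimensional F E₂] {κ : P → ℤ}
    (hκ : Dualizing C κ) {A : Bun C E} {B : Bun C E₂} (X : E ≃ₗ[F] E)
    (Y : E₂ ≃ₗ[F] E₂) (hX : Higgs κ A X.toLinearMap) (hY : Higgs κ B Y.toLinearMap)
    (hE : 0 < finrank F E) (hE₂ : 0 < finrank F E₂)
    (h : chi (A.hom B).lat + chi (B.hom A).lat = 0) : ∃ e : P → ℕ, NullPair hκ A B X Y e := by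
  classical
  have hiso := fun p => iso_of_chi hκ hX hY X.injective Y.injective h.ge p
  have hXc : ∀ p, HiggsC (κ p) (A.ch p) X := fun p b x hx => hX.mem p hx
  have hYc : ∀ p, HiggsC (κ p) (B.ch p) Y := fun p b x hx => hY.mem p hx
  have hloc := fun p => local_structure (hκ.cong p) (hXc p) (hYc p) (hiso p).1 (hiso p).2 hE hE₂
  choose c d hc hd hcd using hloc
  let e : P → ℕ := fun p => ((Finset.range (C.per p)).filter fun a : ℕ =>
    H668.mult (A.ch p) a ≠ 0).card
  have hce : ∀ p, finrank F E = c p * e p := fun p =>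
    rank_eq (L := A.ch p) (c := c p) fun a => by
      rcases hcd p a with h1 | h1
      · exact Or.inl h1.1
      · exact Or.inr h1.1
  have he' : ∀ p, e p = ((Finset.range (C.per p)).filter fun a : ℕ =>
      H668.mult (B.ch p) a ≠ 0).card := by
    intro p
    show Finset.card _ = Finset.card _
    congr 1
    apply Finset.filter_congr
    intro a _
    rcases hcd p a with h1 | h1
    · rw [h1.1, h1.2]
    · rw [h1.1, h1.2.1]
      have := hc p
      have := hd p
      omega
  have hde : ∀ p, finrank F E₂ = d p * e p := fun p => by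
    rw [he' p]
    refine rank_eq (L := B.ch p) (c := d p) fun a => ?_
    rcases hcd p a with h1 | h1
    · exact Or.inl h1.2
    · exact Or.inr h1.2.1
  have hepos : ∀ p, 0 < e p := fun p => by
    rcases Nat.eq_zero_or_pos (e p) with h0 | h0
    · have := hce p
      rw [h0, mul_zero] at this
      omega
    · exact h0
  -- at the unmarked places there is one position
  have hper : ∀ p, κ p = 0 → C.per p = 1 := by
    intro p hp
    have h1 := hκ.cong p
    rw [hp, Int.zero_emod] at h1
    omega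
  have hone : ∀ p, κ p = 0 → e p = 1 := by
    intro p hp
    have h1 : e p ≤ 1 := by
      have := Finset.card_filter_le (Finset.range (C.per p)) fun a : ℕ =>
        H668.mult (A.ch p) a ≠ 0
      rw [Finset.card_range] at this
      exact this.trans (hper p hp).le
    have := hepos p
    omega
  refine ⟨e, h, hepos, hone, ?_, ?_, fun p => rfl⟩
  · -- levels in the support
    have hv : ∀ p, ∃ v : ℤ, H668.mult (A.ch p) v ≠ 0 ∧ (κ p = 0 → v = 0) := by
      intro p
      obtain ⟨a, ha⟩ := exists_mult_ne (A.ch p) hE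
      by_cases hp : κ p = 0
      · refine ⟨0, ?_, fun _ => rfl⟩
        have h1 := mult_periodic (A.ch p) 0 a
        have h2 : (0 : ℤ) + (C.per p : ℤ) * a = a := by
          have h3 : (C.per p : ℤ) = 1 := by exact_mod_cast hper p hp
          rw [h3]; ring
        rw [h2] at h1
        rw [← h1]
        exact ha
      · exact ⟨a, ha, fun h0 => absurd h0 hp⟩
    choose v hv1 hv2 using hv
    have hv3 : {p | v p ≠ 0}.Finite := hκ.fin.subset fun p hp h0 => hp (hv2 p h0)
    have hv4 : ∀ p, H668.mult (A.ch p) (v p) = c p ∧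
        ∀ x, X x ∈ (A.ch p).L (v p - κ p) → x ∈ (A.ch p).L (v p) := by
      intro p
      rcases hcd p (v p) with h1 | h1
      · exact absurd h1.1 (hv1 p)
      · exact ⟨h1.1, h1.2.2.1⟩
    have h5 := sum_corank hκ A X hXc v hv3 fun p => (hv4 p).2
    have hE' : (finrank F E : ℚ) ≠ 0 := by exact_mod_cast hE.ne'
    have h6 : (finrank F E : ℚ) * ∑ p ∈ hκ.fin.toFinset, (1 - 1 / (e p : ℚ)) =
        (finrank F E : ℚ) * 2 := by
      rw [Finset.mul_sum]
      have h7 : ∀ p, (finrank F E : ℚ) * (1 - 1 / (e p : ℚ)) =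
          (((finrank F E : ℤ) - H668.mult (A.ch p) (v p) : ℤ) : ℚ) := by
        intro p
        have h8 : (e p : ℚ) ≠ 0 := by exact_mod_cast (hepos p).ne'
        have h9 : (finrank F E : ℚ) = c p * e p := by exact_mod_cast hce p
        rw [(hv4 p).1]
        push_cast
        rw [h9]
        field_simp
      simp only [h7]
      rw [← Int.cast_sum, h5]
      push_cast
      ring
    exact mul_left_cancel₀ hE' h6
  · intro p a
    rcases hcd p a with h1 | h1
    · exact Or.inl h1
    · right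
      refine ⟨?_, ?_, h1.2.2.1, h1.2.2.2⟩
      · rw [h1.1]; exact (hce p).symm
      · rw [h1.2.1]; exact (hde p).symm

end Vale.Agent.P182.H668
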