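import Vale.Agent.P182.H668.Iface

/-!
# Exact sequences and dualities for homomorphisms
-/

namespace Vale.Agent.P182.H668

open LinearMap Submodule Module Vale.Agent.P182 Vale.Agent.P182.H430 Vale.Agent.P182.H578

variable {k F P : Type*} [Field k] [Field F] [Algebra k F] {C : Curve k F P}
variable {E : Type*} [AddCommGroup E] [Module F E] [Module k E] [IsScalarTower k F E]
  [FiniteDimensional F E]
variable {E₂ : Type*} [AddCommGroup E₂] [Module F E₂] [Module k E₂] [IsScalarTower k F E₂]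
  [FiniteDimensional F E₂]
variable {E₃ : Type*} [AddCommGroup E₃] [Module F E₃] [Module k E₃] [IsScalarTower k F E₃]
  [FiniteDimensional F E₃]

/-! ### composition -/

theorem mem_hz_hom {A : Bun C E} {B : Bun C E₂} {f : E →ₗ[F] E₂} :
    f ∈ HZ (A.hom B).lat ↔ ∀ p b x, x ∈ (A.ch p).L b → f x ∈ (B.ch p).L b := by
  rw [mem_HZ]
  exact forall_congr' fun p => Bun.mem_hom_lat A B p f

theorem comp_hz {A : Bun C E} {B : Bun C E₂} {D : Bun C E₃} {f : E →ₗ[F] E₂} {g : E₂ →ₗ[F] E₃}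
    (hg : g ∈ HZ (B.hom D).lat) (hf : f ∈ HZ (A.hom B).lat) : g ∘ₗ f ∈ HZ (A.hom D).lat := by
  rw [mem_hz_hom] at *
  exact fun p b x hx => hg p b _ (hf p b x hx)

theorem subtype_hz (A : Bun C E) (S : Submodule F E) :
    S.subtype ∈ HZ ((A.sub S).hom A).lat := mem_hz_hom.2 fun _ _ _ hx => hx

theorem mkQ_hz (A : Bun C E) (S : Submodule F E) :
    S.mkQ ∈ HZ (A.hom (A.quo S)).lat := mem_hz_hom.2 fun _ _ x hx => ⟨x, hx, rfl⟩

/-- precomposition with the quotient map -/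
def pcQ (S : Submodule F E) (E₂ : Type*) [AddCommGroup E₂] [Module F E₂] :
    ((E ⧸ S) →ₗ[F] E₂) →ₗ[F] (E →ₗ[F] E₂) where
  toFun f := f ∘ₗ S.mkQ
  map_add' _ _ := LinearMap.add_comp _ _ _
  map_smul' _ _ := LinearMap.smul_comp _ _ _

/-- restriction to a subspace -/
def rsS (S : Submodule F E) (E₂ : Type*) [AddCommGroup E₂] [Module F E₂] :
    (E →ₗ[F] E₂) →ₗ[F] (S →ₗ[F] E₂) where
  toFun f := f ∘ₗ S.subtype
  map_add' _ _ := LinearMap.add_comp _ _ _
  map_smul' _ _ := LinearMap.smul_comp _ _ _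

/-- the exact sequence `0 → Hom (A/S, B) → Hom (A, B) → Hom (S, B) → 0` of lattices -/
theorem homFam (A : Bun C E) (B : Bun C E₂) (S : Submodule F E) :
    FamSES (k := k) ((pcQ S E₂).restrictScalars k) ((rsS S E₂).restrictScalars k)
      ((A.quo S).hom B).lat (A.hom B).lat ((A.sub S).hom B).lat := by
  refine ⟨⟨?_, ?_, ?_⟩, ?_, ?_, (A.hom B).adm⟩
  · intro f g h
    apply LinearMap.ext
    intro x
    obtain ⟨x, rfl⟩ := S.mkQ_surjective x
    exact LinearMap.congr_fun h x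
  · ext f
    constructor
    · rintro ⟨g, rfl⟩
      apply LinearMap.ext
      intro x
      show g (S.mkQ (x : E)) = 0
      have : S.mkQ (x : E) = 0 := by simp
      rw [this, map_zero]
    · intro hf
      have hf' : ∀ x ∈ S, f x = 0 := fun x hx => LinearMap.congr_fun hf (⟨x, hx⟩ : S)
      refine ⟨S.liftQ f (fun x hx => hf' x hx), ?_⟩
      apply LinearMap.ext
      intro x
      rfl
  · intro f
    obtain ⟨g, hg⟩ := LinearMap.exists_extend f
    exact ⟨g, hg⟩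
  · intro p
    ext f
    exact LChain.hom_quo_left_iff (A.ch p) (B.ch p) S
  · intro p
    ext f
    constructor
    · rintro ⟨g, hg, rfl⟩
      exact LChain.hom_sub_mem (A.ch p) (B.ch p) S hg
    · intro hf
      obtain ⟨g, hg, hgf⟩ := LChain.hom_sub_surj (A.ch p) (B.ch p) S hf
      exact ⟨g, hg, hgf⟩

/-- the exact sequence `0 → Hom (A, T) → Hom (A, B) → Hom (A, B/T) → 0` of lattices -/
theorem homFam' (A : Bun C E) (B : Bun C E₂) (T : Submodule F E₂) :
    FamSES (k := k) ((LinearMap.llcomp F E T E₂ T.subtype).restrictScalars k)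
      ((LinearMap.llcomp F E E₂ (E₂ ⧸ T) T.mkQ).restrictScalars k)
      (A.hom (B.sub T)).lat (A.hom B).lat (A.hom (B.quo T)).lat := by
  refine ⟨⟨?_, ?_, ?_⟩, ?_, ?_, (A.hom B).adm⟩
  · intro f g h
    apply LinearMap.ext
    intro x
    apply Subtype.ext
    exact LinearMap.congr_fun h x
  · ext f
    constructor
    · rintro ⟨g, rfl⟩
      apply LinearMap.ext
      intro x
      show T.mkQ (g x : E₂) = 0
      simp
    · intro hf
      have hf' : ∀ x, f x ∈ T := fun x => by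
        have h1 : T.mkQ (f x) = 0 := LinearMap.congr_fun hf x
        simpa using h1
      refine ⟨f.codRestrict T hf', ?_⟩
      apply LinearMap.ext
      intro x
      rfl
  · intro f
    obtain ⟨s, hs⟩ := T.mkQ.exists_rightInverse_of_surjective (LinearMap.range_eq_top.2
      T.mkQ_surjective)
    refine ⟨s ∘ₗ f, ?_⟩
    apply LinearMap.ext
    intro x
    exact LinearMap.congr_fun hs (f x)
  · intro p
    ext f
    exact LChain.hom_sub_iff (A.ch p) (B.ch p) T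
  · intro p
    ext f
    constructor
    · rintro ⟨g, hg, rfl⟩
      exact LChain.hom_quo_mem (A.ch p) (B.ch p) T hg
    · intro hf
      obtain ⟨g, hg, hgf⟩ := LChain.hom_quo_surj (A.ch p) (B.ch p) T hf
      exact ⟨g, hg, hgf⟩

section abs

variable {k' : Type*} [Field k'] {P' : Type*} {V₁ V₂ V₃ : Type*}
  [AddCommGroup V₁] [Module k' V₁] [AddCommGroup V₂] [Module k' V₂] [AddCommGroup V₃] [Module k' V₃]
  {Λ₁ : P' → Submodule k' V₁} {Λ₂ : P' → Submodule k' V₂} {Λ₃ : P' → Submodule k' V₃}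
  {i : V₁ →ₗ[k'] V₂} {q : V₂ →ₗ[k'] V₃}

theorem subsingleton_HO {Λ : P' → Submodule k' V₁} (hf : FinCoh Λ) (h : h1 Λ = 0) :
    Subsingleton (HO Λ) := by
  have := hf.fin1
  exact finrank_zero_iff.1 h

theorem hz_eq_zero {Λ : P' → Submodule k' V₁} (hf : FinCoh Λ) (h : h0 Λ = 0) {x : V₁}
    (hx : x ∈ HZ Λ) : x = 0 := by
  have := hf.fin0
  have hs : Subsingleton (HZ Λ) := finrank_zero_iff.1 h
  exact congrArg Subtype.val (Subsingleton.elim (⟨x, hx⟩ : HZ Λ) 0)

theorem h0_eq_zero {Λ : P' → Submodule k' V₁} (h : ∀ x ∈ HZ Λ, x = 0) : h0 Λ = 0 := by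
  have hb : HZ Λ = ⊥ := by
    rw [eq_bot_iff]
    intro x hx
    exact (Submodule.mem_bot k').2 (h x hx)
  unfold h0
  rw [hb]
  exact finrank_bot k' _

theorem FamSES.h1_right (h : FamSES i q Λ₁ Λ₂ Λ₃) (f2 : FinCoh Λ₂) (h2 : h1 Λ₂ = 0) :
    h1 Λ₃ = 0 := by
  have := h1_le_of_surjective f2 q h.mapq h.ses.surj
  omega

theorem FamSES.extend (h : FamSES i q Λ₁ Λ₂ Λ₃) (f1 : FinCoh Λ₁) (h1' : h1 Λ₁ = 0) {z : V₃}
    (hz : z ∈ HZ Λ₃) : ∃ x ∈ HZ Λ₂, q x = z := by
  have hs := subsingleton_HO f1 h1'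
  obtain ⟨x, hx⟩ := (h.exact_hz3 ⟨z, hz⟩).1 (Subsingleton.elim _ _)
  exact ⟨x, x.2, congrArg Subtype.val hx⟩

theorem FamSES.h1_mid (h : FamSES i q Λ₁ Λ₂ Λ₃) (f1 : FinCoh Λ₁) (f2 : FinCoh Λ₂)
    (f3 : FinCoh Λ₃) (h1' : h1 Λ₁ = 0) (h3' : h1 Λ₃ = 0) : h1 Λ₂ = 0 := by
  have hs1 := subsingleton_HO f1 h1'
  have hs3 := subsingleton_HO f3 h3'
  have hs2 : Subsingleton (HO Λ₂) := by
    refine ⟨fun a b => ?_⟩
    have key : ∀ y : HO Λ₂, y = 0 := by
      intro y
      obtain ⟨z, hz⟩ := (h.exact_ho2 y).1 (Subsingleton.elim _ _)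
      rw [← hz, Subsingleton.elim z 0, map_zero]
    rw [key a, key b]
  have := f2.fin1
  exact finrank_zero_iff.2 hs2

theorem FamSES.chi (h : FamSES i q Λ₁ Λ₂ Λ₃) (f1 : FinCoh Λ₁) (f3 : FinCoh Λ₃) :
    H430.chi Λ₂ = H430.chi Λ₁ + H430.chi Λ₃ :=
  (chi_ses h.ses h.sub h.quo h.adm f1 f3).2

end abs

/-! ### consequences -/

theorem chi_hom_left (A : Bun C E) (B : Bun C E₂) (S : Submodule F E) :
    chi (A.hom B).lat = chi ((A.quo S).hom B).lat + chi ((A.sub S).hom B).lat :=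
  FamSES.chi (homFam A B S) ((A.quo S).hom B).finCoh ((A.sub S).hom B).finCoh

theorem chi_hom_right (A : Bun C E) (B : Bun C E₂) (T : Submodule F E₂) :
    chi (A.hom B).lat = chi (A.hom (B.sub T)).lat + chi (A.hom (B.quo T)).lat :=
  FamSES.chi (homFam' A B T) (A.hom (B.sub T)).finCoh (A.hom (B.quo T)).finCoh

theorem h1_sub_left {A : Bun C E} {B : Bun C E₂} (S : Submodule F E) (h : h1 (A.hom B).lat = 0) :
    h1 ((A.sub S).hom B).lat = 0 := FamSES.h1_right (homFam A B S) (A.hom B).finCoh h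

theorem h1_quo_right {A : Bun C E} {B : Bun C E₂} (T : Submodule F E₂)
    (h : h1 (A.hom B).lat = 0) : h1 (A.hom (B.quo T)).lat = 0 :=
  FamSES.h1_right (homFam' A B T) (A.hom B).finCoh h

theorem h1_mid_left {A : Bun C E} {B : Bun C E₂} (S : Submodule F E)
    (hq : h1 ((A.quo S).hom B).lat = 0) (hs : h1 ((A.sub S).hom B).lat = 0) :
    h1 (A.hom B).lat = 0 :=
  FamSES.h1_mid (homFam A B S) ((A.quo S).hom B).finCoh (A.hom B).finCoh
    ((A.sub S).hom B).finCoh hq hs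

theorem NoHom.quo {A : Bun C E} {B : Bun C E₂} (h : NoHom A B) (S : Submodule F E) :
    NoHom (A.quo S) B := by
  intro f hf
  have h2 := h (f ∘ₗ S.mkQ) (comp_hz hf (mkQ_hz A S))
  apply LinearMap.ext
  intro x
  obtain ⟨x, rfl⟩ := S.mkQ_surjective x
  exact LinearMap.congr_fun h2 x

theorem NoHom.sub_right {A : Bun C E} {B : Bun C E₂} (h : NoHom A B) (T : Submodule F E₂) :
    NoHom A (B.sub T) := by
  intro f hf
  have h2 := h (T.subtype ∘ₗ f) (comp_hz (subtype_hz B T) hf)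
  apply LinearMap.ext
  intro x
  exact Subtype.ext (LinearMap.congr_fun h2 x)

/-- extension of homomorphisms from a subobject -/
theorem extend_left {A : Bun C E} {B : Bun C E₂} {S : Submodule F E}
    (h : h1 ((A.quo S).hom B).lat = 0) {f : S →ₗ[F] E₂} (hf : f ∈ HZ ((A.sub S).hom B).lat) :
    ∃ g ∈ HZ (A.hom B).lat, ∀ x : S, g x = f x := by
  obtain ⟨g, hg, hgf⟩ := FamSES.extend (homFam A B S) ((A.quo S).hom B).finCoh h hf
  exact ⟨g, hg, fun x => LinearMap.congr_fun hgf x⟩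

theorem NoHom.sub_left {A : Bun C E} {B : Bun C E₂} (h : NoHom A B) {S : Submodule F E}
    (h1' : h1 ((A.quo S).hom B).lat = 0) : NoHom (A.sub S) B := by
  intro f hf
  obtain ⟨g, hg, hgf⟩ := extend_left h1' hf
  apply LinearMap.ext
  intro x
  rw [← hgf, h g hg]
  rfl

theorem NoHom.mid_left {A : Bun C E} {B : Bun C E₂} {S : Submodule F E}
    (hs : NoHom (A.sub S) B) (hq : NoHom (A.quo S) B) : NoHom A B := by
  intro f hf
  have h1 : f ∘ₗ S.subtype = 0 := hs _ (comp_hz hf (subtype_hz A S))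
  have h2 : ∀ x ∈ S, f x = 0 := fun x hx => LinearMap.congr_fun h1 (⟨x, hx⟩ : S)
  let g : (E ⧸ S) →ₗ[F] E₂ := S.liftQ f (fun x hx => h2 x hx)
  have hg : g ∈ HZ ((A.quo S).hom B).lat := by
    rw [mem_hz_hom] at hf ⊢
    rintro p b _ ⟨x, hx, rfl⟩
    exact hf p b x hx
  have h3 := hq g hg
  apply LinearMap.ext
  intro x
  exact LinearMap.congr_fun h3 (S.mkQ x)

theorem NoHom.h0 {A : Bun C E} {B : Bun C E₂} (h : NoHom A B) : H430.h0 (A.hom B).lat = 0 :=
  h0_eq_zero h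

theorem noHom_of_h0 {A : Bun C E} {B : Bun C E₂} (h : H430.h0 (A.hom B).lat = 0) : NoHom A B :=
  fun _ hf => hz_eq_zero (A.hom B).finCoh h hf

theorem NoHom.chi_le {A : Bun C E} {B : Bun C E₂} (h : NoHom A B) : chi (A.hom B).lat ≤ 0 := by
  have := h.h0
  unfold chi
  omega

theorem NoHom.h1_of_chi {A : Bun C E} {B : Bun C E₂} (h : NoHom A B)
    (hc : chi (A.hom B).lat = 0) : h1 (A.hom B).lat = 0 := by
  have := h.h0
  unfold chi at hc
  omega

theorem NoHom.chi_zero {A : Bun C E} {B : Bun C E₂} (h : NoHom A B)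
    (h1' : h1 (A.hom B).lat = 0) : chi (A.hom B).lat = 0 := by
  have := h.h0
  unfold chi
  omega

end Vale.Agent.P182.H668
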