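import Vale.Agent.P182.H668.Cut

/-!
# Homomorphisms of the two summands
-/

set_option linter.unusedSectionVars false

namespace Vale.Agent.P182.H668

open LinearMap Submodule Module Vale.Agent.P182 Vale.Agent.P182.H430 Vale.Agent.P182.H578

variable {k F P : Type*} [Field k] [Field F] [Algebra k F] {C : Curve k F P}
variable {E : Type*} [AddCommGroup E] [Module F E] [Module k E] [IsScalarTower k F E]
  [FiniteDimensional F E]
variable {E₂ : Type*} [AddCommGroup E₂] [Module F E₂] [Module k E₂] [IsScalarTower k F E₂]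
  [FiniteDimensional F E₂]
variable {W : Type*} [AddCommGroup W] [Module F W] [Module k W] [IsScalarTower k F W]
  [FiniteDimensional F W]
variable {U : Type*} [AddCommGroup U] [Module F U] [Module k U] [IsScalarTower k F U]
  [FiniteDimensional F U]
variable {U' : Type*} [AddCommGroup U'] [Module F U'] [Module k U'] [IsScalarTower k F U']
  [FiniteDimensional F U']

/-- a map defined on representatives -/
theorem exists_descend {G : Submodule F E} {π : G →ₗ[F] E₂} (hπ : Function.Surjective π)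
    (f : G →ₗ[F] W) (h0 : ∀ g, π g = 0 → f g = 0) : ∃ f₂ : E₂ →ₗ[F] W, ∀ g, f₂ (π g) = f g := by
  obtain ⟨s, hs⟩ := π.exists_rightInverse_of_surjective (LinearMap.range_eq_top.2 hπ)
  refine ⟨f ∘ₗ s, fun g => ?_⟩
  have h1 : π (s (π g) - g) = 0 := by
    rw [map_sub, sub_eq_zero]
    exact LinearMap.congr_fun hs (π g)
  have h2 := h0 _ h1
  rw [map_sub, sub_eq_zero] at h2
  exact h2

/-- homomorphisms descend to the reduction -/
theorem SubQ.descend {N : Bun C E} {B : LinearMap.BilinForm F E} {G : Submodule F E}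
    {N₂ : Bun C E₂} {B₂ : LinearMap.BilinForm F E₂} {π : G →ₗ[F] E₂} (h : SubQ N B G N₂ B₂ π)
    {M : Bun C W} {f : E →ₗ[F] W} (hf : f ∈ HZ (N.hom M).lat) (h0 : ∀ g : G, π g = 0 → f g = 0) :
    ∃ f₂ ∈ HZ (N₂.hom M).lat, ∀ g : G, f₂ (π g) = f g := by
  obtain ⟨f₂, hf₂⟩ := exists_descend h.surj (f ∘ₗ G.subtype) h0
  refine ⟨f₂, mem_hz_hom.2 fun p b y hy => ?_, hf₂⟩
  obtain ⟨g, hg, rfl⟩ := (h.lat p b y).1 hy
  rw [hf₂]
  exact mem_hz_hom.1 hf p b _ hg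

/-- homomorphisms lift from the reduction -/
theorem SubQ.lift {N : Bun C E} {B : LinearMap.BilinForm F E} {G : Submodule F E}
    {N₂ : Bun C E₂} {B₂ : LinearMap.BilinForm F E₂} {π : G →ₗ[F] E₂} (h : SubQ N B G N₂ B₂ π)
    {M : Bun C W} (hq : h1 ((N.quo G).hom M).lat = 0) {f₂ : E₂ →ₗ[F] W}
    (hf : f₂ ∈ HZ (N₂.hom M).lat) : ∃ f ∈ HZ (N.hom M).lat, ∀ g : G, f g = f₂ (π g) := by
  have h1 : f₂ ∘ₗ π ∈ HZ ((N.sub G).hom M).lat := mem_hz_hom.2 fun p b y hy =>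
    mem_hz_hom.1 hf p b _ (h.mem hy)
  exact extend_left hq h1

section

variable {κ : P → ℤ} {N : Bun C E} {B : LinearMap.BilinForm F E} {M : Bun C W}
  {qM : LinearMap.BilinForm F W} {S : Bun C U} {S' : Bun C U'} {qS : U →ₗ[F] U' →ₗ[F] F}
  {x : E →ₗ[F] U} {φ : E →ₗ[F] W} {A A₀ : Submodule F E}
  {N₂ : Bun C E₂} {B₂ : LinearMap.BilinForm F E₂} {π : perp B A₀ →ₗ[F] E₂} {R : Submodule F E₂}

/-- the reduction of `A^⊥` is orthogonal -/
theorem L3In.orth_perp (h : L3In κ N B M qM S S' qS x φ A) (hsee : Seen M S S') :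
    Orth ((N.sub (perp B A)).quo (rad B (perp B A))) (redF B h.oN.symm (perp B A)) := by
  obtain ⟨c1, c2, c3⟩ := h.chi_perp
  exact (exists_subQ N h.oN.symm (perp B A)).orth h.hκ h.oN h.oM h.oS hsee c1 (by linarith)

variable (h : Cut κ N B M qM S S' qS x φ A A₀ N₂ B₂ π R)

include h

theorem Cut.liftM {f : E₂ →ₗ[F] W} (hf : f ∈ HZ (N₂.hom M).lat) :
    ∃ c : k, ∀ g : perp B A₀, f (π g) = c • φ g := by
  obtain ⟨f', hf', e⟩ := h.red.lift (h.l3.rzM h.inv.1).2.2 hf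
  obtain ⟨c, rfl⟩ := h.l3.hφ1 _ hf'
  exact ⟨c, fun g => (e g).symm⟩

theorem Cut.liftS {f : E₂ →ₗ[F] U} (hf : f ∈ HZ (N₂.hom S).lat) :
    ∃ c : k, ∀ g : perp B A₀, f (π g) = c • x g := by
  obtain ⟨f', hf', e⟩ := h.red.lift (h.l3.rzS h.inv.2.1 h.inv.2.2).2.2.2 hf
  obtain ⟨c, rfl⟩ := h.l3.hx1 _ hf'
  exact ⟨c, fun g => (e g).symm⟩

theorem Cut.exists_φ₂ : ∃ φ₂ ∈ HZ (N₂.hom M).lat, ∀ g : perp B A₀, φ₂ (π g) = φ g :=
  h.red.descend h.l3.hφ fun g hg => h.φA (h.leA ((h.ker g).1 hg))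

theorem Cut.exists_x₂ : ∃ x₂ ∈ HZ (N₂.hom S).lat, ∀ g : perp B A₀, x₂ (π g) = x g :=
  h.red.descend h.l3.hx fun g hg => h.xA₀ ((h.ker g).1 hg)

/-- the projection onto the complement -/
theorem Cut.exists_proj' : ∃ e : E₂ →ₗ[F] perp B₂ R, (∀ y : perp B₂ R, e y = y) ∧
    (∀ (y : E₂) (r : perp B₂ R), B₂ (e y) r = B₂ y r) ∧
      ∀ p a y, y ∈ (N₂.ch p).L a → (e y : E₂) ∈ (N₂.ch p).L a := by
  obtain ⟨e, he1, he⟩ := exists_proj_perp h.o2.symm (perp B₂ R) (fun y hy h0 => by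
    have := h.oP.nd ⟨y, hy⟩ (fun z => h0 z z.2)
    exact congrArg Subtype.val this)
  exact ⟨e, he1, he, fun p a y hy => proj_level h.o2 h.oP he hy⟩

/-- homomorphisms from `R` to `M` -/
theorem Cut.homRM {f : R →ₗ[F] W} (hf : f ∈ HZ ((N₂.sub R).hom M).lat) :
    ∃ c : k, ∀ (n : perp B A₀) (hn : π n ∈ R), f ⟨π n, hn⟩ = c • φ n := by
  obtain ⟨e, he1, he, -, -⟩ := h.exists_proj
  obtain ⟨c, hc⟩ := h.liftM (hz_comp_proj h.o2 h.oR he hf)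
  refine ⟨c, fun n hn => ?_⟩
  rw [← hc, LinearMap.comp_apply]
  exact congrArg f (he1 ⟨π n, hn⟩).symm

theorem Cut.homRS : NoHom (N₂.sub R) S := by
  intro f hf
  obtain ⟨e, he1, he, -, -⟩ := h.exists_proj
  obtain ⟨c, hc⟩ := h.liftS (hz_comp_proj h.o2 h.oR he hf)
  apply LinearMap.ext
  rintro ⟨y, hy⟩
  obtain ⟨n, hn, rfl⟩ := h.mem_R.1 hy
  have h1 := hc ⟨n, h.le hn⟩
  rw [LinearMap.comp_apply, h.xperp hn, smul_zero] at h1
  have h2 : e (π ⟨n, h.le hn⟩) = ⟨π ⟨n, h.le hn⟩, hy⟩ := he1 ⟨_, hy⟩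
  rw [h2] at h1
  exact h1

theorem Cut.homPM : NoHom (N₂.sub (perp B₂ R)) M := by
  intro f hf
  obtain ⟨e, he1, he, -⟩ := h.exists_proj'
  obtain ⟨c, hc⟩ := h.liftM (hz_comp_proj h.o2 h.oP he hf)
  apply LinearMap.ext
  rintro ⟨y, hy⟩
  obtain ⟨g, rfl⟩ := h.red.surj y
  have h1 := hc g
  rw [LinearMap.comp_apply, h.φA ((h.mem_P g).1 hy), smul_zero] at h1
  have h2 : e (π g) = ⟨π g, hy⟩ := he1 ⟨_, hy⟩
  rw [h2] at h1
  exact h1

theorem Cut.homPS {f : perp B₂ R →ₗ[F] U} (hf : f ∈ HZ ((N₂.sub (perp B₂ R)).hom S).lat) :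
    ∃ c : k, ∀ (g : perp B A₀) (hg : π g ∈ perp B₂ R), f ⟨π g, hg⟩ = c • x g := by
  obtain ⟨e, he1, he, -⟩ := h.exists_proj'
  obtain ⟨c, hc⟩ := h.liftS (hz_comp_proj h.o2 h.oP he hf)
  refine ⟨c, fun n hn => ?_⟩
  rw [← hc, LinearMap.comp_apply]
  exact congrArg f (he1 ⟨π n, hn⟩).symm

/-! ### the chain of `R` -/

/-- the levels of `R` are the images of the levels of `A^⊥` -/
theorem Cut.level_R (hsee : Seen M S S') {p : P} {a : ℤ} {y : E₂} (hy : y ∈ R)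
    (hl : y ∈ (N₂.ch p).L a) : ∃ n : E, ∃ hn : n ∈ perp B A, n ∈ (N.ch p).L a ∧
      π ⟨n, h.le hn⟩ = y := by
  have hE := exists_subQ N h.l3.oN.symm (perp B A)
  have oE := h.l3.orth_perp hsee
  obtain ⟨n₀, hn₀, rfl⟩ := h.mem_R.1 hy
  have h1 : (rad B (perp B A)).mkQ ⟨n₀, hn₀⟩ ∈
      (((N.sub (perp B A)).quo (rad B (perp B A))).ch p).L a := by
    rw [oE.dual]
    rintro b z hz
    obtain ⟨m, hm, rfl⟩ := (hE.lat p b z).1 hz
    rw [hE.form]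
    have h2 : π ⟨m, h.le m.2⟩ ∈ (N₂.ch p).L b := h.red.mem (g := ⟨m, h.le m.2⟩) hm
    have h3 := (h.o2.dual p a _).1 hl b _ h2
    rw [h.red.form] at h3
    exact h3
  obtain ⟨n, hn, hnn⟩ := (hE.lat p a _).1 h1
  refine ⟨n, n.2, hn, ?_⟩
  have h4 : (rad B (perp B A)).mkQ (n - ⟨n₀, hn₀⟩) = 0 := by
    rw [map_sub, hnn, sub_self]
  rw [hE.ker] at h4
  rw [← sub_eq_zero, ← map_sub, h.ker]
  exact h.inf_le ⟨h.ppA.le h4, (n - ⟨n₀, hn₀⟩ : perp B A).2⟩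

/-- every subobject of `R` has a homomorphism to `M` -/
theorem Cut.maxR (hsee : Seen M S S') {G : Submodule F R}
    (hG : NoHom ((N₂.sub R).sub G) M) : G = ⊥ := by
  -- the preimage in `A^⊥`
  let Gt : Submodule F E := ((G.map R.subtype).comap (π ∘ₗ Submodule.inclusion h.le)).map
    (perp B A).subtype
  have hmem : ∀ n, n ∈ Gt ↔ ∃ hn : n ∈ perp B A, ∃ hR : π ⟨n, h.le hn⟩ ∈ R,
      (⟨_, hR⟩ : R) ∈ G := by
    intro n
    constructor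
    · rintro ⟨m, ⟨y, hy, hym⟩, rfl⟩
      have hym' : (y : E₂) = π ⟨m, h.le m.2⟩ := hym
      have hR' : π ⟨m, h.le m.2⟩ ∈ R := by
        rw [← hym']
        exact y.2
      refine ⟨m.2, hR', ?_⟩
      have h5 : (⟨_, hR'⟩ : R) = y := Subtype.ext hym'.symm
      have h6 : (⟨_, hR'⟩ : R) ∈ G := by
        rw [h5]
        exact hy
      exact h6
    · rintro ⟨hn, hR, hG⟩
      exact ⟨⟨n, hn⟩, ⟨⟨_, hR⟩, hG, rfl⟩, rfl⟩
  have hGt : NoHom (N.sub Gt) M := by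
    intro f hf
    -- `f` vanishes on the elements of `A₀`
    have hI : A ⊓ perp B A ≤ Gt := by
      intro n hn
      rw [hmem]
      have h0 : π ⟨n, h.le hn.2⟩ = 0 := (h.ker _).2 (h.inf_le hn)
      refine ⟨hn.2, by rw [h0]; exact Submodule.zero_mem _, ?_⟩
      have : (⟨π ⟨n, h.le hn.2⟩, by rw [h0]; exact Submodule.zero_mem _⟩ : R) = 0 :=
        Subtype.ext h0
      rw [this]
      exact Submodule.zero_mem _
    have hf0 : ∀ (n : Gt), (n : E) ∈ A → f n = 0 := by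
      intro n hn
      obtain ⟨hn2, -⟩ := (hmem n).1 n.2
      have h1 := h.l3.inv_rad.1 (f ∘ₗ Submodule.inclusion hI) (mem_hz_hom.2 fun p b y hy =>
        mem_hz_hom.1 hf p b _ hy)
      exact LinearMap.congr_fun h1 ⟨n, hn, hn2⟩
    -- the map from `Gt` to `G`
    have hc : ∀ n : Gt, ∃ hn : (n : E) ∈ perp B A, ∃ hR : π ⟨n, h.le hn⟩ ∈ R,
      (⟨_, hR⟩ : R) ∈ G := fun n => (hmem n).1 n.2
    let ρ : Gt →ₗ[F] G :=
      { toFun := fun n => ⟨⟨π ⟨n, h.le (hc n).1⟩, (hc n).2.1⟩, (hc n).2.2⟩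
        map_add' := by
          intro n m
          apply Subtype.ext
          apply Subtype.ext
          show π ⟨(n : E) + m, _⟩ = π ⟨n, _⟩ + π ⟨m, _⟩
          rw [← map_add]
          rfl
        map_smul' := by
          intro c n
          apply Subtype.ext
          apply Subtype.ext
          show π ⟨c • (n : E), _⟩ = c • π ⟨n, _⟩
          rw [← map_smul]
          rfl }
    have hρ : ∀ n : Gt, ((ρ n : R) : E₂) = π ⟨n, h.le (hc n).1⟩ := fun n => rfl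
    have hρs : Function.Surjective ρ := by
      rintro ⟨⟨y, hy⟩, hyG⟩
      obtain ⟨n, hn, rfl⟩ := h.mem_R.1 hy
      exact ⟨⟨n, (hmem n).2 ⟨hn, hy, hyG⟩⟩, rfl⟩
    have hρ0 : ∀ n : Gt, ρ n = 0 → f n = 0 := by
      intro n hn
      have h1 : π ⟨n, h.le (hc n).1⟩ = 0 := by rw [← hρ, hn]; rfl
      exact hf0 n (h.leA ((h.ker _).1 h1))
    obtain ⟨s, hs⟩ := ρ.exists_rightInverse_of_surjective (LinearMap.range_eq_top.2 hρs)
    have hfb : ∀ n, (f ∘ₗ s) (ρ n) = f n := by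
      intro n
      have h1 : ρ (s (ρ n) - n) = 0 := by
        rw [map_sub, sub_eq_zero]
        exact LinearMap.congr_fun hs (ρ n)
      have h2 := hρ0 _ h1
      rw [map_sub, sub_eq_zero] at h2
      exact h2
    have h3 : f ∘ₗ s = 0 := by
      refine hG _ (mem_hz_hom.2 fun p b y hy => ?_)
      obtain ⟨⟨y, hyR⟩, hyG⟩ := y
      obtain ⟨n, hn, hnl, hny⟩ := h.level_R hsee hyR hy
      subst hny
      have hnG : n ∈ Gt := (hmem n).2 ⟨hn, hyR, hyG⟩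
      have h4 := hfb ⟨n, hnG⟩
      have h5 : ρ ⟨n, hnG⟩ = ⟨⟨π ⟨n, h.le hn⟩, hyR⟩, hyG⟩ := rfl
      rw [← h5, h4]
      exact mem_hz_hom.1 hf p b ⟨n, hnG⟩ hnl
    apply LinearMap.ext
    intro n
    rw [← hfb, h3]
    rfl
  have hle := h.l3.maxA _ hGt
  rw [eq_bot_iff]
  rintro ⟨y, hyR⟩ hyG
  obtain ⟨n, hn, rfl⟩ := h.mem_R.1 hyR
  have h1 : n ∈ Gt := (hmem n).2 ⟨hn, hyR, hyG⟩
  have h2 : n ∈ A₀ := h.inf_le ⟨hle h1, hn⟩
  rw [Submodule.mem_bot]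
  apply Subtype.ext
  exact (h.ker _).2 h2

/-- `φ φ^* ≠ 0` on `R` -/
theorem Cut.hppR {φE : R →ₗ[F] W} (hφE : ∀ (n : perp B A₀) (hn : π n ∈ R), φE ⟨π n, hn⟩ = φ n) :
    ∃ u v : R, (∀ w, φE w = 0 → rF B₂ R u w = 0) ∧ (∀ w, φE w = 0 → rF B₂ R v w = 0) ∧
      rF B₂ R u v ≠ 0 := by
  obtain ⟨u, v, hu, hv, huv⟩ := h.l3.hφφ
  have key : ∀ u, (∀ w, φ w = 0 → B u w = 0) → u ∈ perp B A := by
    intro u hu
    rw [mem_perp]
    intro w hw
    rw [h.l3.oN.symm]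
    exact hu w (h.φA hw)
  have hu' := key u hu
  have hv' := key v hv
  have hmem : ∀ (u) (hu : u ∈ perp B A), π ⟨u, h.le hu⟩ ∈ R := fun u hu =>
    h.mem_R.2 ⟨u, hu, rfl⟩
  have key2 : ∀ (u) (hu : u ∈ perp B A) (_ : ∀ w, φ w = 0 → B u w = 0) (w : R), φE w = 0 →
      rF B₂ R ⟨_, hmem u hu⟩ w = 0 := by
    rintro u hu h1 ⟨w, hw⟩ hw0
    obtain ⟨n, hn, rfl⟩ := h.mem_R.1 hw
    rw [hφE] at hw0
    show B₂ (π ⟨u, h.le hu⟩) (π ⟨n, h.le hn⟩) = 0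
    rw [h.red.form]
    exact h1 n hw0
  refine ⟨⟨_, hmem u hu'⟩, ⟨_, hmem v hv'⟩, key2 u hu' hu, key2 v hv' hv, ?_⟩
  show B₂ (π ⟨u, h.le hu'⟩) (π ⟨v, h.le hv'⟩) ≠ 0
  rw [h.red.form]
  exact huv

end

end Vale.Agent.P182.H668
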