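import Vale.Agent.P182.H430.Pair2
import Vale.Agent.P182.H430.Compare

/-!
# Lemma Z

Let `A`, `B` be bundles with `Ext¹(A, B) = 0 = Ext¹(B, A)` and let `X`, `Y` be Higgs fields on `A`
and `B`.  On the parts `S`, `T` on which `X` and `Y` are bijective, the operator
`f ↦ c f X - Y f` identifies `Hom (S, T)` with `Hom (S, T)^H` (for a suitable constant `c`).
Hence `χ (S, T) + χ (T, S) = 0`.
-/

namespace Vale.Agent.P182.H668

open LinearMap Submodule Module Vale.Agent.P182 Vale.Agent.P182.H430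

section Lin

variable {F V : Type*} [Field F] [AddCommGroup V] [Module F V] [FiniteDimensional F V]

/-- a generic combination of an endomorphism and an automorphism is injective -/
theorem exists_generic {k : Type*} [Field k] [Infinite k] [Algebra k F] (g q : V →ₗ[F] V)
    (hq : Function.Injective q) :
    ∃ c : k, c ≠ 0 ∧ ∀ v, algebraMap k F c • g v = q v → v = 0 := by
  let e : V ≃ₗ[F] V := LinearEquiv.ofInjectiveEndo q hq
  have he : ∀ v, e v = q v := fun v => rfl
  let h : Module.End F V := e.symm.toLinearMap ∘ₗ g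
  have hfin : Set.Finite {μ : F | h.HasEigenvalue μ} := Module.End.finite_hasEigenvalue h
  have hinj : Set.InjOn (fun c : k => (algebraMap k F c)⁻¹) {c | True} := by
    intro a _ b _ hab
    exact (algebraMap k F).injective (inv_injective hab)
  have hfin2 : Set.Finite ({c : k | h.HasEigenvalue (algebraMap k F c)⁻¹} ∪ {0}) := by
    refine Set.Finite.union ?_ (Set.finite_singleton _)
    exact Set.Finite.preimage (hinj.mono fun _ _ => trivial) hfin
  obtain ⟨c, hc⟩ := hfin2.infinite_compl.nonempty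
  simp only [Set.mem_compl_iff, Set.mem_union, Set.mem_ofPred_eq, Set.mem_singleton_iff,
    not_or] at hc
  refine ⟨c, hc.2, fun v hv => ?_⟩
  by_contra hv0
  apply hc.1
  have hc0 : algebraMap k F c ≠ 0 := by simpa using hc.2
  refine Module.End.hasEigenvalue_of_hasEigenvector (x := v) ⟨?_, hv0⟩
  rw [Module.End.mem_eigenspace_iff]
  show e.symm (g v) = _
  rw [LinearEquiv.symm_apply_eq, map_smul, he, ← hv, smul_smul, inv_mul_cancel₀ hc0, one_smul]

end Lin

section Dop

variable {F E E₂ : Type*} [Field F] [AddCommGroup E] [Module F E] [AddCommGroup E₂] [Module F E₂]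

/-- the operator `f ↦ c f X - Y f` -/
def dop (c : F) (X : E →ₗ[F] E) (Y : E₂ →ₗ[F] E₂) : (E →ₗ[F] E₂) →ₗ[F] (E →ₗ[F] E₂) where
  toFun f := c • (f ∘ₗ X) - Y ∘ₗ f
  map_add' f g := by
    rw [LinearMap.add_comp, LinearMap.comp_add, smul_add]
    abel
  map_smul' a f := by
    rw [LinearMap.smul_comp, LinearMap.comp_smul, RingHom.id_apply, smul_sub, smul_comm]

theorem dop_apply (c : F) (X : E →ₗ[F] E) (Y : E₂ →ₗ[F] E₂) (f : E →ₗ[F] E₂) (x : E) :
    dop c X Y f x = c • f (X x) - Y (f x) := rfl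

/-- composition on the right -/
def rop (E₂ : Type*) [AddCommGroup E₂] [Module F E₂] (X : E →ₗ[F] E) :
    (E →ₗ[F] E₂) →ₗ[F] (E →ₗ[F] E₂) where
  toFun f := f ∘ₗ X
  map_add' f g := by rw [LinearMap.add_comp]
  map_smul' a f := by rw [LinearMap.smul_comp, RingHom.id_apply]

theorem rop_apply (X : E →ₗ[F] E) (f : E →ₗ[F] E₂) (x : E) : rop E₂ X f x = f (X x) := rfl

/-- composition on the left -/
def lop (E : Type*) [AddCommGroup E] [Module F E] (Y : E₂ →ₗ[F] E₂) :
    (E →ₗ[F] E₂) →ₗ[F] (E →ₗ[F] E₂) where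
  toFun f := Y ∘ₗ f
  map_add' f g := by rw [LinearMap.comp_add]
  map_smul' a f := by rw [LinearMap.comp_smul, RingHom.id_apply]

theorem lop_apply (Y : E₂ →ₗ[F] E₂) (f : E →ₗ[F] E₂) (x : E) : lop E Y f x = Y (f x) := rfl

theorem lop_injective {Y : E₂ →ₗ[F] E₂} (hY : Function.Injective Y) :
    Function.Injective (lop E Y) := by
  intro f g h
  apply LinearMap.ext
  intro x
  exact hY (LinearMap.congr_fun h x)

theorem rop_injective {X : E →ₗ[F] E} (hX : Function.Surjective X) :
    Function.Injective (rop E₂ X) := by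
  intro f g h
  apply LinearMap.ext
  intro x
  obtain ⟨x, rfl⟩ := hX x
  exact LinearMap.congr_fun h x

/-- for generic `c`, `dop` is injective -/
theorem exists_generic_dop {k : Type*} [Field k] [Infinite k] [Algebra k F]
    [FiniteDimensional F E] [FiniteDimensional F E₂]
    (X : E →ₗ[F] E) {Y : E₂ →ₗ[F] E₂} (hY : Function.Injective Y) :
    ∃ c : k, c ≠ 0 ∧ Function.Bijective (dop (algebraMap k F c) X Y) := by
  obtain ⟨c, hc, h⟩ := exists_generic (k := k) (rop E₂ X) (lop E Y) (lop_injective hY)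
  have hi : Function.Injective (dop (algebraMap k F c) X Y) := by
    rw [injective_iff_map_eq_zero]
    intro f hf
    apply h
    exact sub_eq_zero.1 hf
  exact ⟨c, hc, hi, (LinearMap.injective_iff_surjective).1 hi⟩

end Dop

section Main

variable {k F P : Type*} [Field k] [Field F] [Algebra k F] {C : Curve k F P}
variable {E : Type*} [AddCommGroup E] [Module F E] [Module k E] [IsScalarTower k F E]
  [FiniteDimensional F E]
variable {E₂ : Type*} [AddCommGroup E₂] [Module F E₂] [Module k E₂] [IsScalarTower k F E₂]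
  [FiniteDimensional F E₂]

/-- a Higgs field on a bundle: a section of `End (A) ⊗ K` which strictly raises the levels at the
marked points -/
abbrev Higgs (κ : P → ℤ) (A : Bun C E) (X : E →ₗ[F] E) : Prop := X ∈ HZ ((A.hom A).tw κ)

theorem Higgs.mem {κ : P → ℤ} {A : Bun C E} {X : E →ₗ[F] E} (h : Higgs κ A X) (p : P) {b : ℤ}
    {x : E} (hx : x ∈ (A.ch p).L b) : X x ∈ (A.ch p).L (b - κ p) := by
  have h1 : X ∈ ((A.hom A).ch p).L (-κ p) := mem_HZ.1 h p
  have h2 := (LChain.mem_hom (A.ch p) (A.ch p)).1 h1 b x hx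
  rwa [← sub_eq_add_neg] at h2

theorem dop_mem {κ : P → ℤ} {A : Bun C E} {B : Bun C E₂} {X : E →ₗ[F] E} {Y : E₂ →ₗ[F] E₂}
    (hX : Higgs κ A X) (hY : Higgs κ B Y) (c : k) (p : P) {f : E →ₗ[F] E₂}
    (hf : f ∈ (A.hom B).lat p) : dop (algebraMap k F c) X Y f ∈ (A.hom B).tw κ p := by
  have h0 : ∀ b x, x ∈ (A.ch p).L b → f x ∈ (B.ch p).L b := (Bun.mem_hom_lat A B p f).1 hf
  show dop (algebraMap k F c) X Y f ∈ ((A.ch p).hom (B.ch p)).L (-κ p)
  rw [LChain.mem_hom]
  intro b x hx
  rw [dop_apply, ← sub_eq_add_neg, algebraMap_smul]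
  exact Submodule.sub_mem _ (Submodule.smul_mem _ c (h0 _ _ (hX.mem p hx)))
    (hY.mem p (h0 b x hx))

omit [FiniteDimensional F E] in
/-- no first cohomology: every principal part comes from a global element -/
theorem exists_of_h1_eq_zero {B : Bun C E} (h : h1 B.lat = 0) (p : P) (x : E) :
    ∃ y : E, (∀ q, q ≠ p → y ∈ B.lat q) ∧ y - x ∈ B.lat p := by
  classical
  have hf := B.finCoh.fin1
  have hs : Subsingleton (HO B.lat) := finrank_zero_iff.1 h
  let u : FS B.lat := fsMk (fun q => if q = p then x else 0) (by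
    refine (Set.finite_singleton p).subset ?_
    intro q hq
    by_contra hqp
    refine hq ?_
    have : q ≠ p := hqp
    simp [this])
  have hu : u ∈ diag B.lat := cls_eq_zero.1 (Subsingleton.elim _ _)
  obtain ⟨y, hy⟩ := hu
  refine ⟨y, fun q hq => ?_, ?_⟩
  · have h1 := hy q
    rw [fsMk_apply, if_neg hq, map_zero] at h1
    exact (Submodule.Quotient.mk_eq_zero _).1 h1.symm
  · have h1 := hy p
    rw [fsMk_apply, if_pos rfl] at h1
    exact (Submodule.Quotient.eq _).1 h1.symm

/-- no first cohomology of the dual: no sections of the twist -/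
theorem eq_zero_of_h1_eq_zero {κ : P → ℤ} (hκ : Dualizing C κ) {A : Bun C E} {B : Bun C E₂}
    (h : h1 (B.hom A).lat = 0) {f : E →ₗ[F] E₂} (hf : f ∈ HZ ((A.hom B).tw κ)) : f = 0 := by
  have h1 := (DPair.hom B A).serre hκ
  have h2 : h0 ((A.hom B).tw κ) = 0 := h1.2.1.trans h
  have h3 := h1.1.fin0
  have hs : Subsingleton (HZ ((A.hom B).tw κ)) := finrank_zero_iff.1 h2
  have h4 : (⟨f, hf⟩ : HZ ((A.hom B).tw κ)) = 0 := Subsingleton.elim _ _
  exact congrArg Subtype.val h4

/-- LEMMA Z, local form.  `S`, `T` are the bijective parts of `X` and `Y`. -/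
theorem lemmaZ_local [Infinite k] {κ : P → ℤ} (hκ : Dualizing C κ) {A : Bun C E} {B : Bun C E₂}
    {X : E →ₗ[F] E} {Y : E₂ →ₗ[F] E₂} (hX : Higgs κ A X) (hY : Higgs κ B Y)
    (hAB : h1 (A.hom B).lat = 0) (hBA : h1 (B.hom A).lat = 0)
    {S : Submodule F E} {T : Submodule F E₂} {n : ℕ} (hS : S = LinearMap.range (X ^ n))
    (hT : T = LinearMap.range (Y ^ n))
    (XS : S →ₗ[F] S) (hXS : ∀ x, (XS x : E) = X x)
    (YT : T →ₗ[F] T) (hYT : ∀ y, (YT y : E₂) = Y y) (hYi : Function.Injective YT) :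
    ∃ c : k, Function.Bijective (dop (algebraMap k F c) XS YT) ∧
      ∀ p (f : S →ₗ[F] T), f ∈ ((A.sub S).hom (B.sub T)).lat p ↔
        dop (algebraMap k F c) XS YT f ∈ ((A.sub S).hom (B.sub T)).tw κ p := by
  obtain ⟨c, hc0, hc⟩ := exists_generic_dop (k := k) X hYi
  set c' : F := algebraMap k F c with hc'
  have hc'0 : c' ≠ 0 := by simpa [hc'] using hc0
  -- restriction to `S`
  have hres : ∀ f : E →ₗ[F] T, dop c' XS YT (f ∘ₗ S.subtype) = dop c' X YT f ∘ₗ S.subtype := by
    intro f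
    apply LinearMap.ext
    intro x
    show c' • f (XS x : E) - YT (f x) = c' • f (X x) - YT (f x)
    rw [hXS]
  have hsurj : Function.Surjective (dop c' XS YT) := by
    intro g
    obtain ⟨g1, hg1⟩ := LinearMap.exists_extend g
    obtain ⟨f, rfl⟩ := hc.2 g1
    exact ⟨f ∘ₗ S.subtype, by rw [hres, hg1]⟩
  have hinj : Function.Injective (dop c' XS YT) := (LinearMap.injective_iff_surjective).2 hsurj
  refine ⟨c, ⟨hinj, hsurj⟩, fun p f => ⟨fun hf => ?_, fun hψ => ?_⟩⟩
  · refine dop_mem (A := A.sub S) (B := B.sub T) ?_ ?_ c p hf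
    · refine mem_HZ.2 fun q => ?_
      intro b x hx
      show (XS x : E) ∈ (A.ch q).L (b + -κ q)
      rw [hXS, ← sub_eq_add_neg]
      exact hX.mem q hx
    · refine mem_HZ.2 fun q => ?_
      intro b x hx
      show (YT x : E₂) ∈ (B.ch q).L (b + -κ q)
      rw [hYT, ← sub_eq_add_neg]
      exact hY.mem q hx
  -- extend the twisted map to `E`
  set ψ := dop c' XS YT f with hψdef
  obtain ⟨ψ1, hψ1, hψ1'⟩ := LChain.hom_sub_surj (A.ch p) ((B.ch p).sub T) S hψ
  obtain ⟨φ1, hφ1⟩ := hc.2 ψ1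
  let φ2 : E →ₗ[F] E₂ := T.subtype ∘ₗ φ1
  obtain ⟨φ, hφq, hφp⟩ := exists_of_h1_eq_zero hAB p φ2
  -- `D φ` is a section of the twist
  have hDφ : dop c' X Y φ = 0 := by
    refine eq_zero_of_h1_eq_zero hκ hBA (mem_HZ.2 fun q => ?_)
    by_cases hq : q = p
    · subst hq
      have h1 : dop c' X Y φ = dop c' X Y (φ - φ2) + dop c' X Y φ2 := by
        rw [← map_add, sub_add_cancel]
      rw [h1]
      refine Submodule.add_mem _ (dop_mem hX hY c q hφp) ?_
      have h2 : dop c' X Y φ2 = T.subtype ∘ₗ ψ1 := by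
        rw [← hφ1]
        apply LinearMap.ext
        intro x
        show c' • (φ1 (X x) : E₂) - Y (φ1 x) = ((c' • φ1 (X x) - YT (φ1 x) : T) : E₂)
        rw [Submodule.coe_sub, Submodule.coe_smul, hYT]
      rw [h2]
      exact (LChain.hom_sub_iff (A.ch q) (B.ch q) T).1 hψ1
    · exact dop_mem hX hY c q (hφq q hq)
  have hcomm : ∀ x, c' • φ (X x) = Y (φ x) := fun x => by
    have := LinearMap.congr_fun hDφ x
    rw [dop_apply, LinearMap.zero_apply] at this
    exact sub_eq_zero.1 this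
  have hcommn : ∀ (m : ℕ) (x : E), c' ^ m • φ ((X ^ m) x) = (Y ^ m) (φ x) := by
    intro m
    induction m with
    | zero => intro x; simp
    | succ m ih =>
      intro x
      rw [pow_succ' X m, pow_succ' Y m, Module.End.mul_apply, Module.End.mul_apply, ← ih, map_smul,
        ← hcomm, smul_smul, pow_succ]
  have hφS : ∀ x : S, φ x ∈ T := by
    rintro ⟨x, hx⟩
    rw [hS] at hx
    obtain ⟨z, rfl⟩ := hx
    have h1 := hcommn n z
    have h2 : φ ((X ^ n) z) = (c' ^ n)⁻¹ • (Y ^ n) (φ z) := by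
      rw [← h1, smul_smul, inv_mul_cancel₀ (pow_ne_zero n hc'0), one_smul]
    show φ ((X ^ n) z) ∈ T
    rw [h2, hT]
    exact Submodule.smul_mem _ _ ⟨_, rfl⟩
  let φS : S →ₗ[F] T := (φ ∘ₗ S.subtype).codRestrict T hφS
  have hφS0 : φS = 0 := by
    apply hinj
    rw [map_zero]
    apply LinearMap.ext
    intro x
    apply Subtype.ext
    show ((c' • φS (XS x) - YT (φS x) : T) : E₂) = 0
    rw [Submodule.coe_sub, Submodule.coe_smul, hYT]
    show c' • φ (XS x : E) - Y (φ x) = 0
    rw [hXS, hcomm, sub_self]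
  have hφx : ∀ x : S, φ x = 0 := fun x => by
    have := LinearMap.congr_fun hφS0 x
    exact congrArg Subtype.val this
  -- `f` is the restriction of `φ1`
  have hff : f = φ1 ∘ₗ S.subtype := by
    apply hinj
    rw [hres, hφ1, hψ1']
  rw [Bun.mem_hom_lat]
  intro b x hx
  have h3 : ∀ b x, x ∈ (A.ch p).L b → (φ - φ2) x ∈ (B.ch p).L b :=
    (Bun.mem_hom_lat A B p (φ - φ2)).1 hφp
  have h4 := h3 b x hx
  rw [LinearMap.sub_apply, hφx x, zero_sub, Submodule.neg_mem_iff] at h4
  rw [hff]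
  exact h4

end Main

end Vale.Agent.P182.H668
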