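import Vale.Agent.P182.H668.Global

/-!
# The symmetrised Euler form and the Lorentz inequality
-/

namespace Vale.Agent.P182.H668

open LinearMap Submodule Module Vale.Agent.P182 Vale.Agent.P182.H430

section Arith

theorem dl_eq {m : ℕ} (hm : 0 < m) (u : ℤ) :
    u / (m : ℤ) - (u - 1) / m = if (m : ℤ) ∣ u then 1 else 0 := by
  have hm' : (0 : ℤ) < m := by exact_mod_cast hm
  split_ifs with h
  · obtain ⟨k, rfl⟩ := h
    have h1 : ((m : ℤ) * k) / m = k := Int.mul_ediv_cancel_left k hm'.ne'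
    have h2 : ((m : ℤ) * k - 1) / m = k - 1 :=
      ((Int.ediv_emod_unique (r := (m : ℤ) - 1) (q := k - 1) hm').2
        ⟨by ring, by linarith, by linarith⟩).1
    rw [h1, h2]
    ring
  · have h1 := Int.emod_add_mul_ediv u m
    have h2 := Int.emod_nonneg u hm'.ne'
    have h3 := Int.emod_lt_of_pos u hm'
    have h4 : u % m ≠ 0 := fun h0 => h (Int.dvd_of_emod_eq_zero h0)
    have h5 : (u - 1) / (m : ℤ) = u / m :=
      ((Int.ediv_emod_unique (r := u % m - 1) (q := u / m) hm').2
        ⟨by linarith, by omega, by omega⟩).1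
    rw [h5, sub_self]

theorem sum_dl {m : ℕ} (hm : 0 < m) (u v : ℤ) :
    ∑ a ∈ Finset.range m, ((if (m : ℤ) ∣ u - a then 1 else 0) * (if (m : ℤ) ∣ v - a then 1 else 0) :
      ℤ) = if (m : ℤ) ∣ v - u then 1 else 0 := by
  have hm' : (0 : ℤ) < m := by exact_mod_cast hm
  have h2 := Int.emod_nonneg u hm'.ne'
  have h3 := Int.emod_lt_of_pos u hm'
  have h1 := Int.emod_add_mul_ediv u m
  obtain ⟨a0, ha0⟩ := Int.eq_ofNat_of_zero_le h2
  have ha1 : a0 < m := by
    have : ((a0 : ℕ) : ℤ) < m := by rw [← ha0]; exact h3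
    exact_mod_cast this
  have hd : (m : ℤ) ∣ u - a0 := ⟨u / m, by rw [ha0] at h1; linarith⟩
  rw [Finset.sum_eq_single a0]
  · rw [if_pos hd, one_mul]
    have : (m : ℤ) ∣ v - a0 ↔ (m : ℤ) ∣ v - u := by
      constructor
      · intro h
        have := dvd_sub h hd
        rwa [sub_sub_sub_cancel_right] at this
      · intro h
        have := dvd_add h hd
        rwa [sub_add_sub_cancel] at this
    simp only [this]
  · intro b hb hb0
    rw [Finset.mem_range] at hb
    rw [if_neg, zero_mul]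
    intro h
    apply hb0
    have h4 := dvd_sub h hd
    rw [sub_sub_sub_cancel_left] at h4
    have h5 : ((a0 : ℤ) - b) = 0 := by
      apply Int.eq_zero_of_abs_lt_dvd h4
      rw [abs_lt]
      constructor
      · have : (b : ℤ) < m := by exact_mod_cast hb
        have : (0 : ℤ) ≤ a0 := Int.natCast_nonneg _
        linarith
      · have : (a0 : ℤ) < m := by exact_mod_cast ha1
        have : (0 : ℤ) ≤ b := Int.natCast_nonneg _
        linarith
    have h6 : (a0 : ℤ) = b := by linarith
    exact_mod_cast h6.symm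
  · intro h
    exact absurd (Finset.mem_range.2 ha1) h

end Arith

section Chains

variable {k F : Type*} [Field k] [Field F] [Algebra k F] {Q : Place k F} {m : ℕ}
variable {E : Type*} [AddCommGroup E] [Module F E] [Module k E] [IsScalarTower k F E]
  [FiniteDimensional F E]
variable {E₂ : Type*} [AddCommGroup E₂] [Module F E₂] [Module k E₂] [IsScalarTower k F E₂]
  [FiniteDimensional F E₂]

omit [FiniteDimensional F E] in
theorem mult_eq' {L : LChain Q m E} {ι : Type*} [Fintype ι] {b : Basis ι F E} {w : ι → ℤ}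
    (h : L.SplitBy b w) (a : ℤ) :
    (mult L a : ℤ) = ∑ i, if (m : ℤ) ∣ w i - a then 1 else 0 := by
  rw [mult_eq h]
  refine Finset.sum_congr rfl fun i _ => ?_
  rw [← dl_eq L.pos, ← sub_sub]

/-- multiplicities of the chain of linear maps -/
theorem mult_hom (L : LChain Q m E) (M : LChain Q m E₂) :
    mult (L.hom M) 0 = ∑ a ∈ Finset.range m, mult L a * mult M a := by
  classical
  obtain ⟨b, w, h⟩ := L.exists_split
  obtain ⟨b₂, w₂, h₂⟩ := M.exists_split
  have e : (mult (L.hom M) 0 : ℤ) = ∑ a ∈ Finset.range m, (mult L a : ℤ) * mult M a := by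
    rw [mult_eq' (LChain.SplitBy.hom h h₂)]
    simp only [mult_eq' h, mult_eq' h₂, Finset.sum_mul_sum]
    rw [Fintype.sum_prod_type, Finset.sum_comm, Finset.sum_comm (s := Finset.range m)]
    refine Finset.sum_congr rfl fun j _ => ?_
    rw [Finset.sum_comm (s := Finset.range m)]
    refine Finset.sum_congr rfl fun i _ => ?_
    rw [sum_dl L.pos, sub_zero]
  exact_mod_cast e

end Chains

section Global

variable {k F P : Type*} [Field k] [Field F] [Algebra k F] {C : Curve k F P}
variable {E : Type*} [AddCommGroup E] [Module F E] [Module k E] [IsScalarTower k F E]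
  [FiniteDimensional F E]
variable {E₂ : Type*} [AddCommGroup E₂] [Module F E₂] [Module k E₂] [IsScalarTower k F E₂]
  [FiniteDimensional F E₂]

/-- THE SYMMETRISED EULER FORM -/
theorem chi_hom_add {κ : P → ℤ} (hκ : Dualizing C κ) (A : Bun C E) (B : Bun C E₂) :
    chi (A.hom B).lat + chi (B.hom A).lat = 2 * (finrank F E * finrank F E₂) +
      ∑ p ∈ hκ.fin.toFinset, ((∑ a ∈ Finset.range (C.per p),
        (mult (A.ch p) a : ℤ) * mult (B.ch p) a) - finrank F E * finrank F E₂) := by
  have h1 := ((DPair.hom B A).serre hκ).2.2.2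
  have h2 := chi_tw hκ (A.hom B)
  have h3 : ∀ p, (mult ((A.hom B).ch p) 0 : ℤ) = ∑ a ∈ Finset.range (C.per p),
      (mult (A.ch p) a : ℤ) * mult (B.ch p) a := by
    intro p
    exact_mod_cast mult_hom (A.ch p) (B.ch p)
  rw [h1, Module.finrank_linearMap] at h2
  simp only [h3] at h2
  push_cast at h2
  have h4 : ∑ p ∈ hκ.fin.toFinset, ((∑ a ∈ Finset.range (C.per p),
        (mult (A.ch p) a : ℤ) * mult (B.ch p) a) - (finrank F E : ℤ) * finrank F E₂) =
      -∑ p ∈ hκ.fin.toFinset, ((finrank F E : ℤ) * finrank F E₂ - ∑ a ∈ Finset.range (C.per p),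
        (mult (A.ch p) a : ℤ) * mult (B.ch p) a) := by
    rw [← Finset.sum_neg_distrib]
    exact Finset.sum_congr rfl fun p _ => by ring
  rw [h4]
  linarith

/-- at an unmarked place the multiplicity is the rank -/
theorem mult_unmarked {κ : P → ℤ} (hκ : Dualizing C κ) (A : Bun C E) {p : P} (hp : κ p = 0)
    (a : ℤ) : mult (A.ch p) a = finrank F E := by
  have h1 := hκ.cong p
  rw [hp, Int.zero_emod] at h1
  have h3 : C.per p = 1 := by omega
  have h4 := sum_mult (A.ch p)
  have h5 : Finset.range (C.per p) = {0} := by rw [h3]; rfl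
  rw [h5, Finset.sum_singleton] at h4
  rw [← h4]
  have h6 := mult_periodic (A.ch p) 0 a
  rw [show (0 : ℤ) + (C.per p : ℤ) * a = a by
    have : (C.per p : ℤ) = 1 := by exact_mod_cast h3
    rw [this]; ring] at h6
  exact h6

/-- LORENTZ.  Two orthogonal classes of non-positive norm are isotropic and proportional. -/
theorem lorentz {κ : P → ℤ} (hκ : Dualizing C κ) (A : Bun C E) (B : Bun C E₂)
    (hE : 0 < finrank F E) (hE₂ : 0 < finrank F E₂) (h1 : chi (A.hom A).lat ≤ 0)
    (h2 : chi (B.hom B).lat ≤ 0) (h3 : 0 ≤ chi (A.hom B).lat + chi (B.hom A).lat) :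
    chi (A.hom A).lat = 0 ∧ chi (B.hom B).lat = 0 ∧
      ∀ p a, finrank F E₂ * mult (A.ch p) a = finrank F E * mult (B.ch p) a := by
  set r : ℤ := ((finrank F E : ℕ) : ℤ) with hr
  set r' : ℤ := ((finrank F E₂ : ℕ) : ℤ) with hr'
  have hr0 : 0 < r := Int.natCast_pos.2 hE
  have hr'0 : 0 < r' := Int.natCast_pos.2 hE₂
  set S := hκ.fin.toFinset with hS
  have e1 := chi_hom_add hκ A A
  have e2 := chi_hom_add hκ A B
  have e3 := chi_hom_add hκ B B
  -- the sum of squares
  have key : ∑ p ∈ S, ∑ a ∈ Finset.range (C.per p),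
      (r' * mult (A.ch p) a - r * mult (B.ch p) a : ℤ) ^ 2 =
      2 * r' ^ 2 * chi (A.hom A).lat + 2 * r ^ 2 * chi (B.hom B).lat -
        2 * (r * r') * (chi (A.hom B).lat + chi (B.hom A).lat) := by
    have s1 : ∀ p, ∑ a ∈ Finset.range (C.per p),
        (r' * mult (A.ch p) a - r * mult (B.ch p) a : ℤ) ^ 2 =
        r' ^ 2 * ((∑ a ∈ Finset.range (C.per p), (mult (A.ch p) a : ℤ) * mult (A.ch p) a) - r * r)
        + r ^ 2 * ((∑ a ∈ Finset.range (C.per p), (mult (B.ch p) a : ℤ) * mult (B.ch p) a)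
          - r' * r')
        - 2 * (r * r') * ((∑ a ∈ Finset.range (C.per p), (mult (A.ch p) a : ℤ) * mult (B.ch p) a)
          - r * r') := by
      intro p
      have s2 : ∑ a ∈ Finset.range (C.per p),
          (r' * mult (A.ch p) a - r * mult (B.ch p) a : ℤ) ^ 2 =
          r' ^ 2 * (∑ a ∈ Finset.range (C.per p), (mult (A.ch p) a : ℤ) * mult (A.ch p) a)
          + r ^ 2 * (∑ a ∈ Finset.range (C.per p), (mult (B.ch p) a : ℤ) * mult (B.ch p) a)
          - 2 * (r * r') * (∑ a ∈ Finset.range (C.per p),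
            (mult (A.ch p) a : ℤ) * mult (B.ch p) a) := by
        rw [Finset.mul_sum, Finset.mul_sum, Finset.mul_sum, ← Finset.sum_add_distrib,
          ← Finset.sum_sub_distrib]
        exact Finset.sum_congr rfl fun a _ => by ring
      rw [s2]
      ring
    simp only [s1]
    rw [Finset.sum_sub_distrib, Finset.sum_add_distrib, ← Finset.mul_sum, ← Finset.mul_sum,
      ← Finset.mul_sum]
    have t1 : ∑ p ∈ S, ((∑ a ∈ Finset.range (C.per p), (mult (A.ch p) a : ℤ) * mult (A.ch p) a)
        - r * r) = 2 * chi (A.hom A).lat - 2 * (r * r) := by linarith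
    have t2 : ∑ p ∈ S, ((∑ a ∈ Finset.range (C.per p), (mult (A.ch p) a : ℤ) * mult (B.ch p) a)
        - r * r') = (chi (A.hom B).lat + chi (B.hom A).lat) - 2 * (r * r') := by linarith
    have t3 : ∑ p ∈ S, ((∑ a ∈ Finset.range (C.per p), (mult (B.ch p) a : ℤ) * mult (B.ch p) a)
        - r' * r') = 2 * chi (B.hom B).lat - 2 * (r' * r') := by linarith
    rw [t1, t2, t3]
    ring
  have hnn : ∀ p ∈ S, 0 ≤ ∑ a ∈ Finset.range (C.per p),
      (r' * mult (A.ch p) a - r * mult (B.ch p) a : ℤ) ^ 2 := fun p _ =>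
    Finset.sum_nonneg fun a _ => sq_nonneg _
  have hsq1 : 0 < r' ^ 2 := by positivity
  have hsq2 : 0 < r ^ 2 := by positivity
  have hrr : 0 < r * r' := mul_pos hr0 hr'0
  have k1 : 2 * r' ^ 2 * chi (A.hom A).lat ≤ 0 := by nlinarith
  have k2 : 2 * r ^ 2 * chi (B.hom B).lat ≤ 0 := by nlinarith
  have k3 : 0 ≤ 2 * (r * r') * (chi (A.hom B).lat + chi (B.hom A).lat) := by positivity
  have k4 := Finset.sum_nonneg hnn
  rw [key] at k4
  have k5 : 2 * r' ^ 2 * chi (A.hom A).lat = 0 := by linarith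
  have k6 : 2 * r ^ 2 * chi (B.hom B).lat = 0 := by linarith
  have k7 : chi (A.hom A).lat = 0 := by
    rcases mul_eq_zero.1 k5 with h | h
    · linarith
    · exact h
  have k8 : chi (B.hom B).lat = 0 := by
    rcases mul_eq_zero.1 k6 with h | h
    · linarith
    · exact h
  have k9 : ∑ p ∈ S, ∑ a ∈ Finset.range (C.per p),
      (r' * mult (A.ch p) a - r * mult (B.ch p) a : ℤ) ^ 2 = 0 := by
    have := Finset.sum_nonneg hnn
    linarith
  refine ⟨k7, k8, fun p a => ?_⟩
  by_cases hp : κ p = 0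
  · rw [mult_unmarked hκ A hp, mult_unmarked hκ B hp, mul_comm]
  · have hpS : p ∈ S := hκ.fin.mem_toFinset.2 hp
    have h5 := (Finset.sum_eq_zero_iff_of_nonneg hnn).1 k9 p hpS
    -- reduce `a` to a period
    have hm : (0 : ℤ) < C.per p := by exact_mod_cast C.per_pos p
    have h6 := Int.emod_nonneg a hm.ne'
    have h7 := Int.emod_lt_of_pos a hm
    obtain ⟨a0, ha0⟩ := Int.eq_ofNat_of_zero_le h6
    have ha1 : a0 < C.per p := by
      have : ((a0 : ℕ) : ℤ) < C.per p := by rw [← ha0]; exact h7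
      exact_mod_cast this
    have h8 := Int.emod_add_mul_ediv a (C.per p)
    rw [ha0] at h8
    have h9 := (Finset.sum_eq_zero_iff_of_nonneg fun a _ => sq_nonneg _).1 h5 a0
      (Finset.mem_range.2 ha1)
    have h10 : (r' * mult (A.ch p) a0 - r * mult (B.ch p) a0 : ℤ) = 0 := by
      exact pow_eq_zero_iff (two_ne_zero) |>.1 h9
    have h11 : mult (A.ch p) a = mult (A.ch p) a0 := by
      rw [← mult_periodic (A.ch p) a0 (a / C.per p), h8]
    have h12 : mult (B.ch p) a = mult (B.ch p) a0 := by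
      rw [← mult_periodic (B.ch p) a0 (a / C.per p), h8]
    rw [h11, h12]
    have h13 : (finrank F E₂ : ℤ) * mult (A.ch p) a0 = finrank F E * mult (B.ch p) a0 := by
      linarith
    exact_mod_cast h13

end Global

end Vale.Agent.P182.H668
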