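import Vale.Agent.P182.H668.Null

/-!
# Multiplicities of levels
-/

namespace Vale.Agent.P182.H668

open LinearMap Submodule Module Vale.Agent.P182 Vale.Agent.P182.H430

section Arith

theorem tele_div {m : ℕ} (hm : 0 < m) (w : ℤ) :
    ∑ a ∈ Finset.range m, ((w - (a : ℤ)) / m - (w - ((a : ℤ) + 1)) / m) = 1 := by
  have h := Finset.sum_range_sub' (fun a : ℕ => (w - (a : ℤ)) / (m : ℤ)) m
  have h1 : ∀ a : ℕ, (w - ((a : ℤ) + 1)) / (m : ℤ) = (w - ((a + 1 : ℕ) : ℤ)) / (m : ℤ) := by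
    intro a; push_cast; rfl
  simp only [h1]
  rw [h]
  have hm' : (m : ℤ) ≠ 0 := by exact_mod_cast hm.ne'
  have h2 : (w - (m : ℤ)) / (m : ℤ) = w / m - 1 := by
    have := Int.add_mul_ediv_right w (-1) hm'
    rw [show w - (m : ℤ) = w + -1 * m by ring, this]
    ring
  rw [h2]
  simp

theorem kappa_div {m : ℕ} (hm : 0 < m) {κ : ℤ} (hκ : κ % m = m - 1) (w : ℤ) :
    (w + κ) / m = κ / m + 1 + (w - 1) / m := by
  have hm' : (m : ℤ) ≠ 0 := by exact_mod_cast hm.ne'
  have h5 := Int.emod_add_mul_ediv κ m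
  rw [hκ] at h5
  have h6 : w + κ = (w - 1) + (κ / m + 1) * m := by linarith
  conv_lhs => rw [h6]
  rw [Int.add_mul_ediv_right _ _ hm']
  ring

end Arith

section Chains

variable {k F : Type*} [Field k] [Field F] [Algebra k F] {Q : Place k F} {m : ℕ}
variable {E : Type*} [AddCommGroup E] [Module F E] [Module k E] [IsScalarTower k F E]
  [FiniteDimensional F E]
variable {E₂ : Type*} [AddCommGroup E₂] [Module F E₂] [Module k E₂] [IsScalarTower k F E₂]
  [FiniteDimensional F E₂]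

/-- the dimension of `L a / L (a + 1)` -/
noncomputable def mult (L : LChain Q m E) (a : ℤ) : ℕ := rdim (L.L (a + 1)) (L.L a)

omit [FiniteDimensional F E] in
theorem mult_eq {L : LChain Q m E} {ι : Type*} [Fintype ι] {b : Basis ι F E} {w : ι → ℤ}
    (h : L.SplitBy b w) (a : ℤ) :
    (mult L a : ℤ) = ∑ i, ((w i - a) / m - (w i - (a + 1)) / m) :=
  (rdim_chain h (by linarith)).2

theorem mult_periodic (L : LChain Q m E) (a z : ℤ) : mult L (a + m * z) = mult L a := by
  obtain ⟨b, w, h⟩ := L.exists_split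
  have hm : (m : ℤ) ≠ 0 := by exact_mod_cast L.pos.ne'
  have h1 : ∀ u : ℤ, (u + m * -z) / (m : ℤ) = u / m - z := by
    intro u
    rw [Int.add_mul_ediv_left _ _ hm]
    ring
  have e : (mult L (a + m * z) : ℤ) = mult L a := by
    rw [mult_eq h, mult_eq h]
    refine Finset.sum_congr rfl fun i _ => ?_
    rw [show w i - (a + m * z) = (w i - a) + m * -z by ring,
      show w i - (a + m * z + 1) = (w i - (a + 1)) + m * -z by ring, h1, h1]
    ring
  exact_mod_cast e

/-- the rank is the sum of the multiplicities over a period -/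
theorem sum_mult (L : LChain Q m E) :
    ∑ a ∈ Finset.range m, mult L a = finrank F E := by
  obtain ⟨b, w, h⟩ := L.exists_split
  have e : (∑ a ∈ Finset.range m, (mult L a : ℤ)) = finrank F E := by
    simp only [mult_eq h]
    rw [Finset.sum_comm]
    simp only [tele_div L.pos]
    simp
  exact_mod_cast e

theorem mult_eq_zero {L : LChain Q m E} {a : ℤ} : mult L a = 0 ↔ L.L a ≤ L.L (a + 1) :=
  ⟨fun h => le_of_rdim_eq_zero (finRel_chain L (by linarith)) h, fun h => (finRel_of_le h).2⟩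

theorem exists_mult_ne (L : LChain Q m E) (hE : 0 < finrank F E) : ∃ a : ℤ, mult L a ≠ 0 := by
  by_contra h
  push Not at h
  have := sum_mult L
  simp only [h, Finset.sum_const_zero] at this
  omega

theorem exists_of_mult_ne {L : LChain Q m E} {a : ℤ} (h : mult L a ≠ 0) :
    ∃ x ∈ L.L a, x ∉ L.L (a + 1) := by
  by_contra h1
  push Not at h1
  exact h (mult_eq_zero.2 h1)

omit [IsScalarTower k F E] [IsScalarTower k F E₂] [FiniteDimensional F E]
  [FiniteDimensional F E₂] in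
theorem splitBy_comap [IsScalarTower k F E] [IsScalarTower k F E₂] {L : LChain Q m E₂}
    {ι : Type*} {b : Basis ι F E₂} {w : ι → ℤ}
    (h : L.SplitBy b w) (e : E ≃ₗ[F] E₂) : (comapChain e L).SplitBy (b.map e.symm) w := by
  intro a x
  rw [mem_comapChain, h]
  simp

omit [FiniteDimensional F E] in
theorem mult_comap (L : LChain Q m E₂) (e : E ≃ₗ[F] E₂) (a : ℤ) :
    mult (comapChain e L) a = mult L a := by
  obtain ⟨b, w, h⟩ := L.exists_split
  have e1 : (mult (comapChain e L) a : ℤ) = mult L a := by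
    rw [mult_eq (splitBy_comap h e), mult_eq h]
  exact_mod_cast e1

omit [IsScalarTower k F E] [FiniteDimensional F E] in
theorem mult_shift (L : LChain Q m E) (n a : ℤ) : mult (L.shift n) a = mult L (a + n) := by
  show rdim (L.L (a + 1 + n)) (L.L (a + n)) = rdim (L.L (a + n + 1)) (L.L (a + n))
  rw [show a + 1 + n = a + n + 1 by ring]

/-- a Higgs field on a chain -/
def HiggsC (κ : ℤ) (L : LChain Q m E) (X : E ≃ₗ[F] E) : Prop :=
  ∀ b, ∀ x ∈ L.L b, X x ∈ L.L (b - κ)

/-- the pulled back chain, shifted -/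
noncomputable def pb (κ : ℤ) (L : LChain Q m E) (X : E ≃ₗ[F] E) : LChain Q m E :=
  (comapChain X L).shift (-κ)

omit [FiniteDimensional F E] in
theorem mem_pb {κ : ℤ} {L : LChain Q m E} {X : E ≃ₗ[F] E} {a : ℤ} {x : E} :
    x ∈ (pb κ L X).L a ↔ X x ∈ L.L (a - κ) := by
  rw [sub_eq_add_neg]; exact Iff.rfl

omit [FiniteDimensional F E] in
theorem HiggsC.le {κ : ℤ} {L : LChain Q m E} {X : E ≃ₗ[F] E} (h : HiggsC κ L X) (a : ℤ) :
    L.L a ≤ (pb κ L X).L a := fun x hx => mem_pb.2 (h a x hx)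

theorem mult_pb {κ : ℤ} (hκ : κ % m = m - 1) (L : LChain Q m E) (X : E ≃ₗ[F] E) (a : ℤ) :
    mult (pb κ L X) a = mult L (a + 1) := by
  unfold pb
  rw [mult_shift, mult_comap]
  have h5 := Int.emod_add_mul_ediv κ m
  rw [hκ] at h5
  have h6 : a + -κ = (a + 1) + m * (-(κ / m) - 1) := by linarith
  rw [h6, mult_periodic]

/-- the colength of the image -/
noncomputable def zl (κ : ℤ) (L : LChain Q m E) (X : E ≃ₗ[F] E) (a : ℤ) : ℕ :=
  rdim (L.L a) ((pb κ L X).L a)

/-- `z + mult` is constant -/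
theorem HiggsC.step {κ : ℤ} (hκ : κ % m = m - 1) {L : LChain Q m E} {X : E ≃ₗ[F] E}
    (h : HiggsC κ L X) (a : ℤ) :
    zl κ L X a + mult L a = zl κ L X (a + 1) + mult L (a + 1) := by
  have h1 := rdim_trans (L.anti a (a + 1) (by linarith)) (h.le a)
    (finRel_chain L (by linarith)) (finRel_chains L (pb κ L X) a a)
  have h2 := rdim_trans (h.le (a + 1)) ((pb κ L X).anti a (a + 1) (by linarith))
    (finRel_chains L (pb κ L X) (a + 1) (a + 1)) (finRel_chain (pb κ L X) (by linarith))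
  have h3 : rdim ((pb κ L X).L (a + 1)) ((pb κ L X).L a) = mult L (a + 1) := mult_pb hκ L X a
  have h4 := h1.2.symm.trans h2.2
  rw [h3] at h4
  unfold zl
  unfold mult at h4 ⊢
  omega

theorem HiggsC.const {κ : ℤ} (hκ : κ % m = m - 1) {L : LChain Q m E} {X : E ≃ₗ[F] E}
    (h : HiggsC κ L X) (a b : ℤ) :
    zl κ L X a + mult L a = zl κ L X b + mult L b := by
  have h1 : ∀ (n : ℕ) (a : ℤ), zl κ L X a + mult L a = zl κ L X (a + n) + mult L (a + n) := by
    intro n
    induction n with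
    | zero => intro a; simp
    | succ n ih =>
      intro a
      rw [h.step hκ a, ih (a + 1)]
      push_cast
      rw [show a + 1 + (n : ℤ) = a + (n + 1) by ring]
  rcases le_total a b with hab | hab
  · obtain ⟨n, hn⟩ := Int.le.dest hab
    rw [← hn]
    exact h1 n a
  · obtain ⟨n, hn⟩ := Int.le.dest hab
    rw [← hn]
    exact (h1 n b).symm

omit [FiniteDimensional F E] in
theorem zl_eq_zero {κ : ℤ} {L : LChain Q m E} {X : E ≃ₗ[F] E} {a : ℤ}
    (h : ∀ x, X x ∈ L.L (a - κ) → x ∈ L.L a) : zl κ L X a = 0 :=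
  (finRel_of_le fun x hx => h x (mem_pb.1 hx)).2

/-- LOCAL STRUCTURE in the equality case -/
theorem local_structure {L : LChain Q m E} {M : LChain Q m E₂} {κ : ℤ} (hκ : κ % m = m - 1)
    {X : E ≃ₗ[F] E} {Y : E₂ ≃ₗ[F] E₂} (hX : HiggsC κ L X) (hY : HiggsC κ M Y)
    (hR : ∀ f : E →ₗ[F] E₂, f ∘ₗ X.toLinearMap ∈ (L.hom M).L (-κ) → f ∈ (L.hom M).L 0)
    (hL : ∀ f : E →ₗ[F] E₂, Y.toLinearMap ∘ₗ f ∈ (L.hom M).L (-κ) → f ∈ (L.hom M).L 0)
    (hE : 0 < finrank F E) (hE₂ : 0 < finrank F E₂) :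
    ∃ c d : ℕ, 0 < c ∧ 0 < d ∧ ∀ a, (mult L a = 0 ∧ mult M a = 0) ∨
      (mult L a = c ∧ mult M a = d ∧ (∀ x, X x ∈ L.L (a - κ) → x ∈ L.L a) ∧
        (∀ y, Y y ∈ M.L (a - κ) → y ∈ M.L a)) := by
  have hx : ∀ a, mult M a ≠ 0 → ∀ x, X x ∈ L.L (a - κ) → x ∈ L.L a := by
    intro a ha x hx
    obtain ⟨g, hg, hg'⟩ := exists_of_mult_ne ha
    exact right_iso hκ X hR hg hg' hx
  have hy : ∀ a, mult L a ≠ 0 → ∀ y, Y y ∈ M.L (a - κ) → y ∈ M.L a := by
    intro a ha y hy
    obtain ⟨g, hg, hg'⟩ := exists_of_mult_ne ha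
    exact left_iso Y.toLinearMap hL hg hg' hy
  -- the constants
  obtain ⟨a0, ha0⟩ := exists_mult_ne L hE
  obtain ⟨b0, hb0⟩ := exists_mult_ne M hE₂
  -- on the support of `M` the multiplicity of `L` is the maximal one
  have h1 : ∀ a, mult M a ≠ 0 → ∀ b, mult L b ≤ mult L a := by
    intro a ha b
    have := hX.const hκ a b
    rw [zl_eq_zero (hx a ha)] at this
    omega
  have h2 : ∀ a, mult L a ≠ 0 → ∀ b, mult M b ≤ mult M a := by
    intro a ha b
    have := hY.const hκ a b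
    rw [zl_eq_zero (hy a ha)] at this
    omega
  refine ⟨mult L b0, mult M a0, ?_, ?_, fun a => ?_⟩
  · have := h1 b0 hb0 a0
    omega
  · have := h2 a0 ha0 b0
    omega
  · by_cases ha : mult M a = 0
    · left
      refine ⟨?_, ha⟩
      by_contra h3
      have := h2 a h3 b0
      omega
    · right
      have h3 : mult L a ≠ 0 := by
        have := h1 a ha a0
        omega
      refine ⟨le_antisymm (h1 b0 hb0 a) (h1 a ha b0), le_antisymm (h2 a0 ha0 a) (h2 a h3 a0),
        hx a ha, hy a h3⟩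

/-- the rank in terms of the number of positions in the support -/
theorem rank_eq {L : LChain Q m E} {c : ℕ} (h : ∀ a, mult L a = 0 ∨ mult L a = c) :
    finrank F E = c * ((Finset.range m).filter fun a : ℕ => mult L a ≠ 0).card := by
  rw [← sum_mult L, ← Finset.sum_filter_ne_zero, Finset.sum_congr rfl (g := fun _ => c),
    Finset.sum_const, smul_eq_mul, mul_comm]
  intro a ha
  rw [Finset.mem_filter] at ha
  exact (h a).resolve_left ha.2

end Chains

end Vale.Agent.P182.H668
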