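import Vale.Agent.P182.H668.LemmaZ

/-!
# Two invertible Higgs fields with `χ (A, B) + χ (B, A) = 0`
-/

namespace Vale.Agent.P182.H668

open LinearMap Submodule Module Vale.Agent.P182 Vale.Agent.P182.H430

section Chains

variable {k F : Type*} [Field k] [Field F] [Algebra k F] {Q : Place k F} {m : ℕ}
variable {E : Type*} [AddCommGroup E] [Module F E] [Module k E] [IsScalarTower k F E]
  [FiniteDimensional F E]
variable {E₂ : Type*} [AddCommGroup E₂] [Module F E₂] [Module k E₂] [IsScalarTower k F E₂]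
  [FiniteDimensional F E₂]

/-- pullback of a chain along an isomorphism -/
def comapChain (e : E ≃ₗ[F] E₂) (C : LChain Q m E₂) : LChain Q m E where
  L a := (C.L a).comap (e.toLinearMap.restrictScalars k)
  pos := C.pos
  anti a b h := Submodule.comap_mono (C.anti a b h)
  smul_iff f hf a x := by
    show e (f • x) ∈ C.L a ↔ e x ∈ C.L _
    rw [map_smul]
    exact C.smul_iff f hf a (e x)
  exhaust x := C.exhaust (e x)
  bdd φ := by
    obtain ⟨c, hc⟩ := C.bdd (φ ∘ₗ e.symm.toLinearMap)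
    refine ⟨c, fun a x hx => ?_⟩
    have := hc a (e x) hx
    simpa using this

omit [FiniteDimensional F E] [FiniteDimensional F E₂] in
theorem mem_comapChain (e : E ≃ₗ[F] E₂) (C : LChain Q m E₂) (a : ℤ) (x : E) :
    x ∈ (comapChain e C).L a ↔ e x ∈ C.L a := Iff.rfl

omit [IsScalarTower k F E₂] [FiniteDimensional F E₂] in
/-- coefficients of a vector of exact level -/
theorem coef_mem (M : LChain Q m E₂) {v a : ℤ} {g : E₂} (hg : g ∉ M.L (v + 1)) {c : F}
    (h : c • g ∈ M.L (v + a)) : c ∈ Q.M m a := by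
  by_cases hc : c = 0
  · rw [hc]; exact Submodule.zero_mem _
  rw [M.smul_iff c hc] at h
  rw [Q.mem_M_of_ne hc]
  by_contra h1
  exact hg (M.anti _ _ (by linarith) h)

/-- functionals detect a level -/
theorem mem_of_dual (L : LChain Q m E) {κ a b : ℤ} (hκ : κ % m = m - 1) (hab : a + b = -κ) {x : E}
    (h : ∀ φ : Dual F E, φ ∈ L.dual.L b → φ x ∈ Q.M m (-κ)) : x ∈ L.L a := by
  obtain ⟨e, w, he⟩ := L.exists_split
  rw [he]
  intro i
  have hm : (0 : ℤ) < m := by exact_mod_cast L.pos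
  -- `s = ⌈(b + w i) / m⌉`
  set s : ℤ := -((-(b + w i)) / m) with hs
  have hs1 : b + w i ≤ m * s := by
    have := Int.mul_ediv_self_le (x := -(b + w i)) (k := (m : ℤ)) hm.ne'
    rw [hs]; linarith
  have hs2 : m * s < b + w i + m := by
    have := Int.lt_mul_ediv_self_add (x := -(b + w i)) (k := (m : ℤ)) hm
    rw [hs]; linarith
  have h1 : Q.unif ^ s • e.coord i ∈ L.dual.L b := by
    rw [LChain.mem_dual]
    intro c y hy
    have h2 := (he c y).1 hy i
    show Q.unif ^ s * e.repr y i ∈ Q.M m (c + b)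
    rw [Q.smul_mem_iff (zpow_ne_zero _ Q.unif_ne), Q.ord_zpow]
    exact Q.M_anti (by linarith) h2
  have h3 := h _ h1
  rw [LinearMap.smul_apply, smul_eq_mul, Q.smul_mem_iff (zpow_ne_zero _ Q.unif_ne), Q.ord_zpow]
    at h3
  by_cases h0 : e.repr x i = 0
  · left; exact h0
  have h4 : -κ - m * s ≤ m * Q.ord (e.repr x i) := (Q.mem_M_of_ne h0).1 h3
  rw [Q.mem_M_of_ne h0]
  have h5 := Int.emod_add_mul_ediv κ m
  rw [hκ] at h5
  set o := Q.ord (e.repr x i)
  set q := κ / (m : ℤ)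
  have h6 : 0 < (m : ℤ) * (o + s + q + 1) := by linarith
  have h7 : 0 < o + s + q + 1 := by
    by_contra h8
    push Not at h8
    have : (m : ℤ) * (o + s + q + 1) ≤ 0 := mul_nonpos_of_nonneg_of_nonpos hm.le h8
    linarith
  have h8 : 0 ≤ (m : ℤ) * (o + s + q) := mul_nonneg hm.le (by omega)
  linarith

/-- a functional dual to a jump -/
theorem exists_dual_jump (L : LChain Q m E) {w : ℤ} {x : E} (hx : x ∈ L.L w)
    (hx' : x ∉ L.L (w + 1)) : ∃ φ : Dual F E, φ ∈ L.dual.L (-w) ∧ φ x = 1 := by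
  obtain ⟨e, v, he⟩ := L.exists_split
  have h1 : ∃ i, e.repr x i ∉ Q.M m (w + 1 - v i) := by
    by_contra h
    push Not at h
    exact hx' ((he _ _).2 h)
  obtain ⟨i, hi⟩ := h1
  have h0 : e.repr x i ≠ 0 := fun h => hi (Or.inl h)
  have h2 := (he w x).1 hx i
  rw [Q.mem_M_of_ne h0] at h2 hi
  push Not at hi
  refine ⟨(e.repr x i)⁻¹ • e.coord i, ?_, ?_⟩
  · rw [LChain.mem_dual]
    intro c y hy
    have h3 := (he c y).1 hy i
    show (e.repr x i)⁻¹ * e.repr y i ∈ Q.M m (c + -w)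
    rw [Q.smul_mem_iff (inv_ne_zero h0), Q.ord_inv h0]
    exact Q.M_anti (by linarith) h3
  · show (e.repr x i)⁻¹ * e.repr x i = 1
    exact inv_mul_cancel₀ h0

/-- `X` is an isomorphism in the positions visible to `M` -/
theorem right_iso {L : LChain Q m E} {M : LChain Q m E₂} {κ : ℤ} (hκ : κ % m = m - 1)
    (X : E ≃ₗ[F] E)
    (hR : ∀ f : E →ₗ[F] E₂, f ∘ₗ X.toLinearMap ∈ (L.hom M).L (-κ) → f ∈ (L.hom M).L 0)
    {v : ℤ} {g : E₂} (hg : g ∈ M.L v) (hg' : g ∉ M.L (v + 1)) {x : E} (hx : X x ∈ L.L (v - κ)) :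
    x ∈ L.L v := by
  refine mem_of_dual L (a := v) (b := -κ - v) hκ (by ring) fun φ hφ => ?_
  let f : E →ₗ[F] E₂ := (φ ∘ₗ X.symm.toLinearMap).smulRight g
  have h1 : f ∘ₗ X.toLinearMap ∈ (L.hom M).L (-κ) := by
    rw [LChain.mem_hom]
    intro b y hy
    have h2 := (L.mem_dual.1 hφ) b y hy
    have h3 : f (X y) = φ y • g := by
      show φ (X.symm (X y)) • g = _
      rw [X.symm_apply_apply]
    rw [LinearMap.comp_apply, LinearEquiv.coe_coe, h3]
    exact M.smul_mem' h2 hg (by linarith)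
  have h4 := hR f h1
  rw [LChain.mem_hom] at h4
  have h5 := h4 _ _ hx
  have h6 : f (X x) = φ x • g := by
    show φ (X.symm (X x)) • g = _
    rw [X.symm_apply_apply]
  rw [h6] at h5
  exact coef_mem M hg' (by rwa [add_zero, sub_eq_add_neg] at h5)

/-- `Y` is an isomorphism in the positions visible to `L` -/
theorem left_iso {L : LChain Q m E} {M : LChain Q m E₂} {κ : ℤ} (Y : E₂ →ₗ[F] E₂)
    (hL : ∀ f : E →ₗ[F] E₂, Y ∘ₗ f ∈ (L.hom M).L (-κ) → f ∈ (L.hom M).L 0)
    {w : ℤ} {x : E} (hx : x ∈ L.L w) (hx' : x ∉ L.L (w + 1)) {y : E₂}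
    (hy : Y y ∈ M.L (w - κ)) : y ∈ M.L w := by
  obtain ⟨φ, hφ, hφx⟩ := exists_dual_jump L hx hx'
  have h1 : Y ∘ₗ (φ.smulRight y) ∈ (L.hom M).L (-κ) := by
    rw [LChain.mem_hom]
    intro b z hz
    have h2 := (L.mem_dual.1 hφ) b z hz
    have h3 : (Y ∘ₗ (φ.smulRight y)) z = φ z • Y y := by
      rw [LinearMap.comp_apply, LinearMap.smulRight_apply, map_smul]
    rw [h3]
    exact M.smul_mem' h2 hy (by linarith)
  have h4 := hL _ h1
  rw [LChain.mem_hom] at h4
  have h5 := h4 _ _ hx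
  rw [LinearMap.smulRight_apply, hφx, one_smul, add_zero] at h5
  exact h5

end Chains

section Global

variable {k F P : Type*} [Field k] [Field F] [Algebra k F] {C : Curve k F P}
variable {E : Type*} [AddCommGroup E] [Module F E] [Module k E] [IsScalarTower k F E]
variable {E₂ : Type*} [AddCommGroup E₂] [Module F E₂] [Module k E₂] [IsScalarTower k F E₂]

/-- pullback of a bundle along an isomorphism -/
def comapBun (e : E ≃ₗ[F] E₂) (B : Bun C E₂) : Bun C E where
  ch p := comapChain e (B.ch p)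
  std := by
    obtain ⟨n, b, hb⟩ := B.std
    refine ⟨n, b.map e.symm, ?_⟩
    filter_upwards [hb] with p hp a x
    rw [mem_comapChain, hp]
    simp

theorem mem_comapBun_lat (e : E ≃ₗ[F] E₂) (B : Bun C E₂) (p : P) (x : E) :
    x ∈ (comapBun e B).lat p ↔ e x ∈ B.lat p := Iff.rfl

/-- an automorphism from a bundle to its twist, with the same Euler characteristic, is an
isomorphism at every place -/
theorem level_of_chi {n : P → ℤ} (hn : {p | n p ≠ 0}.Finite) (B : Bun C E) (D : E ≃ₗ[F] E)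
    (hD : ∀ p, ∀ x ∈ B.lat p, D x ∈ B.tw n p) (hchi : chi (B.tw n) ≤ chi B.lat) (p : P) {x : E}
    (hx : D x ∈ B.tw n p) : x ∈ B.lat p := by
  rw [B.tw_eq n hn] at hchi hx
  let B' : Bun C E := comapBun D (B.twist n hn)
  have h1 : ∀ p, B.lat p ≤ B'.lat p := fun p x hx => by
    rw [mem_comapBun_lat, ← B.tw_eq n hn]
    exact hD p x hx
  have h2 : chi B'.lat = chi (B.twist n hn).lat :=
    (Bun.chi_eq_of_equiv B' (B.twist n hn) D fun p x => Iff.rfl).1
  have h3 := Bun.eq_of_chi_eq B B' h1 (by rw [h2]; exact hchi) p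
  rw [h3]
  exact hx

variable [FiniteDimensional F E] [FiniteDimensional F E₂]

/-- POSITIVITY, equality case: `f ↦ f X` and `f ↦ Y f` are isomorphisms
`Hom (A, B) → Hom (A, B)^H` -/
theorem iso_of_chi {κ : P → ℤ} (hκ : Dualizing C κ) {A : Bun C E} {B : Bun C E₂} {X : E →ₗ[F] E}
    {Y : E₂ →ₗ[F] E₂} (hX : Higgs κ A X) (hY : Higgs κ B Y) (hXi : Function.Injective X)
    (hYi : Function.Injective Y) (h : 0 ≤ chi (A.hom B).lat + chi (B.hom A).lat) (p : P) :
    (∀ f : E →ₗ[F] E₂, f ∘ₗ X ∈ ((A.ch p).hom (B.ch p)).L (-κ p) →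
      f ∈ ((A.ch p).hom (B.ch p)).L 0) ∧
    (∀ f : E →ₗ[F] E₂, Y ∘ₗ f ∈ ((A.ch p).hom (B.ch p)).L (-κ p) →
      f ∈ ((A.ch p).hom (B.ch p)).L 0) := by
  have hchi : chi ((A.hom B).tw κ) ≤ chi (A.hom B).lat := by
    have := ((DPair.hom B A).serre hκ).2.2.2
    rw [this]
    linarith
  have hXs : Function.Surjective X := (LinearMap.injective_iff_surjective).1 hXi
  have hr : Function.Injective (rop E₂ X) := rop_injective hXs
  have hl : Function.Injective (lop E Y) := lop_injective hYi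
  constructor
  · intro f hf
    refine level_of_chi hκ.fin (A.hom B) (LinearEquiv.ofInjectiveEndo _ hr) ?_ hchi p (x := f) hf
    intro q g hg
    show g ∘ₗ X ∈ ((A.ch q).hom (B.ch q)).L (-κ q)
    rw [LChain.mem_hom]
    intro b x hx
    rw [LinearMap.comp_apply, ← sub_eq_add_neg]
    exact (Bun.mem_hom_lat A B q g).1 hg _ _ (hX.mem q hx)
  · intro f hf
    refine level_of_chi hκ.fin (A.hom B) (LinearEquiv.ofInjectiveEndo _ hl) ?_ hchi p (x := f) hf
    intro q g hg
    show Y ∘ₗ g ∈ ((A.ch q).hom (B.ch q)).L (-κ q)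
    rw [LChain.mem_hom]
    intro b x hx
    rw [LinearMap.comp_apply, ← sub_eq_add_neg]
    exact hY.mem q ((Bun.mem_hom_lat A B q g).1 hg _ _ hx)

end Global

end Vale.Agent.P182.H668
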