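import Vale.Agent.P182.H668.Seen

/-!
# Existence of reductions, Euler characteristics, largest subobjects
-/

namespace Vale.Agent.P182.H668

open LinearMap Submodule Module Vale.Agent.P182 Vale.Agent.P182.H430 Vale.Agent.P182.H578

variable {k F P : Type*} [Field k] [Field F] [Algebra k F] {C : Curve k F P}
variable {E : Type*} [AddCommGroup E] [Module F E] [Module k E] [IsScalarTower k F E]
  [FiniteDimensional F E]
variable {E' : Type*} [AddCommGroup E'] [Module F E'] [Module k E'] [IsScalarTower k F E']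
  [FiniteDimensional F E']
variable {W : Type*} [AddCommGroup W] [Module F W] [Module k W] [IsScalarTower k F W]
  [FiniteDimensional F W]
variable {U : Type*} [AddCommGroup U] [Module F U] [Module k U] [IsScalarTower k F U]
  [FiniteDimensional F U]

/-! ### transport -/

theorem hom_congr {A : Bun C E} {A' : Bun C E'} (e : E ≃ₗ[F] E')
    (he : ∀ p a x, x ∈ (A.ch p).L a ↔ e x ∈ (A'.ch p).L a) (S : Bun C U) :
    chi (A.hom S).lat = chi (A'.hom S).lat ∧ h0 (A.hom S).lat = h0 (A'.hom S).lat ∧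
      h1 (A.hom S).lat = h1 (A'.hom S).lat := by
  refine (A.hom S).chi_eq_of_equiv (A'.hom S) (e.arrowCongr (LinearEquiv.refl F U)) ?_
  intro p f
  rw [Bun.mem_hom_lat, Bun.mem_hom_lat]
  constructor
  · intro h b x hx
    show f (e.symm x) ∈ _
    refine h b _ ?_
    rwa [he, LinearEquiv.apply_symm_apply]
  · intro h b x hx
    have h1 : f (e.symm (e x)) ∈ (S.ch p).L b := h b (e x) ((he p b x).1 hx)
    rwa [LinearEquiv.symm_apply_apply] at h1

theorem NoHom.congr {A : Bun C E} {A' : Bun C E'} (e : E ≃ₗ[F] E')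
    (he : ∀ p a x, x ∈ (A.ch p).L a ↔ e x ∈ (A'.ch p).L a) {S : Bun C U} (h : NoHom A S) :
    NoHom A' S := by
  intro f hf
  have h1 : f ∘ₗ e.toLinearMap = 0 := by
    refine h _ (mem_hz_hom.2 fun p b x hx => ?_)
    exact mem_hz_hom.1 hf p b (e x) ((he p b x).1 hx)
  apply LinearMap.ext
  intro x
  have := LinearMap.congr_fun h1 (e.symm x)
  simpa using this

/-- a quotient presented by a surjection -/
theorem chi_surj {A : Bun C E} {A' : Bun C E'} (π : E →ₗ[F] E') (hπ : Function.Surjective π)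
    (hl : ∀ p a y, y ∈ (A'.ch p).L a ↔ ∃ x, x ∈ (A.ch p).L a ∧ π x = y) (S : Bun C U) :
    chi (A.hom S).lat = chi (A'.hom S).lat + chi ((A.sub (LinearMap.ker π)).hom S).lat := by
  rw [chi_hom_left A S (LinearMap.ker π)]
  congr 1
  refine (hom_congr (A := A.quo (LinearMap.ker π)) (A' := A')
    (π.quotKerEquivOfSurjective hπ) ?_ S).1
  intro p a x
  obtain ⟨x, rfl⟩ := (LinearMap.ker π).mkQ_surjective x
  rw [show (π.quotKerEquivOfSurjective hπ) ((LinearMap.ker π).mkQ x) = π x from rfl, hl]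
  constructor
  · rintro ⟨y, hy, hyx⟩
    refine ⟨y, hy, ?_⟩
    have h1 : (LinearMap.ker π).mkQ y = (LinearMap.ker π).mkQ x := hyx
    have h2 : y - x ∈ LinearMap.ker π := (Submodule.Quotient.eq _).1 h1
    rw [LinearMap.mem_ker, map_sub, sub_eq_zero] at h2
    exact h2
  · rintro ⟨y, hy, hyx⟩
    refine ⟨y, hy, ?_⟩
    show (LinearMap.ker π).mkQ y = (LinearMap.ker π).mkQ x
    refine (Submodule.Quotient.eq _).2 ?_
    rw [LinearMap.mem_ker, map_sub, sub_eq_zero]
    exact hyx

omit [FiniteDimensional F E] in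
/-- nested subspaces -/
theorem sub_sub_congr (N : Bun C E) (G : Submodule F E) (K : Submodule F G) (p : P) (a : ℤ)
    (x : K) : x ∈ (((N.sub G).sub K).ch p).L a ↔
      (Submodule.equivMapOfInjective G.subtype G.injective_subtype K x) ∈
        ((N.sub (K.map G.subtype)).ch p).L a := Iff.rfl

theorem NoHom.of_surj {A : Bun C E} {A' : Bun C E'} {π : E →ₗ[F] E'} (hπ : Function.Surjective π)
    (hl : ∀ p a x, x ∈ (A.ch p).L a → π x ∈ (A'.ch p).L a) {S : Bun C U} (h : NoHom A S) :
    NoHom A' S := by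
  intro f hf
  have h1 : f ∘ₗ π = 0 := h _ (mem_hz_hom.2 fun p b x hx =>
    mem_hz_hom.1 hf p b (π x) (hl p b x hx))
  apply LinearMap.ext
  intro x
  obtain ⟨x, rfl⟩ := hπ x
  exact LinearMap.congr_fun h1 x

/-! ### reductions -/

section SubQ

variable {N : Bun C E} {B : LinearMap.BilinForm F E} {G : Submodule F E} {N' : Bun C E'}
  {B' : LinearMap.BilinForm F E'} {π : G →ₗ[F] E'}

omit [IsScalarTower k F E] [FiniteDimensional F E] [IsScalarTower k F E']
  [FiniteDimensional F E'] in
theorem SubQ.map_ker (h : SubQ N B G N' B' π) :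
    (LinearMap.ker π).map G.subtype = G ⊓ perp B G := by
  ext x
  constructor
  · rintro ⟨y, hy, rfl⟩
    exact ⟨y.2, (h.ker y).1 hy⟩
  · rintro ⟨h1, h2⟩
    exact ⟨⟨x, h1⟩, (h.ker ⟨x, h1⟩).2 h2, rfl⟩

theorem sub_chi_congr {N : Bun C E} {G G' : Submodule F E} (h : G = G') (S : Bun C U) :
    chi ((N.sub G).hom S).lat = chi ((N.sub G').hom S).lat := by
  subst h
  rfl

theorem SubQ.chi_eq (h : SubQ N B G N' B' π) (S : Bun C U) :
    chi (N'.hom S).lat = chi ((N.sub G).hom S).lat -
      chi ((N.sub (G ⊓ perp B G)).hom S).lat := by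
  have h1 := chi_surj (A := N.sub G) (A' := N') π h.surj (fun p a y => by
    rw [h.lat]; rfl) S
  have h2 := (hom_congr (A := (N.sub G).sub (LinearMap.ker π))
    (A' := N.sub ((LinearMap.ker π).map G.subtype)) _
    (fun p a x => sub_sub_congr N G (LinearMap.ker π) p a x) S).1
  have h3 := sub_chi_congr (N := N) h.map_ker S
  rw [h2, h3] at h1
  linarith

theorem SubQ.noHom (h : SubQ N B G N' B' π) {S : Bun C U} (hS : NoHom (N.sub G) S) :
    NoHom N' S :=
  NoHom.of_surj (A := N.sub G) h.surj (fun _ _ _ hx => h.mem hx) hS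

/-- the kernel of the form -/
def rad (B : LinearMap.BilinForm F E) (G : Submodule F E) : Submodule F G :=
  (perp B G).comap G.subtype

/-- the form on the reduction -/
noncomputable def redF (B : LinearMap.BilinForm F E) (hB : ∀ x y, B x y = B y x)
    (G : Submodule F E) : LinearMap.BilinForm F (G ⧸ rad B G) :=
  (rad B G).liftQ ((rad B G).liftQ (B.domRestrict₁₂ G G).flip (by
    intro x hx
    rw [LinearMap.mem_ker]
    apply LinearMap.ext
    intro y
    exact (mem_perp.1 hx y y.2))).flip (by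
    intro x hx
    rw [LinearMap.mem_ker]
    apply LinearMap.ext
    intro y
    obtain ⟨y, rfl⟩ := (rad B G).mkQ_surjective y
    show B x y = 0
    rw [hB]
    exact (mem_perp.1 hx y y.2))

omit [Module k E] [IsScalarTower k F E] [FiniteDimensional F E] in
theorem redF_apply (hB : ∀ x y, B x y = B y x) (u v : G) :
    redF B hB G ((rad B G).mkQ u) ((rad B G).mkQ v) = B u v := rfl

omit [FiniteDimensional F E] in
theorem exists_subQ (N : Bun C E) (hB : ∀ x y, B x y = B y x) (G : Submodule F E) :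
    SubQ N B G ((N.sub G).quo (rad B G)) (redF B hB G) (rad B G).mkQ where
  surj := Submodule.mkQ_surjective _
  ker g := by
    rw [Submodule.mkQ_apply, Submodule.Quotient.mk_eq_zero]
    rfl
  lat p a y := Iff.rfl
  form u v := redF_apply hB u v

end SubQ

/-! ### largest subobjects -/

theorem NoHom.sup {N : Bun C E} {M : Bun C W} {G G' : Submodule F E} (h : NoHom (N.sub G) M)
    (h' : NoHom (N.sub G') M) : NoHom (N.sub (G ⊔ G')) M := by
  intro f hf
  have key : ∀ (H : Submodule F E) (hH : H ≤ G ⊔ G'), NoHom (N.sub H) M →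
      ∀ x : H, f ⟨x, hH x.2⟩ = 0 := by
    intro H hH h x
    have h1 := h (f ∘ₗ Submodule.inclusion hH) (mem_hz_hom.2 fun p b y hy =>
      mem_hz_hom.1 hf p b _ hy)
    exact LinearMap.congr_fun h1 x
  apply LinearMap.ext
  rintro ⟨x, hx⟩
  obtain ⟨y, hy, z, hz, rfl⟩ := Submodule.mem_sup.1 hx
  have e1 := key G le_sup_left h ⟨y, hy⟩
  have e2 := key G' le_sup_right h' ⟨z, hz⟩
  have e3 : (⟨y + z, hx⟩ : ↥(G ⊔ G')) = ⟨y, le_sup_left (a := G) hy⟩ +
      ⟨z, le_sup_right (a := G) hz⟩ := rfl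
  rw [e3, map_add, e1, e2, add_zero]
  rfl

theorem noHom_bot (N : Bun C E) (M : Bun C W) : NoHom (N.sub ⊥) M := by
  intro f _
  apply LinearMap.ext
  intro x
  rw [Subsingleton.elim x 0, map_zero, map_zero]

omit [Module k E] [IsScalarTower k F E] in
/-- a property of subspaces stable under sums has a largest member -/
theorem exists_greatest (Q : Submodule F E → Prop) (h0 : Q ⊥)
    (hs : ∀ G G', Q G → Q G' → Q (G ⊔ G')) : ∃ A, Q A ∧ ∀ G, Q G → G ≤ A := by
  have hb : ∀ G : Submodule F E, finrank F G ≤ finrank F E := fun G => Submodule.finrank_le G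
  obtain ⟨A, hA, hmax⟩ : ∃ A, Q A ∧ ∀ G, Q G → finrank F G ≤ finrank F A := by
    by_contra hcon
    push Not at hcon
    have : ∀ n : ℕ, ∃ G, Q G ∧ n ≤ finrank F G := by
      intro n
      induction n with
      | zero => exact ⟨⊥, h0, Nat.zero_le _⟩
      | succ n ih =>
        obtain ⟨G, hG, hn⟩ := ih
        obtain ⟨G', hG', hlt⟩ := hcon G hG
        exact ⟨G', hG', by omega⟩
    obtain ⟨G, -, hG⟩ := this (finrank F E + 1)
    have := hb G
    omega
  refine ⟨A, hA, fun G hG => ?_⟩
  have h1 := hmax _ (hs A G hA hG)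
  have h2 : A ⊔ G = A := by
    refine (Submodule.eq_of_le_of_finrank_le le_sup_left ?_).symm
    exact h1
  rw [← h2]
  exact le_sup_right

end Vale.Agent.P182.H668
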