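import Vale.Agent.P182.H668.DualV
import Vale.Agent.P182.H668.Null

/-!
# Levels which are seen, and reductions of subspaces
-/

namespace Vale.Agent.P182.H668

open LinearMap Submodule Module Vale.Agent.P182 Vale.Agent.P182.H430 Vale.Agent.P182.H578

variable {k F P : Type*} [Field k] [Field F] [Algebra k F] {C : Curve k F P}
variable {E : Type*} [AddCommGroup E] [Module F E] [Module k E] [IsScalarTower k F E]
  [FiniteDimensional F E]
variable {E' : Type*} [AddCommGroup E'] [Module F E'] [Module k E'] [IsScalarTower k F E']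
  [FiniteDimensional F E']
variable {W : Type*} [AddCommGroup W] [Module F W] [Module k W] [IsScalarTower k F W]
  [FiniteDimensional F W]
variable {U : Type*} [AddCommGroup U] [Module F U] [Module k U] [IsScalarTower k F U]
  [FiniteDimensional F U]

/-- the step `a` of the chain of `W` at `p` is a jump -/
def Jump (W' : Bun C W) (p : P) (a : ℤ) : Prop := ∃ w ∈ (W'.ch p).L a, w ∉ (W'.ch p).L (a + 1)

/-- a level seen by `W` is determined by the homomorphisms to `W` -/
theorem seen_local {A A' : Bun C E} {M : Bun C W} {p : P} {a : ℤ}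
    (hj : Jump M p (a + ((C.per p : ℤ) - 1)))
    (h : (A.hom M).lat p ≤ (A'.hom M).lat p) : (A'.ch p).L a ≤ (A.ch p).L a := by
  intro x hx
  obtain ⟨w, hw1, hw2⟩ := hj
  have hp : (0 : ℤ) < C.per p := by exact_mod_cast C.per_pos p
  set κ : ℤ := (C.per p : ℤ) - 1 with hκ
  have hκ' : κ % (C.per p : ℤ) = C.per p - 1 := Int.emod_eq_of_lt (by omega) (by omega)
  refine mem_of_dual (A.ch p) (κ := κ) (b := -a - κ) hκ' (by ring) fun ξ hξ => ?_
  rw [LChain.mem_dual] at hξ
  let f : E →ₗ[F] W := ξ.smulRight w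
  have hf : f ∈ (A.hom M).lat p := by
    rw [Bun.mem_hom_lat]
    intro b y hy
    exact LChain.smul_mem' _ (hξ b y hy) hw1 (by linarith)
  have h2 := (Bun.mem_hom_lat A' M p f).1 (h hf) a x hx
  have h3 : ξ x • w ∈ (M.ch p).L ((a + κ) + (-κ)) := by
    rw [add_neg_cancel_right]
    exact h2
  exact coef_mem (M.ch p) hw2 h3

/-- comparison of two chains seen by one bundle -/
theorem seen_eq {A A' : Bun C E} {M : Bun C W} (hle : ∀ p a, (A.ch p).L a ≤ (A'.ch p).L a)
    (hc : chi (A.hom M).lat ≤ chi (A'.hom M).lat) {p : P} {a : ℤ}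
    (hj : Jump M p (a + ((C.per p : ℤ) - 1))) : (A'.ch p).L a ≤ (A.ch p).L a := by
  refine seen_local hj ?_
  have h1 : ∀ p, (A'.hom M).lat p ≤ (A.hom M).lat p := by
    intro q f hf
    rw [Bun.mem_hom_lat] at hf ⊢
    exact fun b x hx => hf b x (hle q b hx)
  exact (Bun.eq_of_chi_eq (A'.hom M) (A.hom M) h1 hc p).ge

theorem chi_anti {A A' : Bun C E} (M : Bun C W) (hle : ∀ p a, (A.ch p).L a ≤ (A'.ch p).L a) :
    chi (A'.hom M).lat ≤ chi (A.hom M).lat := by
  refine Bun.chi_le (A'.hom M) (A.hom M) fun q f hf => ?_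
  rw [Bun.mem_hom_lat] at hf ⊢
  exact fun b x hx => hf b x (hle q b hx)

/-- all levels are seen by `M`, `S` or `S'` -/
def Seen {U' : Type*} [AddCommGroup U'] [Module F U'] [Module k U'] (M : Bun C W) (S : Bun C U)
    (S' : Bun C U') : Prop := ∀ p a, Jump M p a ∨ Jump S p a ∨ Jump S' p a

/-! ### reductions -/

/-- `N'` is the reduction `G / G ∩ G^⊥` of the subspace `G` -/
structure SubQ (N : Bun C E) (B : LinearMap.BilinForm F E) (G : Submodule F E) (N' : Bun C E')
    (B' : LinearMap.BilinForm F E') (π : G →ₗ[F] E') : Prop where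
  surj : Function.Surjective π
  ker : ∀ g : G, π g = 0 ↔ (g : E) ∈ perp B G
  lat : ∀ p a y, y ∈ (N'.ch p).L a ↔ ∃ g : G, (g : E) ∈ (N.ch p).L a ∧ π g = y
  form : ∀ u v : G, B' (π u) (π v) = B u v

section SubQ

variable {N : Bun C E} {B : LinearMap.BilinForm F E} {G : Submodule F E} {N' : Bun C E'}
  {B' : LinearMap.BilinForm F E'} {π : G →ₗ[F] E'}

omit [IsScalarTower k F E] [FiniteDimensional F E] [IsScalarTower k F E']
  [FiniteDimensional F E'] in
theorem SubQ.symm (h : SubQ N B G N' B' π) (hB : ∀ x y, B x y = B y x) (x y : E') :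
    B' x y = B' y x := by
  obtain ⟨u, rfl⟩ := h.surj x
  obtain ⟨v, rfl⟩ := h.surj y
  rw [h.form, h.form, hB]

omit [IsScalarTower k F E] [FiniteDimensional F E] [IsScalarTower k F E']
  [FiniteDimensional F E'] in
theorem SubQ.nd (h : SubQ N B G N' B' π) (hB : ∀ x y, B x y = B y x) (x : E')
    (hx : ∀ y, B' x y = 0) : x = 0 := by
  obtain ⟨u, rfl⟩ := h.surj x
  rw [h.ker, mem_perp]
  intro v hv
  have := hx (π ⟨v, hv⟩)
  rw [h.form] at this
  rw [hB]
  exact this

omit [IsScalarTower k F E] [FiniteDimensional F E] [IsScalarTower k F E']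
  [FiniteDimensional F E'] in
theorem SubQ.mem (h : SubQ N B G N' B' π) {p : P} {a : ℤ} {g : G} (hg : (g : E) ∈ (N.ch p).L a) :
    π g ∈ (N'.ch p).L a := (h.lat p a _).2 ⟨g, hg, rfl⟩

omit [IsScalarTower k F E] [FiniteDimensional F E] [IsScalarTower k F E']
  [FiniteDimensional F E'] in
theorem SubQ.form_mem (h : SubQ N B G N' B' π) (hs : Orth N B) {p : P} {a b : ℤ} {x y : E'}
    (hx : x ∈ (N'.ch p).L a) (hy : y ∈ (N'.ch p).L b) :
    B' x y ∈ (C.pl p).M (C.per p) (a + b) := by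
  obtain ⟨u, hu, rfl⟩ := (h.lat p a x).1 hx
  obtain ⟨v, hv, rfl⟩ := (h.lat p b y).1 hy
  rw [h.form]
  exact (hs.dual p a u).1 hu b v hv

/-- the identification with the dual -/
noncomputable def SubQ.eqv (h : SubQ N B G N' B' π) (hB : ∀ x y, B x y = B y x) :
    E' ≃ₗ[F] Dual F E' :=
  LinearEquiv.ofBijective B'.flip (flip_bij (h.symm hB) (h.nd hB))

omit [IsScalarTower k F E] [FiniteDimensional F E] [IsScalarTower k F E'] in
theorem SubQ.eqv_apply (h : SubQ N B G N' B' π) (hB : ∀ x y, B x y = B y x) (x y : E') :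
    h.eqv hB x y = B' y x := rfl

/-- the dual chain, on the same space -/
noncomputable def SubQ.dl (h : SubQ N B G N' B' π) (hB : ∀ x y, B x y = B y x) : Bun C E' :=
  comapBun (h.eqv hB) N'.dual

theorem SubQ.mem_dl (h : SubQ N B G N' B' π) (hB : ∀ x y, B x y = B y x) {p : P} {a : ℤ} {x : E'} :
    x ∈ ((h.dl hB).ch p).L a ↔
      ∀ b y, y ∈ (N'.ch p).L b → B' x y ∈ (C.pl p).M (C.per p) (a + b) := by
  show h.eqv hB x ∈ ((N'.ch p).dual).L a ↔ _
  rw [LChain.mem_dual]
  refine forall_congr' fun b => forall_congr' fun y => imp_congr_right fun _ => ?_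
  rw [h.eqv_apply, h.symm hB y x, add_comm b a]

theorem SubQ.dl_pair (h : SubQ N B G N' B' π) (hB : ∀ x y, B x y = B y x) :
    DPair (h.dl hB) N' B' := by
  refine ⟨flip_bij (h.symm hB) (h.nd hB), ?_⟩
  intro p c y
  constructor
  · intro hy a x hx
    exact ((h.mem_dl hB).1 hx) c y hy
  · intro hy
    rw [LChain.mem_iff_dual (N'.ch p)]
    intro b ξ hξ
    obtain ⟨x, rfl⟩ := (h.eqv hB).surjective ξ
    rw [h.eqv_apply, h.symm hB y x, add_comm c b]
    exact hy b x hξ

theorem SubQ.le_dl (h : SubQ N B G N' B' π) (hs : Orth N B) (p : P) (a : ℤ) :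
    (N'.ch p).L a ≤ ((h.dl hs.symm).ch p).L a := by
  intro x hx
  rw [h.mem_dl]
  exact fun b y hy => h.form_mem hs hx hy

theorem SubQ.chi_dl {κ : P → ℤ} (hκ : Dualizing C κ) (h : SubQ N B G N' B' π)
    (hB : ∀ x y, B x y = B y x) {S : Bun C U} {U' : Type*} [AddCommGroup U'] [Module F U']
    [Module k U'] [IsScalarTower k F U'] [FiniteDimensional F U'] {S' : Bun C U'}
    {q : U →ₗ[F] U' →ₗ[F] F} (hq : DPairV κ S S' q) :
    chi (N'.hom S').lat = -chi ((h.dl hB).hom S).lat :=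
  (serreV hκ (h.dl_pair hB) hq).2.2

variable {M : Bun C W} {qM : LinearMap.BilinForm F W} {κ : P → ℤ}
variable {U' : Type*} [AddCommGroup U'] [Module F U'] [Module k U'] [IsScalarTower k F U']
  [FiniteDimensional F U'] {S : Bun C U} {S' : Bun C U'} {q : U →ₗ[F] U' →ₗ[F] F}

/-- positivity for a self-dual bundle -/
theorem SubQ.chi_nonneg (hκ : Dualizing C κ) (h : SubQ N B G N' B' π) (hs : Orth N B)
    (hM : OrthV κ M qM) : 0 ≤ chi (N'.hom M).lat := by
  have h1 := h.chi_dl hκ hs.symm hM.pair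
  have h2 := chi_anti M (h.le_dl hs)
  linarith

/-- positivity for a pair -/
theorem SubQ.chi_nonneg' (hκ : Dualizing C κ) (h : SubQ N B G N' B' π) (hs : Orth N B)
    (hq : DPairV κ S S' q) : 0 ≤ chi (N'.hom S).lat + chi (N'.hom S').lat := by
  have h1 := h.chi_dl hκ hs.symm hq
  have h2 := chi_anti S (h.le_dl hs)
  linarith

/-- **the reduction is orthogonal** if the Euler characteristics vanish and all levels are seen -/
theorem SubQ.orth (hκ : Dualizing C κ) (h : SubQ N B G N' B' π) (hs : Orth N B)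
    (hM : OrthV κ M qM) (hq : DPairV κ S S' q) (hsee : Seen M S S')
    (c1 : chi (N'.hom M).lat ≤ 0) (c2 : chi (N'.hom S).lat + chi (N'.hom S').lat ≤ 0) :
    Orth N' B' := by
  have d1 := h.chi_dl hκ hs.symm hM.pair
  have d2 := h.chi_dl hκ hs.symm hq
  have hq' : DPairV κ S' S q.flip := hq.symm
  have d3 := h.chi_dl hκ hs.symm hq'
  refine ⟨?_, h.symm hs.symm, h.nd hs.symm⟩
  intro p a x
  refine ⟨fun hx b y hy => h.form_mem hs hx hy, fun hx => ?_⟩
  have hx' : x ∈ ((h.dl hs.symm).ch p).L a := (h.mem_dl hs.symm).2 hx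
  rcases hsee p (a + ((C.per p : ℤ) - 1)) with hj | hj | hj
  · exact seen_eq (h.le_dl hs) (by linarith) hj hx'
  · exact seen_eq (h.le_dl hs) (by linarith) hj hx'
  · exact seen_eq (h.le_dl hs) (by linarith) hj hx'

end SubQ

end Vale.Agent.P182.H668
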