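import Vale.Agent.P182.H668.Split1

/-!
# The input of the endgame, and the largest invisible subobject
-/

namespace Vale.Agent.P182.H668

open LinearMap Submodule Module Vale.Agent.P182 Vale.Agent.P182.H430 Vale.Agent.P182.H578

variable {k F P : Type*} [Field k] [Field F] [Algebra k F] {C : Curve k F P}
variable {E : Type*} [AddCommGroup E] [Module F E] [Module k E] [IsScalarTower k F E]
  [FiniteDimensional F E]
variable {E' : Type*} [AddCommGroup E'] [Module F E'] [Module k E'] [IsScalarTower k F E']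
  [FiniteDimensional F E']
variable {W : Type*} [AddCommGroup W] [Module F W] [Module k W] [IsScalarTower k F W]
  [FiniteDimensional F W]
variable {U : Type*} [AddCommGroup U] [Module F U] [Module k U] [IsScalarTower k F U]
  [FiniteDimensional F U]
variable {U' : Type*} [AddCommGroup U'] [Module F U'] [Module k U'] [IsScalarTower k F U']
  [FiniteDimensional F U']

/-- skew forms on `S` with values in the dualizing sheaf -/
structure IsLam (κ : P → ℤ) (S : Bun C U) (c : LinearMap.BilinForm F U) : Prop where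
  skew : ∀ s t, c s t = - c t s
  level : ∀ p a b s t, s ∈ (S.ch p).L a → t ∈ (S.ch p).L b →
    c s t ∈ (C.pl p).M (C.per p) (a + b - κ p)

/-- the input of the endgame -/
structure L3In (κ : P → ℤ) (N : Bun C E) (B : LinearMap.BilinForm F E) (M : Bun C W)
    (qM : LinearMap.BilinForm F W) (S : Bun C U) (S' : Bun C U') (qS : U →ₗ[F] U' →ₗ[F] F)
    (x : E →ₗ[F] U) (φ : E →ₗ[F] W) (A : Submodule F E) : Prop where
  hκ : Dualizing C κ
  oN : Orth N B
  oM : OrthV κ M qM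
  oS : DPairV κ S S' qS
  hx : x ∈ HZ (N.hom S).lat
  hx1 : ∀ f ∈ HZ (N.hom S).lat, ∃ c : k, f = c • x
  hφ : φ ∈ HZ (N.hom M).lat
  hφ1 : ∀ f ∈ HZ (N.hom M).lat, ∃ c : k, f = c • φ
  hφφ : ∃ u v, (∀ w, φ w = 0 → B u w = 0) ∧ (∀ w, φ w = 0 → B v w = 0) ∧ B u v ≠ 0
  hSM : h1 (S.hom M).lat = 0
  noA : NoHom (N.sub A) M
  maxA : ∀ G, NoHom (N.sub G) M → G ≤ A
  noS : NoHom (N.sub (perp B A)) S
  noS' : NoHom (N.sub (perp B A)) S'
  hz : ∀ z ∈ HZ (N.hom S').lat, ∃ c, IsLam κ S c ∧ ∀ e u, qS u (z e) = c (x e) u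
  inj : ∀ c, IsLam κ S c → (∀ u v, c (x u) (x v) = 0) → c = 0
  ex : ∃ c, IsLam κ S c ∧ c ≠ 0
  nil : ∀ ε : F, (ε = 1 ∨ ε = -1) → ∀ Θ ∈ adj B ε, Higgs κ N Θ → IsNilpotent Θ → Θ = 0
  vv : VV N B

/-- adjoint of a form of Higgs type -/
theorem exists_op {N : Bun C E} {B : LinearMap.BilinForm F E} (hN : Orth N B) {κ : P → ℤ}
    {ε : F} (β : LinearMap.BilinForm F E)
    (hβ : ∀ u v, β u v = ε * β v u) (hβl : ∀ p a b u v, u ∈ (N.ch p).L a → v ∈ (N.ch p).L b →
      β u v ∈ (C.pl p).M (C.per p) (a + b - κ p)) :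
    ∃ Θ : E →ₗ[F] E, (∀ u v, B (Θ u) v = β u v) ∧ Θ ∈ adj B ε ∧ Higgs κ N Θ := by
  let e : E ≃ₗ[F] Dual F E := LinearEquiv.ofBijective B.flip (flip_bij hN.symm hN.nd)
  have he : ∀ x y, e x y = B y x := fun _ _ => rfl
  let Θ : E →ₗ[F] E := e.symm.toLinearMap ∘ₗ β
  have hΘ : ∀ u v, B (Θ u) v = β u v := by
    intro u v
    have h1 := he (e.symm (β u)) v
    rw [LinearEquiv.apply_symm_apply] at h1
    rw [hN.symm, h1]
    rfl
  refine ⟨Θ, hΘ, ?_, ?_⟩
  · intro u v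
    rw [hΘ, hβ, hN.symm u, hΘ]
  · rw [Higgs, mem_HZ]
    intro p
    show Θ ∈ ((N.ch p).hom (N.ch p)).L (-κ p)
    rw [LChain.mem_hom]
    intro a u hu
    rw [hN.dual]
    intro b v hv
    rw [hΘ]
    have := hβl p a b u v hu hv
    rwa [show a + -κ p + b = a + b - κ p by ring]

section

variable {κ : P → ℤ} {N : Bun C E} {B : LinearMap.BilinForm F E} {M : Bun C W}
  {qM : LinearMap.BilinForm F W} {S : Bun C U} {S' : Bun C U'} {qS : U →ₗ[F] U' →ₗ[F] F}
  {x : E →ₗ[F] U} {φ : E →ₗ[F] W} {A : Submodule F E}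

/-- a form of Higgs type which vanishes on a subspace and on its orthogonal is zero -/
theorem L3In.form_zero (h : L3In κ N B M qM S S' qS x φ A) {ε : F} (hε : ε = 1 ∨ ε = -1)
    {β : LinearMap.BilinForm F E} (hβ : ∀ u v, β u v = ε * β v u)
    (hβl : ∀ p a b u v, u ∈ (N.ch p).L a → v ∈ (N.ch p).L b →
      β u v ∈ (C.pl p).M (C.per p) (a + b - κ p)) {G : Submodule F E}
    (h1 : ∀ u ∈ G, ∀ v, β u v = 0) (h2 : ∀ u ∈ perp B G, ∀ v, β u v = 0) : β = 0 := by
  obtain ⟨Θ, e1, e2, e3⟩ := exists_op h.oN β hβ hβl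
  have h3 : ∀ u, Θ u ∈ G := by
    intro u
    rw [← perp_perp' h.oN.symm h.oN.nd G, mem_perp]
    intro v hv
    rw [h.oN.symm, e1, hβ, h2 v hv, mul_zero]
  have h4 : ∀ u ∈ G, Θ u = 0 := by
    intro u hu
    refine h.oN.nd _ fun v => ?_
    rw [e1, h1 u hu]
  have h5 : Θ = 0 := by
    refine h.nil ε hε Θ e2 e3 ⟨2, ?_⟩
    apply LinearMap.ext
    intro u
    rw [pow_two, Module.End.mul_apply, h4 _ (h3 u)]
    rfl
  apply LinearMap.ext₂
  intro u v
  rw [← e1, h5]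
  simp

/-- `φ` does not factor through a quotient by the orthogonal of an `M`-invisible subobject -/
theorem L3In.noDualM (h : L3In κ N B M qM S S' qS x φ A) {G : Submodule F E}
    (hG : NoHom (N.sub G) M) : NoHom (N.quo (perp B G)) M := by
  intro f hf
  obtain ⟨c, hc⟩ := h.hφ1 _ (comp_hz hf (mkQ_hz N (perp B G)))
  by_cases hc0 : c = 0
  · apply LinearMap.ext
    intro y
    obtain ⟨y, rfl⟩ := (perp B G).mkQ_surjective y
    have := LinearMap.congr_fun hc y
    rw [hc0, zero_smul] at this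
    exact this
  exfalso
  have h1 : ∀ y ∈ perp B G, φ y = 0 := by
    intro y hy
    have h2 := LinearMap.congr_fun hc y
    have h3 : (perp B G).mkQ y = 0 := (Submodule.Quotient.mk_eq_zero _).2 hy
    rw [LinearMap.comp_apply, h3, map_zero, LinearMap.smul_apply] at h2
    exact (smul_eq_zero.1 h2.symm).resolve_left hc0
  have h4 : ∀ y ∈ G, φ y = 0 := by
    intro y hy
    have h5 := hG (φ ∘ₗ G.subtype) (comp_hz h.hφ (subtype_hz N G))
    exact LinearMap.congr_fun h5 (⟨y, hy⟩ : G)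
  obtain ⟨u, v, hu, hv, huv⟩ := h.hφφ
  have h6 : u ∈ G := by
    rw [← perp_perp' h.oN.symm h.oN.nd G, mem_perp]
    intro w hw
    rw [h.oN.symm, hu w (h1 w hw)]
  apply huv
  rw [h.oN.symm, hv u (h4 u h6)]

/-- the same for `x` -/
theorem L3In.noDualS (h : L3In κ N B M qM S S' qS x φ A) {G : Submodule F E}
    (hG : NoHom (N.sub G) S) : NoHom (N.quo (perp B G)) S := by
  intro f hf
  obtain ⟨c, hc⟩ := h.hx1 _ (comp_hz hf (mkQ_hz N (perp B G)))
  by_cases hc0 : c = 0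
  · apply LinearMap.ext
    intro y
    obtain ⟨y, rfl⟩ := (perp B G).mkQ_surjective y
    have := LinearMap.congr_fun hc y
    rw [hc0, zero_smul] at this
    exact this
  exfalso
  have h1 : ∀ y ∈ perp B G, x y = 0 := by
    intro y hy
    have h2 := LinearMap.congr_fun hc y
    have h3 : (perp B G).mkQ y = 0 := (Submodule.Quotient.mk_eq_zero _).2 hy
    rw [LinearMap.comp_apply, h3, map_zero, LinearMap.smul_apply] at h2
    exact (smul_eq_zero.1 h2.symm).resolve_left hc0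
  have h4 : ∀ y ∈ G, x y = 0 := by
    intro y hy
    have h5 := hG (x ∘ₗ G.subtype) (comp_hz h.hx (subtype_hz N G))
    exact LinearMap.congr_fun h5 (⟨y, hy⟩ : G)
  obtain ⟨d, hd, hd0⟩ := h.ex
  apply hd0
  refine h.inj d hd ?_
  have hlx := mem_hz_hom.1 h.hx
  have h7 : d.compl₁₂ x x = 0 := by
    refine h.form_zero (G := G) (ε := -1) (Or.inr rfl) ?_ ?_ ?_ ?_
    · intro u v
      show d (x u) (x v) = -1 * d (x v) (x u)
      rw [hd.skew]; ring
    · intro p a b u v hu hv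
      exact hd.level p a b _ _ (hlx p a u hu) (hlx p b v hv)
    · intro u hu v
      show d (x u) (x v) = 0
      rw [h4 u hu, map_zero, LinearMap.zero_apply]
    · intro u hu v
      show d (x u) (x v) = 0
      rw [h1 u hu, map_zero, LinearMap.zero_apply]
  intro u v
  exact LinearMap.congr_fun (LinearMap.congr_fun h7 u) v

/-- the same for `S'` -/
theorem L3In.noDualS' (h : L3In κ N B M qM S S' qS x φ A) {G : Submodule F E}
    (hG : NoHom (N.sub G) S) : NoHom (N.quo (perp B G)) S' := by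
  intro f hf
  obtain ⟨d, hd, hdz⟩ := h.hz _ (comp_hz hf (mkQ_hz N (perp B G)))
  have h1 : ∀ y ∈ perp B G, ∀ u, d (x y) u = 0 := by
    intro y hy u
    rw [← hdz]
    have h3 : (perp B G).mkQ y = 0 := (Submodule.Quotient.mk_eq_zero _).2 hy
    rw [LinearMap.comp_apply, h3, map_zero, map_zero]
  have h4 : ∀ y ∈ G, x y = 0 := by
    intro y hy
    have h5 := hG (x ∘ₗ G.subtype) (comp_hz h.hx (subtype_hz N G))
    exact LinearMap.congr_fun h5 (⟨y, hy⟩ : G)
  have hlx := mem_hz_hom.1 h.hx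
  have h7 : d.compl₁₂ x x = 0 := by
    refine h.form_zero (G := G) (ε := -1) (Or.inr rfl) ?_ ?_ ?_ ?_
    · intro u v
      show d (x u) (x v) = -1 * d (x v) (x u)
      rw [hd.skew]; ring
    · intro p a b u v hu hv
      exact hd.level p a b _ _ (hlx p a u hu) (hlx p b v hv)
    · intro u hu v
      show d (x u) (x v) = 0
      rw [h4 u hu, map_zero, LinearMap.zero_apply]
    · intro u hu v
      exact h1 u hu _
  have h8 : d = 0 := h.inj d hd fun u v => LinearMap.congr_fun (LinearMap.congr_fun h7 u) v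
  have hq : Function.Injective qS.flip := h.oS.bij.1
  apply LinearMap.ext
  intro y
  obtain ⟨y, rfl⟩ := (perp B G).mkQ_surjective y
  apply hq
  apply LinearMap.ext
  intro u
  have h9 := hdz y u
  rw [h8] at h9
  show qS u (f ((perp B G).mkQ y)) = qS u ((0 : (E ⧸ perp B G) →ₗ[F] U') _)
  rw [LinearMap.zero_apply, map_zero]
  simpa using h9

/-! ### vanishing of all cohomology -/

/-- `RHom (A, B) = 0` -/
def RZ (A : Bun C E) (B : Bun C W) : Prop := NoHom A B ∧ h1 (A.hom B).lat = 0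

theorem RZ.chi {A : Bun C E} {B : Bun C W} (h : RZ A B) : H430.chi (A.hom B).lat = 0 :=
  h.1.chi_zero h.2

theorem rz_of_serre {κ : P → ℤ} (hκ : Dualizing C κ) {A : Bun C E} {A' : Bun C E'}
    {T : E →ₗ[F] E' →ₗ[F] F} (h : DPair A A' T) {S : Bun C U} {S' : Bun C U'}
    {q : U →ₗ[F] U' →ₗ[F] F} (hv : DPairV κ S S' q) (h1' : NoHom A S) (h2 : NoHom A' S') :
    RZ A S ∧ RZ A' S' := by
  have h3 := serreV hκ h hv
  exact ⟨⟨h1', h3.1.trans h2.h0⟩, ⟨h2, h3.2.1.symm.trans h1'.h0⟩⟩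

theorem L3In.rzM (h : L3In κ N B M qM S S' qS x φ A) {G : Submodule F E}
    (hG : NoHom (N.sub G) M) : RZ (N.sub G) M ∧ RZ (N.quo (perp B G)) M :=
  rz_of_serre h.hκ (h.oN.pair.sub G) h.oM.pair hG (h.noDualM hG)

theorem L3In.rzS (h : L3In κ N B M qM S S' qS x φ A) {G : Submodule F E}
    (hG : NoHom (N.sub G) S) (hG' : NoHom (N.sub G) S') :
    (RZ (N.sub G) S ∧ RZ (N.quo (perp B G)) S') ∧ (RZ (N.sub G) S' ∧ RZ (N.quo (perp B G)) S) :=
  ⟨rz_of_serre h.hκ (h.oN.pair.sub G) h.oS hG (h.noDualS' hG),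
    rz_of_serre h.hκ (h.oN.pair.sub G) h.oS.symm hG' (h.noDualS hG)⟩

theorem L3In.chiM (h : L3In κ N B M qM S S' qS x φ A) : chi (N.hom M).lat = 0 := by
  have := (serreV h.hκ h.oN.pair h.oM.pair).2.2
  linarith

theorem L3In.chiS (h : L3In κ N B M qM S S' qS x φ A) :
    chi (N.hom S').lat = -chi (N.hom S).lat := (serreV h.hκ h.oN.pair h.oS).2.2

/-! ### the largest invisible subobject -/

/-- invisible subobjects -/
def Inv (N : Bun C E) (M : Bun C W) (S : Bun C U) (S' : Bun C U') (G : Submodule F E) : Prop :=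
  NoHom (N.sub G) M ∧ NoHom (N.sub G) S ∧ NoHom (N.sub G) S'

theorem exists_inv (N : Bun C E) (M : Bun C W) (S : Bun C U) (S' : Bun C U') :
    ∃ A₀, Inv N M S S' A₀ ∧ ∀ G, Inv N M S S' G → G ≤ A₀ :=
  exists_greatest (Inv N M S S') ⟨noHom_bot N M, noHom_bot N S, noHom_bot N S'⟩
    fun _ _ h h' => ⟨h.1.sup h'.1, h.2.1.sup h'.2.1, h.2.2.sup h'.2.2⟩

/-- the preimage of the image of a map `G → N/G` -/
theorem NoHom.preim {G H : Submodule F E} (hG : NoHom (N.sub G) M) {f : G →ₗ[F] (E ⧸ G)}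
    (hf : f ∈ HZ ((N.sub G).hom (N.quo G)).lat) (hH : ∀ y, y ∈ H ↔ ∃ z, f z = G.mkQ y) :
    NoHom (N.sub H) M := by
  intro g hg
  have hGH : G ≤ H := by
    intro y hy
    rw [hH]
    have : G.mkQ y = 0 := (Submodule.Quotient.mk_eq_zero _).2 hy
    rw [this]
    exact ⟨0, map_zero _⟩
  have hg0 : ∀ y (hy : y ∈ G), g ⟨y, hGH hy⟩ = 0 := by
    intro y hy
    have h1 := hG (g ∘ₗ Submodule.inclusion hGH) (mem_hz_hom.2 fun p b z hz =>
      mem_hz_hom.1 hg p b (Submodule.inclusion hGH z) hz)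
    exact LinearMap.congr_fun h1 ⟨y, hy⟩
  -- lift `f`
  obtain ⟨s, hs⟩ := G.mkQ.exists_rightInverse_of_surjective
    (LinearMap.range_eq_top.2 G.mkQ_surjective)
  have hs' : ∀ y, G.mkQ (s y) = y := fun y => LinearMap.congr_fun hs y
  have hsH : ∀ y : G, s (f y) ∈ H := fun y => by
    rw [hH, hs']
    exact ⟨y, rfl⟩
  let t : G →ₗ[F] H := (s ∘ₗ f).codRestrict H hsH
  have ht : g ∘ₗ t = 0 := by
    refine hG _ (mem_hz_hom.2 fun p b y hy => ?_)
    obtain ⟨n, hn, hnf⟩ := mem_hz_hom.1 hf p b y hy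
    have hnf' : G.mkQ n = f y := hnf
    have hnH : n ∈ H := by
      rw [hH, hnf']
      exact ⟨y, rfl⟩
    have hd : s (f y) - n ∈ G := by
      rw [← Submodule.Quotient.mk_eq_zero]
      show G.mkQ (s (f y) - n) = 0
      rw [map_sub, hs', hnf', sub_self]
    have h2 := hg0 _ hd
    have h3 : (⟨s (f y) - n, hGH hd⟩ : H) = t y - ⟨n, hnH⟩ := rfl
    rw [h3, map_sub, sub_eq_zero] at h2
    show g (t y) ∈ (M.ch p).L b
    rw [h2]
    exact mem_hz_hom.1 hg p b ⟨n, hnH⟩ hn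
  apply LinearMap.ext
  rintro ⟨y, hy⟩
  obtain ⟨z, hz⟩ := (hH y).1 hy
  have hd : y - s (f z) ∈ G := by
    rw [← Submodule.Quotient.mk_eq_zero]
    show G.mkQ (y - s (f z)) = 0
    rw [map_sub, hs', hz, sub_self]
  have h2 := hg0 _ hd
  have h3 : (⟨y - s (f z), hGH hd⟩ : H) = ⟨y, hy⟩ - t z := rfl
  rw [h3, map_sub, sub_eq_zero] at h2
  rw [h2]
  exact LinearMap.congr_fun ht z

/-- the largest invisible subobject `G` has no homomorphisms to `N/G` -/
theorem Inv.noHom_quo {A₀ : Submodule F E} (hA : Inv N M S S' A₀)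
    (hmax : ∀ G, Inv N M S S' G → G ≤ A₀) : NoHom (N.sub A₀) (N.quo A₀) := by
  intro f hf
  have hH : ∀ y, y ∈ (LinearMap.range f).comap A₀.mkQ ↔ ∃ z, f z = A₀.mkQ y := fun y => Iff.rfl
  have h1 := hmax _ ⟨hA.1.preim hf hH, hA.2.1.preim hf hH, hA.2.2.preim hf hH⟩
  apply LinearMap.ext
  intro y
  obtain ⟨s, hs⟩ := A₀.mkQ_surjective (f y)
  have h2 : s ∈ (LinearMap.range f).comap A₀.mkQ := by
    rw [Submodule.mem_comap, hs]
    exact ⟨y, rfl⟩
  rw [← hs]
  exact (Submodule.Quotient.mk_eq_zero _).2 (h1 h2)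

end

end Vale.Agent.P182.H668
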