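import Vale.Agent.P182.H668.Split2

/-!
# The reduction by the largest invisible subobject splits
-/

namespace Vale.Agent.P182.H668

open LinearMap Submodule Module Vale.Agent.P182 Vale.Agent.P182.H430 Vale.Agent.P182.H578

variable {k F P : Type*} [Field k] [Field F] [Algebra k F] {C : Curve k F P}
variable {E : Type*} [AddCommGroup E] [Module F E] [Module k E] [IsScalarTower k F E]
  [FiniteDimensional F E]
variable {E₂ : Type*} [AddCommGroup E₂] [Module F E₂] [Module k E₂] [IsScalarTower k F E₂]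
  [FiniteDimensional F E₂]
variable {W : Type*} [AddCommGroup W] [Module F W] [Module k W] [IsScalarTower k F W]
  [FiniteDimensional F W]
variable {U : Type*} [AddCommGroup U] [Module F U] [Module k U] [IsScalarTower k F U]
  [FiniteDimensional F U]
variable {U' : Type*} [AddCommGroup U'] [Module F U'] [Module k U'] [IsScalarTower k F U']
  [FiniteDimensional F U']

variable {κ : P → ℤ} {N : Bun C E} {B : LinearMap.BilinForm F E} {M : Bun C W}
  {qM : LinearMap.BilinForm F W} {S : Bun C U} {S' : Bun C U'} {qS : U →ₗ[F] U' →ₗ[F] F}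
  {x : E →ₗ[F] U} {φ : E →ₗ[F] W} {A : Submodule F E}

theorem noHom_sub_congr {G G' : Submodule F E} (h : G = G') (hG : NoHom (N.sub G) M) :
    NoHom (N.sub G') M := by
  subst h
  exact hG

/-- the radical of a subobject is invisible if the reduction has no cohomology -/
theorem noHom_rad {G : Submodule F E} (hG : NoHom (N.sub G) M)
    (hc : h1 (((N.sub G).quo (rad B G)).hom M).lat = 0) : NoHom (N.sub (G ⊓ perp B G)) M := by
  have h1 := NoHom.sub_left hG hc
  have h2 := NoHom.congr _ (fun p a x => sub_sub_congr N G (rad B G) p a x) h1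
  have h3 : (rad B G).map G.subtype = G ⊓ perp B G := by
    ext y
    constructor
    · rintro ⟨z, hz, rfl⟩
      exact ⟨z.2, hz⟩
    · rintro ⟨h1, h2⟩
      exact ⟨⟨y, h1⟩, h2, rfl⟩
  exact noHom_sub_congr h3 h2

theorem chi_sub_eq (N : Bun C E) (M : Bun C W) (G : Submodule F E) :
    chi ((N.sub G).hom M).lat = chi (N.hom M).lat - chi ((N.quo G).hom M).lat := by
  have := chi_hom_left N M G
  linarith

section

variable (h : L3In κ N B M qM S S' qS x φ A)

include h

theorem L3In.le_A {G : Submodule F E} (hG : Inv N M S S' G) : G ≤ A := h.maxA G hG.1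

/-- the Euler characteristics of the reduction by an invisible subobject -/
theorem L3In.chi_inv {A₀ : Submodule F E} (hA : Inv N M S S' A₀) :
    chi ((N.sub (A₀ ⊓ perp B A₀)).hom M).lat = 0 ∧ chi ((N.sub (A₀ ⊓ perp B A₀)).hom S).lat = 0 ∧
      chi ((N.sub (A₀ ⊓ perp B A₀)).hom S').lat = 0 := by
  have hD := exists_subQ N h.oN.symm A₀
  have r1 := (h.rzM hA.1).1.chi
  have r2 := (h.rzS hA.2.1 hA.2.2).1.1.chi
  have r3 := (h.rzS hA.2.1 hA.2.2).2.1.chi
  have e1 := hD.chi_eq M
  have e2 := hD.chi_eq S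
  have e3 := hD.chi_eq S'
  have n1 := (hD.noHom hA.1).chi_le
  have n2 := (hD.noHom hA.2.1).chi_le
  have n3 := (hD.noHom hA.2.2).chi_le
  have p1 := hD.chi_nonneg h.hκ h.oN h.oM
  have p2 := hD.chi_nonneg' h.hκ h.oN h.oS
  refine ⟨by linarith, by linarith, by linarith⟩

/-- the reduction of the orthogonal of an invisible subobject is orthogonal -/
theorem L3In.orth_two (hsee : Seen M S S') {A₀ : Submodule F E} (hA : Inv N M S S' A₀)
    {N₂ : Bun C E₂} {B₂ : LinearMap.BilinForm F E₂} {π : perp B A₀ →ₗ[F] E₂}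
    (h2 : SubQ N B (perp B A₀) N₂ B₂ π) : Orth N₂ B₂ := by
  obtain ⟨j1, j2, j3⟩ := h.chi_inv hA
  have e1 := h2.chi_eq M
  have e2 := h2.chi_eq S
  have e3 := h2.chi_eq S'
  have hpp := perp_perp' h.oN.symm h.oN.nd A₀
  have hJ : perp B A₀ ⊓ perp B (perp B A₀) = A₀ ⊓ perp B A₀ := by rw [hpp, inf_comm]
  rw [sub_chi_congr hJ, chi_sub_eq] at e1 e2 e3
  have r1 := (h.rzM hA.1).2.chi
  have r2 := (h.rzS hA.2.1 hA.2.2).2.2.chi
  have r3 := (h.rzS hA.2.1 hA.2.2).1.2.chi
  have c1 := h.chiM
  have c2 := h.chiS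
  exact h2.orth h.hκ h.oN h.oM h.oS hsee (by linarith) (by linarith)

/-- `A ∩ A^⊥` is invisible -/
theorem L3In.inv_rad : Inv N M S S' (A ⊓ perp B A) := by
  have hD := exists_subQ N h.oN.symm A
  have n1 := hD.noHom h.noA
  have p1 := hD.chi_nonneg h.hκ h.oN h.oM
  have hE := exists_subQ N h.oN.symm (perp B A)
  have n2 := hE.noHom h.noS
  have n3 := hE.noHom h.noS'
  have p2 := hE.chi_nonneg' h.hκ h.oN h.oS
  have hpp := perp_perp' h.oN.symm h.oN.nd A
  have hI : perp B A ⊓ perp B (perp B A) = A ⊓ perp B A := by rw [hpp, inf_comm]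
  refine ⟨noHom_rad h.noA (n1.h1_of_chi (le_antisymm n1.chi_le p1)), ?_, ?_⟩
  · have := noHom_rad (B := B) h.noS (n2.h1_of_chi (by have := n2.chi_le; have := n3.chi_le; linarith))
    exact noHom_sub_congr hI this
  · have := noHom_rad (B := B) h.noS' (n3.h1_of_chi (by have := n2.chi_le; have := n3.chi_le; linarith))
    exact noHom_sub_congr hI this

/-- the Euler characteristics of the reduction of `A^⊥` -/
theorem L3In.chi_perp :
    chi (((N.sub (perp B A)).quo (rad B (perp B A))).hom M).lat ≤ 0 ∧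
      chi (((N.sub (perp B A)).quo (rad B (perp B A))).hom S).lat ≤ 0 ∧
        chi (((N.sub (perp B A)).quo (rad B (perp B A))).hom S').lat ≤ 0 := by
  have hE := exists_subQ N h.oN.symm (perp B A)
  refine ⟨?_, (hE.noHom h.noS).chi_le, (hE.noHom h.noS').chi_le⟩
  have hD := exists_subQ N h.oN.symm A
  have n1 := (hD.noHom h.noA).chi_le
  have p1 := hD.chi_nonneg h.hκ h.oN h.oM
  have d1 := hD.chi_eq M
  have r1 := (h.rzM h.noA).1.chi
  have r2 := (h.rzM h.noA).2.chi
  have e1 := hE.chi_eq M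
  have hpp := perp_perp' h.oN.symm h.oN.nd A
  have hI : perp B A ⊓ perp B (perp B A) = A ⊓ perp B A := by rw [hpp, inf_comm]
  rw [sub_chi_congr hI, chi_sub_eq] at e1
  have c1 := h.chiM
  linarith

variable {A₀ : Submodule F E} (hA : Inv N M S S' A₀) (hmax : ∀ G, Inv N M S S' G → G ≤ A₀)

include hA hmax

/-- the image `R` of `A^⊥` in the reduction is an orthogonal subbundle -/
theorem L3In.orth_R (hsee : Seen M S S')
    {N₂ : Bun C E₂} {B₂ : LinearMap.BilinForm F E₂} {π : perp B A₀ →ₗ[F] E₂}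
    (h2 : SubQ N B (perp B A₀) N₂ B₂ π) (hle : perp B A ≤ perp B A₀) {R : Submodule F E₂}
    (hR : R = LinearMap.range (π ∘ₗ Submodule.inclusion hle)) :
    Orth (N₂.sub R) (rF B₂ R) := by
  have o2 := h.orth_two hsee hA h2
  have hpp := perp_perp' h.oN.symm h.oN.nd A₀
  have hpA := perp_perp' h.oN.symm h.oN.nd A
  have hI := hmax _ h.inv_rad
  have hker : ∀ g : perp B A₀, π g = 0 ↔ (g : E) ∈ A₀ := by
    intro g
    rw [h2.ker, hpp]
  have hmem : ∀ y, y ∈ R ↔ ∃ n : perp B A, π (Submodule.inclusion hle n) = y := by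
    intro y
    rw [hR]
    exact Iff.rfl
  -- nondegeneracy
  have hnd : ∀ y ∈ R, (∀ z ∈ R, B₂ z y = 0) → y = 0 := by
    intro y hy hy0
    obtain ⟨n, rfl⟩ := (hmem y).1 hy
    rw [hker]
    refine hI ⟨?_, n.2⟩
    refine hpA.le (mem_perp.2 ?_)
    intro w hw
    have := hy0 _ ((hmem _).2 ⟨⟨w, hw⟩, rfl⟩)
    rw [h2.form] at this
    exact this
  have hq := subQ_sub N₂ (B := B₂) hnd
  -- the map from `A^⊥`
  let πy : perp B A →ₗ[F] R := (π ∘ₗ Submodule.inclusion hle).codRestrict R
    (fun n => (hmem _).2 ⟨n, rfl⟩)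
  have hπy : Function.Surjective πy := by
    rintro ⟨y, hy⟩
    obtain ⟨n, hn⟩ := (hmem y).1 hy
    exact ⟨n, Subtype.ext hn⟩
  have hkr : LinearMap.ker πy = rad B (perp B A) := by
    ext n
    rw [LinearMap.mem_ker]
    constructor
    · intro hn
      have h3 : π (Submodule.inclusion hle n) = 0 := congrArg Subtype.val hn
      rw [hker] at h3
      show (n : E) ∈ perp B (perp B A)
      rw [hpA]
      exact h.le_A hA h3
    · intro hn
      have hn' : (n : E) ∈ perp B (perp B A) := hn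
      rw [hpA] at hn'
      apply Subtype.ext
      show π (Submodule.inclusion hle n) = 0
      rw [hker]
      exact hI ⟨hn', n.2⟩
  obtain ⟨c1, c2, c3⟩ := h.chi_perp
  have hl : ∀ p a (n : perp B A), n ∈ ((N.sub (perp B A)).ch p).L a →
      πy n ∈ ((N₂.sub R).ch p).L a := fun p a n hn => h2.mem (g := Submodule.inclusion hle n) hn
  have k1 := chi_le_surj (A := N.sub (perp B A)) (A' := N₂.sub R) πy hπy hl M
  have k2 := chi_le_surj (A := N.sub (perp B A)) (A' := N₂.sub R) πy hπy hl S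
  have k3 := chi_le_surj (A := N.sub (perp B A)) (A' := N₂.sub R) πy hπy hl S'
  rw [sub_chi_congr hkr] at k1 k2 k3
  have l1 := chi_hom_left (N.sub (perp B A)) M (rad B (perp B A))
  have l2 := chi_hom_left (N.sub (perp B A)) S (rad B (perp B A))
  have l3 := chi_hom_left (N.sub (perp B A)) S' (rad B (perp B A))
  exact hq.orth h.hκ o2 h.oM h.oS hsee (by linarith) (by linarith)

end

end Vale.Agent.P182.H668
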