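import Vale.Agent.P182.H668.Homs
import Vale.Agent.P182.H250.Nil

/-!
# The field induced by a form on `S`
-/

set_option linter.unusedSectionVars false

namespace Vale.Agent.P182.H668

open LinearMap Submodule Module Vale.Agent.P182 Vale.Agent.P182.H430 Vale.Agent.P182.H578

variable {k F P : Type*} [Field k] [Field F] [Algebra k F] {C : Curve k F P}
variable {E : Type*} [AddCommGroup E] [Module F E] [Module k E] [IsScalarTower k F E]
  [FiniteDimensional F E]
variable {E₂ : Type*} [AddCommGroup E₂] [Module F E₂] [Module k E₂] [IsScalarTower k F E₂]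
  [FiniteDimensional F E₂]
variable {W : Type*} [AddCommGroup W] [Module F W] [Module k W] [IsScalarTower k F W]
  [FiniteDimensional F W]
variable {U : Type*} [AddCommGroup U] [Module F U] [Module k U] [IsScalarTower k F U]
  [FiniteDimensional F U]
variable {U' : Type*} [AddCommGroup U'] [Module F U'] [Module k U'] [IsScalarTower k F U']
  [FiniteDimensional F U']

variable {κ : P → ℤ} {N : Bun C E} {B : LinearMap.BilinForm F E} {M : Bun C W}
  {qM : LinearMap.BilinForm F W} {S : Bun C U} {S' : Bun C U'} {qS : U →ₗ[F] U' →ₗ[F] F}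
  {x : E →ₗ[F] U} {φ : E →ₗ[F] W} {A A₀ : Submodule F E}
  {N₂ : Bun C E₂} {B₂ : LinearMap.BilinForm F E₂} {π : perp B A₀ →ₗ[F] E₂} {R : Submodule F E₂}

theorem Cut.exists_Xi' (h : Cut κ N B M qM S S' qS x φ A A₀ N₂ B₂ π R)
    {c : LinearMap.BilinForm F U} (hc : IsLam κ S c) (hc0 : c ≠ 0) {xP : perp B₂ R →ₗ[F] U}
    (hxP : ∀ (g : perp B A₀) (hg : π g ∈ perp B₂ R), xP ⟨π g, hg⟩ = x g) :
    ∃ Ξ : perp B₂ R →ₗ[F] perp B₂ R,
      (∀ u v, rF B₂ (perp B₂ R) (Ξ u) v = c (xP u) (xP v)) ∧ ¬ IsNilpotent Ξ := by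
  have hlx := mem_hz_hom.1 h.l3.hx
  obtain ⟨Θ, e1, e2, e3⟩ := exists_op (ε := -1) h.l3.oN (κ := κ) (c.compl₁₂ x x)
    (by
      intro u v
      show c (x u) (x v) = -1 * c (x v) (x u)
      rw [hc.skew]; ring)
    (fun p a b u v hu hv => hc.level p a b _ _ (hlx p a u hu) (hlx p b v hv))
  have e1' : ∀ u v, B (Θ u) v = c (x u) (x v) := e1
  have hK : ∀ a ∈ A₀, Θ a = 0 := by
    intro a ha
    refine h.l3.oN.nd _ fun v => ?_
    rw [e1', h.xA₀ ha, map_zero, LinearMap.zero_apply]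
  obtain ⟨f, f1, f2, f3, -⟩ := H250.exists_orthProj (B2 := B₂) h.o2.symm (R := perp B₂ R) (by
    intro y hy hy'
    have h3 := h.oP.nd ⟨y, hy⟩ (fun z => by
      show B₂ y z = 0
      rw [h.o2.symm]
      exact mem_perp.1 hy' z z.2)
    exact congrArg Subtype.val h3)
  have hadj : ∀ u v, B (Θ u) v = (-1) * B u (Θ v) := e2
  obtain ⟨Ξ, t1, t2⟩ := H250.exists_ThR h.l3.oN.symm h.red.surj h.ker h.red.form f1 f2 hK hadj
  refine ⟨Ξ, ?_, ?_⟩
  · rintro ⟨u, hu⟩ ⟨v, hv⟩
    obtain ⟨g, rfl⟩ := h.red.surj u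
    obtain ⟨g', rfl⟩ := h.red.surj v
    rw [hxP, hxP, ← e1']
    exact t1 ⟨π g, hu⟩ ⟨π g', hv⟩ g g' rfl rfl
  · intro hn
    have h1 : IsNilpotent Θ := by
      refine H250.nil_of_ThR h.l3.oN.symm h.red.surj h.ker h.o2.nd h.red.form f1 f2 hK hadj ?_ t1 hn
      intro g g' hg
      rw [perp_perp' h.o2.symm h.o2.nd] at hg
      obtain ⟨n, hn', hnn⟩ := h.mem_R.1 hg
      have h2 : (g : E) - n ∈ A₀ := by
        have h3 : π (g - ⟨n, h.le hn'⟩) = 0 := by rw [map_sub, hnn, sub_self]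
        exact (h.ker _).1 h3
      have h4 : x g = 0 := by
        have h5 := h.xA₀ h2
        rw [map_sub, h.xperp hn', sub_zero] at h5
        exact h5
      rw [e1', h4, map_zero, LinearMap.zero_apply]
    have h2 := h.l3.nil (-1) (Or.inr rfl) Θ e2 e3 h1
    apply hc0
    refine h.l3.inj c hc fun u v => ?_
    rw [← e1', h2, LinearMap.zero_apply, map_zero, LinearMap.zero_apply]

end Vale.Agent.P182.H668
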